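import Vale.Agent.P168.Stm

/-! P168, module App: approximation of the tilted increments by finitely labelled tests. -/

namespace Vale.Agent.P168

open Finset Real

noncomputable section

namespace App

lemma exists_le {C : Type} [Fintype C] (τ u : C → ℝ) (K : ℝ) (hτ : Pr τ)
    (h : ∑ a, τ a * u a ≤ K) : ∃ a, u a ≤ K := by
  by_contra hc
  push Not at hc
  have hex : ∃ a, 0 < τ a := by
    by_contra h0
    push Not at h0
    have : ∑ a, τ a ≤ 0 := Finset.sum_nonpos (fun a _ => h0 a)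
    rw [hτ.2] at this
    linarith
  obtain ⟨a0, ha0⟩ := hex
  have hlt : ∑ a, τ a * K < ∑ a, τ a * u a :=
    Finset.sum_lt_sum (fun a _ => mul_le_mul_of_nonneg_left (hc a).le (hτ.1 a))
      ⟨a0, Finset.mem_univ _, mul_lt_mul_of_pos_left (hc a0) ha0⟩
  rw [← Finset.sum_mul, hτ.2] at hlt
  linarith

lemma var_pt {C : Type} [Fintype C] (τ g : C → ℝ) (b s : ℝ) (hτ : Pr τ)
    (hg : ∀ a, |g a| ≤ b) :
    ∑ a, τ a * (s + (g a - ∑ a', τ a' * g a')) ^ 2 ≤ s ^ 2 + b ^ 2 := by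
  set G := ∑ a', τ a' * g a' with hG
  have e : ∀ a, τ a * (s + (g a - G)) ^ 2 =
      (s - G) ^ 2 * τ a + 2 * (s - G) * (τ a * g a) + τ a * g a ^ 2 := fun a => by ring
  have h2 : ∑ a, τ a * g a ^ 2 ≤ b ^ 2 := by
    calc ∑ a, τ a * g a ^ 2 ≤ ∑ a, τ a * b ^ 2 :=
          Finset.sum_le_sum (fun a _ => mul_le_mul_of_nonneg_left
            (sq_le_sq' (abs_le.1 (hg a)).1 (abs_le.1 (hg a)).2) (hτ.1 a))
      _ = b ^ 2 := by rw [← Finset.sum_mul, hτ.2, one_mul]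
  rw [Finset.sum_congr rfl (fun a _ => e a), Finset.sum_add_distrib, Finset.sum_add_distrib,
    ← Finset.mul_sum, ← Finset.mul_sum, hτ.2, ← hG]
  nlinarith [sq_nonneg G]

lemma maurey {Ξ C : Type} [Fintype Ξ] [Fintype C] (p : Ξ → ℝ) (τ : C → ℝ) (g : C → Ξ → ℝ)
    (b : ℝ) (hp : Pr p) (hτ : Pr τ) (hg : ∀ a ξ, |g a ξ| ≤ b) (M : ℕ) :
    ∃ c : Fin M → C,
      Ex p (fun ξ => (∑ i, (g (c i) ξ - ∑ a, τ a * g a ξ)) ^ 2) ≤ M * b ^ 2 := by
  induction M with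
  | zero => exact ⟨Fin.elim0, by simp [Ex]⟩
  | succ M ih =>
    obtain ⟨c, hc⟩ := ih
    have key : ∑ a, τ a * Ex p (fun ξ => ((∑ i, (g (c i) ξ - ∑ a, τ a * g a ξ)) +
        (g a ξ - ∑ a', τ a' * g a' ξ)) ^ 2) ≤ ((M + 1 : ℕ) : ℝ) * b ^ 2 := by
      have e1 : ∑ a, τ a * Ex p (fun ξ => ((∑ i, (g (c i) ξ - ∑ a, τ a * g a ξ)) +
          (g a ξ - ∑ a', τ a' * g a' ξ)) ^ 2) =
          ∑ ξ, p ξ * ∑ a, τ a * ((∑ i, (g (c i) ξ - ∑ a, τ a * g a ξ)) +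
            (g a ξ - ∑ a', τ a' * g a' ξ)) ^ 2 := by
        simp only [Ex, Finset.mul_sum]
        rw [Finset.sum_comm]
        exact Finset.sum_congr rfl (fun ξ _ => Finset.sum_congr rfl (fun a _ => by ring))
      rw [e1]
      calc _ ≤ ∑ ξ, p ξ * ((∑ i, (g (c i) ξ - ∑ a, τ a * g a ξ)) ^ 2 + b ^ 2) :=
            Finset.sum_le_sum (fun ξ _ => mul_le_mul_of_nonneg_left
              (var_pt τ (fun a => g a ξ) b _ hτ (fun a => hg a ξ)) (hp.1 ξ))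
        _ = Ex p (fun ξ => (∑ i, (g (c i) ξ - ∑ a, τ a * g a ξ)) ^ 2) + b ^ 2 := by
            simp only [Ex, mul_add, Finset.sum_add_distrib]
            rw [← Finset.sum_mul, hp.2, one_mul]
        _ ≤ _ := by push_cast; linarith
    obtain ⟨a, ha⟩ := exists_le τ _ _ hτ key
    refine ⟨Fin.cons a c, le_trans (le_of_eq ?_) ha⟩
    unfold Ex
    refine Finset.sum_congr rfl (fun ξ _ => ?_)
    simp only [Fin.sum_univ_succ, Fin.cons_zero, Fin.cons_succ]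
    ring

lemma jensen_sq {C : Type} [Fintype C] (τ d : C → ℝ) (hτ : Pr τ) :
    (∑ a, τ a * d a) ^ 2 ≤ ∑ a, τ a * d a ^ 2 := by
  set D := ∑ a, τ a * d a with hD
  have h0 : 0 ≤ ∑ a, τ a * (d a - D) ^ 2 :=
    Finset.sum_nonneg (fun a _ => mul_nonneg (hτ.1 a) (sq_nonneg _))
  have e : ∀ a, τ a * (d a - D) ^ 2 = τ a * d a ^ 2 - 2 * D * (τ a * d a) + D ^ 2 * τ a :=
    fun a => by ring
  rw [Finset.sum_congr rfl (fun a _ => e a), Finset.sum_add_distrib, Finset.sum_sub_distrib,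
    ← Finset.mul_sum, ← Finset.mul_sum, hτ.2, ← hD] at h0
  nlinarith

lemma combine {Ξ C : Type} [Fintype Ξ] [Fintype C] (p : Ξ → ℝ) (τ : C → ℝ) (f g : C → Ξ → ℝ)
    (b e : ℝ) (M : ℕ) (hp : Pr p) (hτ : Pr τ) (hg : ∀ a ξ, |g a ξ| ≤ b)
    (hfg : ∀ a, Ex p (fun ξ => (f a ξ - g a ξ) ^ 2) ≤ e) (hM : 0 < M) :
    ∃ c : Fin M → C,
      Ex p (fun ξ => (∑ a, τ a * f a ξ - (M : ℝ)⁻¹ * ∑ i, g (c i) ξ) ^ 2) ≤
        2 * e + 2 * (b ^ 2 / M) := by
  obtain ⟨c, hc⟩ := maurey p τ g b hp hτ hg M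
  refine ⟨c, ?_⟩
  have hM' : (0 : ℝ) < M := by exact_mod_cast hM
  have pt : ∀ ξ, (∑ a, τ a * f a ξ - (M : ℝ)⁻¹ * ∑ i, g (c i) ξ) ^ 2 ≤
      2 * ∑ a, τ a * (f a ξ - g a ξ) ^ 2 +
        2 * ((M : ℝ)⁻¹ ^ 2 * (∑ i, (g (c i) ξ - ∑ a, τ a * g a ξ)) ^ 2) := by
    intro ξ
    have h1 := jensen_sq τ (fun a => f a ξ - g a ξ) hτ
    have e1 : ∑ a, τ a * (f a ξ - g a ξ) = ∑ a, τ a * f a ξ - ∑ a, τ a * g a ξ := by
      rw [← Finset.sum_sub_distrib]
      exact Finset.sum_congr rfl (fun a _ => by ring)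
    have e2 : ∑ i, (g (c i) ξ - ∑ a, τ a * g a ξ) =
        ∑ i, g (c i) ξ - M * ∑ a, τ a * g a ξ := by
      rw [Finset.sum_sub_distrib]
      simp
    rw [e1] at h1
    rw [e2]
    set F := ∑ a, τ a * f a ξ
    set G := ∑ a, τ a * g a ξ
    set S := ∑ i, g (c i) ξ
    have e3 : (M : ℝ)⁻¹ ^ 2 * (S - M * G) ^ 2 = ((M : ℝ)⁻¹ * S - G) ^ 2 := by
      field_simp
    rw [e3]
    nlinarith [sq_nonneg ((F - G) + ((M : ℝ)⁻¹ * S - G))]
  have h1 : ∑ ξ, p ξ * ∑ a, τ a * (f a ξ - g a ξ) ^ 2 ≤ e := by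
    have e1 : ∑ ξ, p ξ * ∑ a, τ a * (f a ξ - g a ξ) ^ 2 =
        ∑ a, τ a * Ex p (fun ξ => (f a ξ - g a ξ) ^ 2) := by
      simp only [Ex, Finset.mul_sum]
      rw [Finset.sum_comm]
      exact Finset.sum_congr rfl (fun a _ => Finset.sum_congr rfl (fun ξ _ => by ring))
    rw [e1]
    calc _ ≤ ∑ a, τ a * e :=
          Finset.sum_le_sum (fun a _ => mul_le_mul_of_nonneg_left (hfg a) (hτ.1 a))
      _ = e := by rw [← Finset.sum_mul, hτ.2, one_mul]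
  have h2 : (M : ℝ)⁻¹ ^ 2 * Ex p (fun ξ => (∑ i, (g (c i) ξ - ∑ a, τ a * g a ξ)) ^ 2) ≤
      b ^ 2 / M := by
    calc _ ≤ (M : ℝ)⁻¹ ^ 2 * (M * b ^ 2) := mul_le_mul_of_nonneg_left hc (sq_nonneg _)
      _ = b ^ 2 / M := by field_simp
  calc _ ≤ ∑ ξ, p ξ * (2 * ∑ a, τ a * (f a ξ - g a ξ) ^ 2 +
        2 * ((M : ℝ)⁻¹ ^ 2 * (∑ i, (g (c i) ξ - ∑ a, τ a * g a ξ)) ^ 2)) :=
        Finset.sum_le_sum (fun ξ _ => mul_le_mul_of_nonneg_left (pt ξ) (hp.1 ξ))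
    _ = 2 * ∑ ξ, p ξ * ∑ a, τ a * (f a ξ - g a ξ) ^ 2 +
        2 * ((M : ℝ)⁻¹ ^ 2 * Ex p (fun ξ => (∑ i, (g (c i) ξ - ∑ a, τ a * g a ξ)) ^ 2)) := by
        unfold Ex
        rw [Finset.mul_sum, Finset.mul_sum, Finset.mul_sum, ← Finset.sum_add_distrib]
        exact Finset.sum_congr rfl (fun ξ _ => by ring)
    _ ≤ _ := by linarith

/-- `f` is approximated within `e` by a test measurable for a labeling with values below `L`. -/
def Ap {T J V : Type} [Fintype T] [Fintype J] [DecidableEq J] [Fintype V]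
    (p : T × (J → V) → ℝ) (L : ℕ) (e : ℝ) (f : T × (J → V) → ℝ) : Prop :=
  ∃ l : V → ℕ, (∀ i, l i < L) ∧ ∃ g : T × (J → V) → ℝ, Meas (tl l) g ∧
    Ex p (fun ξ => (f ξ - g ξ) ^ 2) ≤ e

lemma step {T J V C : Type} [Fintype T] [Fintype J] [DecidableEq J] [Fintype V] [Fintype C]
    (p : T × (J → V) → ℝ) (τ : C → ℝ) (f : C → T × (J → V) → ℝ) (b e : ℝ) (L M : ℕ)
    (hp : Pr p) (hτ : Pr τ) (hM : 0 < M)
    (h : ∀ a, ∃ l : V → ℕ, (∀ i, l i < L) ∧ ∃ g : T × (J → V) → ℝ, Meas (tl l) g ∧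
      (∀ ξ, |g ξ| ≤ b) ∧ Ex p (fun ξ => (f a ξ - g ξ) ^ 2) ≤ e) :
    Ap p (L ^ M) (2 * e + 2 * (b ^ 2 / M)) (fun ξ => ∑ a, τ a * f a ξ) := by
  choose l hl g hm hb he using h
  obtain ⟨c, hc⟩ := combine p τ f g b e M hp hτ hb he hM
  refine ⟨fun i => (finFunctionFinEquiv (fun k : Fin M => (⟨l (c k) i, hl _ _⟩ : Fin L)) : ℕ),
    fun i => Fin.is_lt _, fun ξ => (M : ℝ)⁻¹ * ∑ i, g (c i) ξ, ?_, hc⟩
  intro ξ ξ' hξ
  have h1 : ξ.1 = ξ'.1 := (Prod.ext_iff.1 hξ).1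
  have h2 : ∀ k j, l (c k) (ξ.2 j) = l (c k) (ξ'.2 j) := by
    intro k j
    have h3 := congrFun (congrArg Prod.snd hξ) j
    have h4 := finFunctionFinEquiv.injective (Fin.ext h3)
    exact congrArg Fin.val (congrFun h4 k)
  have h5 : ∀ k, g (c k) ξ = g (c k) ξ' := fun k =>
    hm (c k) ξ ξ' (Prod.ext h1 (funext (h2 k)))
  simp only [h5]

lemma exp_lip {u v B : ℝ} (hu : |u| ≤ B) (hv : |v| ≤ B) : |exp u - exp v| ≤ exp B * |u - v| := by
  wlog h : v ≤ u generalizing u v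
  · rw [abs_sub_comm, abs_sub_comm u v]
    exact this hv hu (le_of_lt (not_le.1 h))
  have h1 : exp v ≤ exp u := exp_le_exp.2 h
  have h2 : exp u ≤ exp B := exp_le_exp.2 (abs_le.1 hu).2
  have h3 : v - u + 1 ≤ exp (v - u) := add_one_le_exp _
  have h4 : exp v = exp u * exp (v - u) := by rw [← exp_add]; congr 1; ring
  rw [abs_of_nonneg (by linarith), abs_of_nonneg (by linarith)]
  have h5 := exp_pos u
  nlinarith

lemma log_lip {u v B : ℝ} (hu : |u| ≤ B) (hv : |v| ≤ B) : |u - v| ≤ exp B * |exp u - exp v| := by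
  wlog h : v ≤ u generalizing u v
  · rw [abs_sub_comm, abs_sub_comm (exp u)]
    exact this hv hu (le_of_lt (not_le.1 h))
  have h1 : exp v ≤ exp u := exp_le_exp.2 h
  have h2 : 1 ≤ exp B * exp v := by
    rw [← exp_add]
    exact one_le_exp (by linarith [(abs_le.1 hv).1])
  have h3 : u - v + 1 ≤ exp (u - v) := add_one_le_exp _
  have h4 : exp u = exp v * exp (u - v) := by rw [← exp_add]; congr 1; ring
  rw [abs_of_nonneg (by linarith), abs_of_nonneg (by linarith)]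
  have h5 := exp_pos v
  have h6 := exp_pos B
  have h7 : exp v * (u - v) ≤ exp u - exp v := by nlinarith
  nlinarith [mul_le_mul_of_nonneg_left h7 h6.le]

lemma cl_mem {B : ℝ} (hB : 0 ≤ B) (t : ℝ) : exp (-B) ≤ cl B t ∧ cl B t ≤ exp B :=
  ⟨le_max_left _ _, max_le (exp_le_exp.2 (by linarith)) (min_le_left _ _)⟩

lemma log_cl {B : ℝ} (hB : 0 ≤ B) (t : ℝ) : |log (cl B t)| ≤ B := by
  obtain ⟨h1, h2⟩ := cl_mem hB t
  have h0 : 0 < cl B t := lt_of_lt_of_le (exp_pos _) h1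
  rw [abs_le]
  exact ⟨(le_log_iff_exp_le h0).2 h1, (log_le_iff_le_exp h0).2 h2⟩

lemma cl_close {B x t : ℝ} (h1 : exp (-B) ≤ x) (h2 : x ≤ exp B) : |x - cl B t| ≤ |x - t| := by
  unfold cl
  rcases le_total (exp B) t with h | h
  · rw [min_eq_left h, max_eq_right (h1.trans h2), abs_of_nonpos (by linarith),
      abs_of_nonpos (by linarith)]
    linarith
  · rw [min_eq_right h]
    rcases le_total (exp (-B)) t with h' | h'
    · rw [max_eq_right h']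
    · rw [max_eq_left h', abs_of_nonneg (by linarith), abs_of_nonneg (by linarith)]
      linarith

lemma pow_close {B m m' Y t : ℝ} (hB : 0 ≤ B) (hm : 0 < m) (hmm : m ≤ m') (hm' : m' ≤ 1)
    (hY : |Y| ≤ B) :
    (exp (m * Y) - exp (m / m' * log (cl B t))) ^ 2 ≤ exp B ^ 4 * (exp (m' * Y) - t) ^ 2 := by
  have hm'0 : 0 < m' := lt_of_lt_of_le hm hmm
  have hθ0 : 0 ≤ m / m' := div_nonneg hm.le hm'0.le
  have hθ1 : m / m' ≤ 1 := (div_le_one hm'0).2 hmm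
  have hsc : ∀ {a z : ℝ}, 0 ≤ a → a ≤ 1 → |z| ≤ B → |a * z| ≤ B := by
    intro a z ha ha1 hz
    rw [abs_mul, abs_of_nonneg ha]
    nlinarith [abs_nonneg z]
  have hu : |m' * Y| ≤ B := hsc hm'0.le hm' hY
  have hv := log_cl hB t
  have e1 : m * Y = m / m' * (m' * Y) := by field_simp
  have h1 := exp_lip (hsc hθ0 hθ1 hu) (hsc hθ0 hθ1 hv)
  have h2 := log_lip hu hv
  have h0 : 0 < cl B t := lt_of_lt_of_le (exp_pos _) (cl_mem hB t).1
  rw [exp_log h0] at h2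
  have h3 : |exp (m' * Y) - cl B t| ≤ |exp (m' * Y) - t| :=
    cl_close (exp_le_exp.2 (abs_le.1 hu).1) (exp_le_exp.2 (abs_le.1 hu).2)
  have h4 : |m / m' * (m' * Y) - m / m' * log (cl B t)| ≤ |m' * Y - log (cl B t)| := by
    rw [← mul_sub, abs_mul, abs_of_nonneg hθ0]
    nlinarith [abs_nonneg (m' * Y - log (cl B t))]
  have hb := exp_pos B
  have h5 : |exp (m * Y) - exp (m / m' * log (cl B t))| ≤ exp B ^ 2 * |exp (m' * Y) - t| := by
    rw [e1]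
    calc _ ≤ exp B * |m' * Y - log (cl B t)| := h1.trans (mul_le_mul_of_nonneg_left h4 hb.le)
      _ ≤ exp B * (exp B * |exp (m' * Y) - t|) :=
          mul_le_mul_of_nonneg_left (h2.trans (mul_le_mul_of_nonneg_left h3 hb.le)) hb.le
      _ = _ := by ring
  calc _ = |exp (m * Y) - exp (m / m' * log (cl B t))| ^ 2 := (sq_abs _).symm
    _ ≤ (exp B ^ 2 * |exp (m' * Y) - t|) ^ 2 := pow_le_pow_left₀ (abs_nonneg _) h5 2
    _ = _ := by rw [mul_pow, sq_abs]; ring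

lemma ap_mono {T J V : Type} [Fintype T] [Fintype J] [DecidableEq J] [Fintype V]
    {p : T × (J → V) → ℝ} {L : ℕ} {e e' : ℝ} {f : T × (J → V) → ℝ} (h : Ap p L e f)
    (he : e ≤ e') : Ap p L e' f := by
  obtain ⟨l, hl, g, hg, h1⟩ := h
  exact ⟨l, hl, g, hg, h1.trans he⟩

lemma nil_case (hX : XApi) {T J V Γ : Type} [Fintype T] [Fintype J] [DecidableEq J] [Fintype V]
    [DecidableEq V] [Fintype Γ] (p : T × (J → V) → ℝ) (W : T → (J → Bool) → ℝ) (w : Γ → ℝ)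
    (h : Γ → (V → Bool) → ℝ) (H : (V → Bool) → ℝ) (B : ℝ) (L M : ℕ) (hp : Pr p)
    (hW : ∀ t s, 0 < W t s ∧ |log (W t s)| ≤ B) (hM : 0 < M) :
    Ap p ((L + 2) ^ M) (2 * 0 + 2 * (exp B ^ 2 / M))
      (fun ξ => exp (nxt [] * YY w h [] H (ty W ξ))) := by
  have e : (fun ξ => exp (nxt [] * YY w h [] H (ty W ξ))) =
      fun ξ => ∑ σ, gib H σ * exp (ty W ξ σ) := by
    funext ξ
    rw [← hX.gmix w h H (ty W ξ)]
    simp [nxt]
  rw [e]
  refine step p (gib H) (fun σ ξ => exp (ty W ξ σ)) (exp B) 0 (L + 2) M hp (hX.gib_pr H) hM ?_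
  intro σ
  refine ⟨fun i => if σ i then 1 else 0, fun i => ?_, fun ξ => exp (ty W ξ σ), ?_, ?_, ?_⟩
  · show (if σ i then 1 else 0) < L + 2
    split_ifs <;> omega
  · intro ξ ξ' hξ
    have h1 : ξ.1 = ξ'.1 := (Prod.ext_iff.1 hξ).1
    have h2 : ∀ j, σ (ξ.2 j) = σ (ξ'.2 j) := by
      intro j
      have h3 : (if σ (ξ.2 j) then 1 else 0 : ℕ) = if σ (ξ'.2 j) then 1 else 0 :=
        congrFun (congrArg Prod.snd hξ) j
      revert h3
      cases σ (ξ.2 j) <;> cases σ (ξ'.2 j) <;> simp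
    simp only [ty, h1, h2]
  · intro ξ
    rw [abs_of_pos (exp_pos _)]
    exact exp_le_exp.2 (abs_le.1 (hW _ _).2).2
  · simp [Ex]

end App

open App in
theorem appStmt (hX : XApi) : AppStmt := by
  intro B ε r hB
  have hM : ∀ ε : ℝ, 0 < ε → ∃ M : ℕ, 0 < M ∧ 2 * (exp B ^ 2 / M) ≤ ε / 2 := by
    intro ε hε
    obtain ⟨M, hM⟩ := exists_nat_gt (4 * exp B ^ 2 / ε)
    have h0 : (0 : ℝ) < M := lt_trans (by positivity) hM
    refine ⟨M, by exact_mod_cast h0, ?_⟩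
    rw [div_lt_iff₀ hε] at hM
    rw [← mul_div_assoc, div_le_iff₀ h0]
    linarith
  induction r generalizing ε with
  | zero =>
    intro hε
    obtain ⟨M, hM0, hMε⟩ := hM ε hε
    refine ⟨(0 + 2) ^ M, ?_⟩
    intro T J V Γ _ _ _ _ _ _ _ pT W w h Δ ms H hpT hW hw _ _ hlen
    have hp := hX.tp_pr pT J V hpT
    obtain rfl : ms = [] := List.length_eq_zero_iff.1 (Nat.le_zero.1 hlen)
    exact ap_mono (nil_case hX _ W w h H B 0 M ⟨fun a => (hp.1 a).le, hp.2⟩ hW hM0) (by linarith)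
  | succ r ih =>
    intro hε
    obtain ⟨M, hM0, hMε⟩ := hM ε hε
    have hb := exp_pos B
    obtain ⟨L, hL⟩ := ih (ε / (4 * exp B ^ 4)) (by positivity)
    refine ⟨(L + 2) ^ M, ?_⟩
    intro T J V Γ _ _ _ _ _ _ _ pT W w h Δ ms H hpT hW hw hch hn hlen
    have hp := hX.tp_pr pT J V hpT
    have hp' : Pr (tp pT J V) := ⟨fun a => (hp.1 a).le, hp.2⟩
    cases ms with
    | nil => exact ap_mono (nil_case hX _ W w h H B L M hp' hW hM0) (by linarith)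
    | cons m ms =>
      have hm : 0 < m := hn
      obtain ⟨hmm, -, hch'⟩ := hch
      obtain ⟨hn1, hall, -⟩ := hX.chain Δ ms hch'
      have hn' : 0 < nxt ms := lt_of_lt_of_le hm hmm
      have hpos : ∀ m' ∈ ms, 0 < m' := fun m' hm' => lt_of_lt_of_le hn' (hall m' hm').1
      have e : (fun ξ => exp (nxt (m :: ms) * YY w h (m :: ms) H (ty W ξ))) =
          fun ξ => ∑ γ, tau w h m ms H γ * exp (m * YY w h ms (H + h γ) (ty W ξ)) := by
        funext ξ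
        exact hX.mix w h m ms H (ty W ξ) hw hm
      have key : Ap (tp pT J V) ((L + 2) ^ M) ε
          (fun ξ => exp (nxt (m :: ms) * YY w h (m :: ms) H (ty W ξ))) := by
        rw [e]
        refine ap_mono (step (tp pT J V) (tau w h m ms H)
          (fun γ ξ => exp (m * YY w h ms (H + h γ) (ty W ξ))) (exp B) (ε / 4) (L + 2) M hp'
          (hX.tau_pr w h m ms H hw hm) hM0 ?_) (by linarith)
        intro γ
        obtain ⟨l, hl, g, hg, he⟩ := hL T J V Γ pT W w h Δ ms (H + h γ) hpT hW hw hch' hn'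
          (by simpa using hlen)
        refine ⟨l, fun i => lt_of_lt_of_le (hl i) (by omega),
          fun ξ => exp (m / nxt ms * log (cl B (g ξ))), ?_, ?_, ?_⟩
        · intro ξ ξ' hξ
          simp only [hg ξ ξ' hξ]
        · intro ξ
          rw [abs_of_pos (exp_pos _)]
          refine exp_le_exp.2 ?_
          have h1 := (abs_le.1 (log_cl hB (g ξ))).2
          have hθ0 : 0 ≤ m / nxt ms := div_nonneg hm.le hn'.le
          have hθ1 : m / nxt ms ≤ 1 := (div_le_one hn').2 hmm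
          nlinarith
        · calc _ ≤ ∑ ξ, tp pT J V ξ * (exp B ^ 4 *
                (exp (nxt ms * YY w h ms (H + h γ) (ty W ξ)) - g ξ) ^ 2) :=
                Finset.sum_le_sum (fun ξ _ => mul_le_mul_of_nonneg_left
                  (pow_close hB hm hmm hn1
                    (hX.yy_bd w h ms (H + h γ) (ty W ξ) B hw hpos (fun σ => (hW _ _).2)))
                  (hp'.1 ξ))
            _ = exp B ^ 4 * Ex (tp pT J V)
                (fun ξ => (exp (nxt ms * YY w h ms (H + h γ) (ty W ξ)) - g ξ) ^ 2) := by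
                unfold Ex
                rw [Finset.mul_sum]
                exact Finset.sum_congr rfl (fun ξ _ => by ring)
            _ ≤ exp B ^ 4 * (ε / (4 * exp B ^ 4)) :=
                mul_le_mul_of_nonneg_left he (by positivity)
            _ = ε / 4 := by field_simp
      exact key

end

end Vale.Agent.P168
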