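import Vale.Agent.P168.Stm

/-! P168, module Apx: approximation of a measurable message by finite Markov messages. -/

namespace Vale.Agent.P168

open MeasureTheory Finset Real Filter Topology

noncomputable section

namespace Apx

/-- index of the cell of `t` -/
def kap (a : ℕ) (t : unitInterval) : Fin (a + 1) :=
  ⟨min ⌊(t : ℝ) * (a + 1)⌋₊ a, Nat.lt_succ_of_le (min_le_right _ _)⟩

/-- left end of a cell -/
def cen (a : ℕ) (k : Fin (a + 1)) : unitInterval :=
  ⟨(k : ℕ) / ((a : ℝ) + 1), by positivity, by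
    rw [div_le_one (by positivity)]
    exact_mod_cast k.2.le⟩

lemma kap_meas {A : Type} (a : ℕ) (F : Fin (a + 1) → A) (s : A) :
    MeasurableSet {t | F (kap a t) = s} := by
  have h : Measurable fun t : unitInterval => ⌊(t : ℝ) * (a + 1)⌋₊ :=
    (measurable_subtype_coe.mul_const _).nat_floor
  exact h (t := {n | F ⟨min n a, Nat.lt_succ_of_le (min_le_right _ _)⟩ = s}) trivial

lemma cen_kap (a : ℕ) (t : unitInterval) : dist t (cen a (kap a t)) ≤ 1 / ((a : ℝ) + 1) := by
  have ha : (0 : ℝ) < a + 1 := by positivity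
  have h0 : 0 ≤ (t : ℝ) * (a + 1) := mul_nonneg t.2.1 ha.le
  have h1 := Nat.floor_le h0
  have h2 := Nat.lt_floor_add_one ((t : ℝ) * (a + 1))
  have h3 : (t : ℝ) * (a + 1) ≤ a + 1 := mul_le_of_le_one_left ha.le t.2.2
  rw [Subtype.dist_eq, Real.dist_eq]
  have e : (t : ℝ) - (cen a (kap a t) : ℝ) =
      ((t : ℝ) * (a + 1) - (min ⌊(t : ℝ) * (a + 1)⌋₊ a : ℕ)) / (a + 1) := by
    simp only [cen, kap]; field_simp
  rw [e, abs_div, abs_of_pos ha]
  refine div_le_div_of_nonneg_right (abs_le.2 ?_) ha.le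
  rcases le_total ⌊(t : ℝ) * (a + 1)⌋₊ a with h | h
  · rw [min_eq_left h]; constructor <;> linarith
  · rw [min_eq_right h]
    have : (a : ℝ) ≤ ⌊(t : ℝ) * (a + 1)⌋₊ := by exact_mod_cast h
    constructor <;> linarith

lemma run_upd {J B : Type} [DecidableEq J] (k : unitInterval → B) : ∀ (r : ℕ) (e : Fin r → J),
    Function.Injective e → ∀ (s : J → B) (ω : Fin r → unitInterval),
    (∀ p, run r (fun p s t => Function.update s (e p) (k t)) s ω (e p) = k (ω p)) ∧
    ∀ j, (∀ p, e p ≠ j) → run r (fun p s t => Function.update s (e p) (k t)) s ω j = s j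
  | 0, _, _, _, _ => ⟨fun p => p.elim0, fun _ _ => rfl⟩
  | r + 1, e, he, s, ω => by
    have h := run_upd k r (fun p => e p.succ) (he.comp (Fin.succ_injective r))
      (Function.update s (e 0) (k (ω 0))) (Fin.tail ω)
    refine ⟨fun p => ?_, fun j hj => ?_⟩
    · refine Fin.cases ?_ (fun p => h.1 p) p
      exact (h.2 (e 0) fun p hp => Fin.succ_ne_zero p (he hp)).trans (Function.update_self ..)
    · exact (h.2 j fun p => hj p.succ).trans (Function.update_of_ne (hj 0).symm ..)

lemma pr_of {A : Type} [Fintype A] (f : unitInterval → A) (hf : ∀ a, MeasurableSet {t | f t = a}) :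
    Pr fun a => volume.real {t | f t = a} := by
  refine ⟨fun a => measureReal_nonneg, ?_⟩
  have h := measureReal_biUnion_finset (μ := volume) (s := (univ : Finset A))
    (f := fun a => {t | f t = a}) (fun a _ b _ hab => Set.disjoint_left.2
    fun t (h1 : f t = a) (h2 : f t = b) => hab (h1.symm.trans h2)) (fun a _ => hf a)
  rw [(_ : ⋃ a ∈ (univ : Finset A), {t | f t = a} = Set.univ), probReal_univ] at h
  · exact h.symm
  · ext t; simp

lemma clamp {x y : ℝ} (hx : |x| ≤ 1) : |max (-1) (min 1 y) - x| ≤ |x - y| := by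
  have h := abs_le.1 hx
  have h1 := le_abs_self (x - y)
  have h2 := neg_abs_le (x - y)
  rw [abs_le]
  rcases le_total 1 y with k | k
  · rw [min_eq_left k, max_eq_right (by norm_num)]; constructor <;> linarith
  · rw [min_eq_right k]
    rcases le_total (-1) y with j | j
    · rw [max_eq_right j]; constructor <;> linarith
    · rw [max_eq_left j]; constructor <;> linarith

lemma approx {r : ℕ} {x : (Fin (r + 1) → unitInterval) → ℝ} (hx : Measurable x)
    (hb : ∀ ω, |x ω| ≤ 1) {ε : ℝ} (hε : 0 < ε) :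
    ∃ (a : ℕ) (y : (Fin (r + 1) → Fin (a + 1)) → ℝ), (∀ s, |y s| ≤ 1) ∧
      ∫ ω, |y (fun i => kap a (ω i)) - x ω| ≤ 2 * ε := by
  have hi : Integrable x := Integrable.of_bound hx.aestronglyMeasurable 1 (Eventually.of_forall hb)
  obtain ⟨g, h1, h2⟩ := hi.exists_boundedContinuous_integral_sub_le hε
  obtain ⟨δ, hδ, hu⟩ := Metric.uniformContinuous_iff.1
    (CompactSpace.uniformContinuous_of_continuous g.continuous) ε hε
  obtain ⟨a, ha⟩ := exists_nat_one_div_lt hδ
  refine ⟨a, fun s => max (-1) (min 1 (g fun i => cen a (s i))), fun s => abs_le.2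
    ⟨le_max_left _ _, max_le (by norm_num) (min_le_left _ _)⟩, ?_⟩
  have h0 : Integrable fun ω => ‖x ω - g ω‖ := (hi.sub h2).norm
  have h3 : Integrable fun ω => ‖x ω - g ω‖ + ε := h0.add (integrable_const _)
  refine (integral_mono_of_nonneg (Eventually.of_forall fun ω => abs_nonneg _) h3
    (Eventually.of_forall fun ω => ?_)).trans ?_
  · have h4 := hu ((dist_pi_lt_iff hδ).2 fun i => (cen_kap a (ω i)).trans_lt ha)
    rw [Real.dist_eq] at h4
    refine (clamp (hb ω)).trans ((abs_sub_le _ (g ω) _).trans ?_)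
    exact add_le_add le_rfl h4.le
  · rw [integral_add h0 (integrable_const _)]
    simp only [integral_const, probReal_univ, smul_eq_mul, one_mul]
    linarith

end Apx

open Apx in
theorem apxStmt (hI : IdStmt) (hC : CApi) : ApxStmt := by
  intro r m x hm hp hx hb
  choose a y hy hi using fun n : ℕ => approx hx hb (Nat.one_div_pos_of_nat (α := ℝ) (n := n))
  have hI' := fun n => hI (Fin (r + 1) → Fin (a n + 1)) r m (fun t _ => kap (a n) t)
    (fun p s t => Function.update s p.succ (kap (a n) t)) (y n)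
    (fun s => kap_meas (a n) (fun k _ => k) s)
    (fun p s s' => kap_meas (a n) (fun k => Function.update s p.succ k) s') (fun p => (hp p).1) (hy n)
  have e : ∀ n (ω : Fin (r + 1) → unitInterval),
      run r (fun p s t => Function.update s p.succ (kap (a n) t)) (fun _ => kap (a n) (ω 0))
        (Fin.tail ω) = fun i => kap (a n) (ω i) := by
    intro n ω
    have h := run_upd (kap (a n)) r Fin.succ (Fin.succ_injective r) (fun _ => kap (a n) (ω 0))
      (Fin.tail ω)
    funext i
    exact Fin.cases (h.2 0 fun p => Fin.succ_ne_zero p) (fun p => h.1 p) i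
  simp only [e] at hI'
  refine ⟨a, fun n => ⟨fun s => volume.real {t | (fun _ => kap (a n) t) = s},
    List.ofFn fun p => (m p, fun s s' =>
      volume.real {t | Function.update s p.succ (kap (a n) t) = s'}), y n⟩,
    fun n => ⟨pr_of _ fun s => kap_meas (a n) (fun k _ => k) s, ?_, hy n, ?_, ?_⟩,
    fun ι _ _ W hW => ?_⟩
  · intro k hk s
    obtain ⟨p, rfl⟩ := List.mem_ofFn.1 hk
    exact pr_of _ fun s' => kap_meas (a n) (fun k => Function.update s p.succ k) s'
  · rw [List.map_ofFn, List.pairwise_ofFn]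
    exact fun i j hij => hm hij
  · intro k hk
    obtain ⟨p, rfl⟩ := List.mem_ofFn.1 hk
    exact hp p
  · obtain ⟨C, h⟩ := hC.lip r m ι W (fun p => ⟨(hp p).1, (hp p).2.le⟩) hW
    rw [tendsto_iff_norm_sub_tendsto_zero]
    have t := (tendsto_one_div_add_atTop_nhds_zero_nat (𝕜 := ℝ)).const_mul (|C| * 2)
    rw [mul_zero] at t
    refine squeeze_zero (fun _ => norm_nonneg _) (fun n => ?_) t
    rw [← (hI' n).2 ι W hW, Real.norm_eq_abs]
    refine (h _ x (hI' n).1 hx (fun _ => hy n _) hb).trans ?_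
    calc _ ≤ |C| * (2 * (1 / ((n : ℝ) + 1))) :=
          mul_le_mul (le_abs_self C) (hi n) (integral_nonneg fun _ => abs_nonneg _) (abs_nonneg C)
      _ = _ := by ring

end

end Vale.Agent.P168
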