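import Vale.Agent.P168.Base1

/-! Module Base: the bundle `BApi`. -/

namespace Vale.Agent.P168

open Finset Real

noncomputable section

namespace Bs

variable {A ι κ : Type} [Fintype A] [Fintype ι] [DecidableEq ι] [Fintype κ] [DecidableEq κ]

/-- the spin weights of a magnetisation -/
def sq (x : ι → ℝ) (j : ι) (s : Bool) : ℝ := (1 + x j * spin s) / 2

omit [Fintype ι] [DecidableEq ι] in
lemma sq_one (x : ι → ℝ) (j : ι) : ∑ s, sq x j s = 1 := by
  simp [sq, spin]; ring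

omit [Fintype ι] [DecidableEq ι] in
lemma sq_pr {x : ι → ℝ} (hx : ∀ j, |x j| ≤ 1) (j : ι) : Pr (sq x j) := by
  refine ⟨fun s => ?_, sq_one x j⟩
  have := abs_le.1 (hx j)
  cases s <;> simp [sq, spin] <;> linarith

lemma ext_eq (W : (ι → Bool) → ℝ) (x : ι → ℝ) : ext W x = pe (sq x) W :=
  sum_congr rfl fun _ _ => mul_comm _ _

lemma extV (K n : ℕ) (θ : Fin n → Clause K) : Vfun θ = ext (Vw θ) := by
  funext x
  rw [ext_eq, show Vw θ = fun s => ∏ k, exp (θ k fun j => s (k, j)) from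
    funext fun s => exp_sum _ _, pe_curry (sq x) fun k σ => exp (θ k σ)]
  exact prod_congr rfl fun k _ => sum_congr rfl fun _ _ => mul_comm _ _

lemma extU (K n : ℕ) (h : ℝ) (θ : Fin n → Clause K) (l : Fin n → Fin K) :
    Ufun h θ l = ext (Uw h θ l) := by
  funext x
  rw [ext_eq, show Uw h θ l = fun s => ∑ e : Bool, exp (h * spin e) *
      ∏ k, exp (θ k (Function.update (fun j => s (k, j)) (l k) e)) from
    funext fun s => sum_congr rfl fun e _ => by rw [exp_add, exp_sum], pe_sum]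
  refine sum_congr rfl fun e _ => ?_
  rw [pe_smul, pe_curry (sq x) fun k σ => exp (θ k (Function.update σ (l k) e))]
  congr 1
  refine prod_congr rfl fun k _ => ?_
  rw [pe_update (fun j => sq_one x (k, j)) (l k) e fun σ => exp (θ k σ)]
  rfl

variable {M : Msg A}

lemma kok (hM : M.Ok) : KOk M.ks := fun k hk => ⟨(hM.2.2.2.2 k hk).1, hM.2.1 k hk⟩

lemma DT_eq (M : Msg A) (W : (ι → Bool) → ℝ) : DT ι M W =
    pe (fun _ => M.ini) (dc ι M.ks fun a => log (pe (sq fun j => M.x (a j)) W)) := by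
  simp only [← ext_eq]; rfl

omit [Fintype ι] [DecidableEq ι] in
lemma xpr (hM : M.Ok) (a : ι → A) (j : ι) : Pr (sq (fun j => M.x (a j)) j) :=
  sq_pr (fun _ => hM.2.2.1 _) j

lemma DT_mono (hM : M.Ok) {W W' : (ι → Bool) → ℝ} {c : ℝ} (h0 : ∀ s, 0 < W s)
    (h : ∀ s, W s ≤ exp c * W' s) : DT ι M W ≤ c + DT ι M W' := by
  have h1 : ∀ s, 0 < W' s := fun s => (mul_pos_iff_of_pos_left (exp_pos c)).1 ((h0 s).trans_le (h s))
  rw [DT_eq, DT_eq, ← pe_const (q := fun _ : ι => M.ini) (fun _ => hM.1.2) c, ← pe_add]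
  refine pe_mono (fun _ => hM.1.1) (dc_mono (kok hM) fun a => ?_)
  rw [← log_exp c, ← log_mul (exp_pos _).ne' (pe_pos (xpr hM a) h1).ne', ← pe_smul]
  exact log_le_log (pe_pos (xpr hM a) h0) (pe_mono (fun j => (xpr hM a j).1) h)

lemma DT_const (hM : M.Ok) (c : ℝ) : DT ι M (fun _ => c) = log c := by
  rw [DT_eq]
  simp only [pe_const (sq_one _)]
  rw [dc_const (kok hM), pe_const fun _ => hM.1.2]

lemma DT_emb (hM : M.Ok) {e : κ → ι} (he : Function.Injective e) (W : (κ → Bool) → ℝ) :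
    DT ι M (fun s => W fun k => s (e k)) = DT κ M W := by
  rw [DT_eq, DT_eq]
  simp only [pe_emb (sq_one _) he]
  exact (congrArg _ (dc_emb (kok hM) he fun a => log (pe (sq fun j => M.x (a j)) W))).trans
    (pe_emb (fun _ => hM.1.2) he _)

lemma DT_mul (hM : M.Ok) {P : ι → Prop} {W W' : (ι → Bool) → ℝ} (h0 : ∀ s, 0 < W s)
    (h0' : ∀ s, 0 < W' s) (h : Dep P W) (h' : Dep (fun i => ¬ P i) W') :
    DT ι M (fun s => W s * W' s) = DT ι M W + DT ι M W' := by
  have key : ∀ {Q : ι → Prop} {X : (ι → Bool) → ℝ}, Dep Q X →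
      Dep Q fun a : ι → A => log (pe (sq fun j => M.x (a j)) X) := fun hX a a' ha =>
    congrArg log (pe_dep (sq_one _) (sq_one fun j => M.x (a' j))
      (fun j hj => funext fun s => by simp only [sq, ha j hj]) hX)
  rw [DT_eq, DT_eq, DT_eq, ← pe_add, ← dc_add (kok hM) (key h) (key h')]
  congr 2; funext a
  rw [pe_mul (sq_one _) h h', log_mul (pe_pos (xpr hM a) h0).ne' (pe_pos (xpr hM a) h0').ne']

lemma DT_prod {α : Type} (hM : M.Ok) (fib : ι → α) {W : α → (ι → Bool) → ℝ}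
    (h0 : ∀ a s, 0 < W a s) (h : ∀ a, Dep (fun j => fib j = a) (W a)) (S : Finset α) :
    DT ι M (fun s => ∏ a ∈ S, W a s) = ∑ a ∈ S, DT ι M (W a) := by
  classical
  induction S using Finset.induction_on with
  | empty => simp [DT_const hM]
  | insert a S ha ih =>
    simp only [prod_insert ha, sum_insert ha]
    rw [DT_mul hM (h0 a) (fun s => prod_pos fun b _ => h0 b s) (h a) fun s s' hs =>
      prod_congr rfl fun b hb => h b s s' fun j hj => hs j fun hc => ha (hc ▸ hj ▸ hb), ih]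

lemma vadd (K : ℕ) (θ : κ → Clause K) (hM : M.Ok) :
    DT (κ × Fin K) M (Vw θ) = ∑ k, DT (Fin K) M (fun s => exp (θ k s)) := by
  rw [show Vw θ = fun s => ∏ k, exp (θ k fun j => s (k, j)) from funext fun s => exp_sum _ _,
    DT_prod hM Prod.fst (fun _ _ => exp_pos _) fun k s s' hs => by
      rw [show (fun j => s (k, j)) = fun j => s' (k, j) from funext fun j => hs _ rfl]]
  exact sum_congr rfl fun k _ =>
    DT_emb hM (Prod.mk_right_injective k) fun s => exp (θ k s)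

lemma cl_le {K : ℕ} (θ θ' : Clause K) (σ : Fin K → Bool) : θ σ ≤ ‖θ - θ'‖ + θ' σ := by
  have := (le_norm_self _).trans (norm_le_pi_norm (θ - θ') σ)
  rw [Pi.sub_apply] at this
  linarith

omit [DecidableEq κ] in
lemma uw_le {K : ℕ} (h h' : ℝ) (θ θ' : κ → Clause K) (l : κ → Fin K) (s : κ × Fin K → Bool) :
    Uw h θ l s ≤ exp (|h - h'| + ∑ k, ‖θ k - θ' k‖) * Uw h' θ' l s := by
  rw [Uw, Uw, mul_sum]
  refine sum_le_sum fun e _ => ?_
  rw [← exp_add, exp_le_exp]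
  have h1 := sum_le_sum fun k (_ : k ∈ univ) =>
    cl_le (θ k) (θ' k) (Function.update (fun j => s (k, j)) (l k) e)
  rw [sum_add_distrib] at h1
  have h2 := le_abs_self (h - h')
  have h3 := neg_abs_le (h - h')
  cases e <;> simp only [spin] <;> norm_num <;> linarith

omit [DecidableEq κ] in
lemma uw_bd (K : ℕ) (h h' : ℝ) (θ θ' : κ → Clause K) (l : κ → Fin K) (s : κ × Fin K → Bool) :
    0 < Uw h θ l s ∧ Uw h θ l s ≤ exp (|h - h'| + ∑ k, ‖θ k - θ' k‖) * Uw h' θ' l s ∧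
      |log (Uw h θ l s)| ≤ log 2 + |h| + ∑ k, ‖θ k‖ := by
  have h0 : 0 < Uw h θ l s := sum_pos (fun _ _ => exp_pos _) univ_nonempty
  have e : Uw 0 (0 : κ → Clause K) l s = 2 := by simp [Uw]
  have h1 := uw_le h 0 θ 0 l s
  have h2 := uw_le 0 h 0 θ l s
  simp only [e, Pi.zero_apply, sub_zero, zero_sub, abs_neg, norm_neg] at h1 h2
  have h3 := log_le_log h0 h1
  have h4 := log_le_log two_pos h2
  rw [log_mul (exp_pos _).ne' two_ne_zero, log_exp] at h3
  rw [log_mul (exp_pos _).ne' h0.ne', log_exp] at h4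
  have h5 := log_pos one_lt_two
  exact ⟨h0, uw_le _ _ _ _ _ _, abs_le.2 ⟨by linarith, by linarith⟩⟩

omit [DecidableEq κ] in
lemma vw_bd (K : ℕ) (θ θ' : κ → Clause K) (s : κ × Fin K → Bool) :
    0 < Vw θ s ∧ Vw θ s ≤ exp (∑ k, ‖θ k - θ' k‖) * Vw θ' s ∧ |log (Vw θ s)| ≤ ∑ k, ‖θ k‖ := by
  refine ⟨exp_pos _, ?_, ?_⟩
  · rw [Vw, Vw, ← exp_add, exp_le_exp, ← sum_add_distrib]
    exact sum_le_sum fun k _ => cl_le _ _ _
  · rw [Vw, log_exp]
    exact (abs_sum_le_sum_abs _ _).trans (sum_le_sum fun k _ => norm_le_pi_norm (θ k) _)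

lemma av_le {B : Type} [Fintype B] [Nonempty B] {f g : B → ℝ} {c : ℝ} (h : ∀ b, f b ≤ c + g b) :
    av f ≤ c + av g := by
  have h0 : (0 : ℝ) < Fintype.card B := by exact_mod_cast Fintype.card_pos
  have h1 := sum_le_sum fun b (_ : b ∈ univ) => h b
  rw [sum_add_distrib, sum_const, card_univ, nsmul_eq_mul] at h1
  rw [av, av, div_le_iff₀ h0, add_mul, div_mul_cancel₀ _ h0.ne']
  linarith

lemma av_const {B : Type} [Fintype B] [Nonempty B] (c : ℝ) : av (fun _ : B => c) = c := by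
  have h0 : (0 : ℝ) < Fintype.card B := by exact_mod_cast Fintype.card_pos
  rw [av, sum_const, card_univ, nsmul_eq_mul, mul_div_cancel_left₀ _ h0.ne']

variable {V : Type} [Fintype V] [DecidableEq V] {K : ℕ} {G : (ι → Bool) → (V → Bool) → ℝ}

lemma W_le (hM : M.Ok) (hG : ∀ s σ, 0 < G s σ) {θ θ' : Clause K} {c : ℝ}
    (h : ∀ σ, θ σ ≤ c + θ' σ) (φ : (ι → Bool) → (V → Bool) → Fin K → Bool) :
    DT ι M (fun s => ∑ σ, G s σ * exp (θ (φ s σ))) ≤
      c + DT ι M fun s => ∑ σ, G s σ * exp (θ' (φ s σ)) := by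
  refine DT_mono hM (fun s => sum_pos (fun σ _ => mul_pos (hG s σ) (exp_pos _)) univ_nonempty)
    fun s => ?_
  rw [mul_sum]
  refine sum_le_sum fun σ _ => ?_
  rw [mul_left_comm, ← exp_add]
  exact mul_le_mul_of_nonneg_left (exp_le_exp.2 (h _)) (hG s σ).le

lemma step_le [Nonempty V] (hK : 1 ≤ K) (hM : M.Ok) (hG : ∀ s σ, 0 < G s σ) (e : Fin K → ι)
    {θ θ' : Clause K} {c c' : ℝ} (h : ∀ σ, θ σ ≤ c + θ' σ) (h' : ∀ σ, θ' σ ≤ c' + θ σ) :
    stepF M G e θ ≤ c + c' + stepF M G e θ' := by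
  have : Nonempty (Fin K) := ⟨⟨0, hK⟩⟩
  have k1 : (1 : ℝ) ≤ K := by exact_mod_cast hK
  have a1 : av (fun i : Fin K → V => DT ι M (Wsite G θ i)) ≤
      c + av fun i : Fin K → V => DT ι M (Wsite G θ' i) := av_le fun i => W_le hM hG h _
  have a2 : DT ι M (Wmsg G e θ) ≤ c + DT ι M (Wmsg G e θ') := W_le hM hG h _
  have a3 : av (fun l : Fin K => av fun v : V => DT ι M (Wcav G e θ' l v)) ≤
      c' + av fun l : Fin K => av fun v : V => DT ι M (Wcav G e θ l v) :=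
    av_le fun l => av_le fun v => W_le hM hG h' _
  have b1 := mul_le_mul_of_nonneg_left a1 (by positivity : (0 : ℝ) ≤ (K : ℝ)⁻¹)
  have b2 := mul_le_mul_of_nonneg_left a2
    (div_nonneg (by linarith) (by linarith) : (0 : ℝ) ≤ ((K : ℝ) - 1) / K)
  have b3 : (K : ℝ)⁻¹ * c + ((K : ℝ) - 1) / K * c = c := by field_simp; ring
  rw [stepF, stepF]
  linarith

lemma step [Nonempty V] (e : Fin K → ι) (hK : 1 ≤ K) (hM : M.Ok) (hG : Bg G e) :
    (∀ θ θ' : Clause K, |stepF M G e θ - stepF M G e θ'| ≤ 2 * ‖θ - θ'‖) ∧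
    (∀ (θ : Clause K) (c : ℝ), stepF M G e (fun σ => θ σ + c) = stepF M G e θ) ∧
    stepF M G e 0 = 0 := by
  refine ⟨fun θ θ' => ?_, fun θ c => ?_, ?_⟩
  · have h1 := step_le hK hM hG.2.1 e (cl_le θ θ') (cl_le θ' θ)
    have h2 := step_le hK hM hG.2.1 e (cl_le θ' θ) (cl_le θ θ')
    rw [norm_sub_rev θ'] at h1 h2
    exact abs_le.2 ⟨by linarith, by linarith⟩
  · have e1 : ∀ σ, θ σ + c ≤ c + θ σ := fun σ => by linarith
    have e2 : ∀ σ, θ σ ≤ -c + (θ σ + c) := fun σ => by linarith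
    have h1 := step_le (θ := fun σ => θ σ + c) hK hM hG.2.1 e e1 e2
    have h2 := step_le (θ' := fun σ => θ σ + c) hK hM hG.2.1 e e2 e1
    linarith
  · have : Nonempty (Fin K) := ⟨⟨0, hK⟩⟩
    have k1 : (1 : ℝ) ≤ K := by exact_mod_cast hK
    change (K : ℝ)⁻¹ * av (fun _ : Fin K → V => DT ι M fun s => ∑ σ, G s σ * exp 0) +
      ((K : ℝ) - 1) / K * DT ι M (fun s => ∑ σ, G s σ * exp 0) -
        av (fun _ : Fin K => av fun _ : V => DT ι M fun s => ∑ σ, G s σ * exp 0) = 0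
    rw [av_const, av_const, av_const]
    generalize (DT ι M fun s => ∑ σ, G s σ * exp 0) = X
    field_simp; ring

end Bs

open Bs in
theorem bApi : BApi where
  extU := extU
  extV := extV
  ext_le := fun W W' x hx h => by
    rw [ext_eq, ext_eq]; exact pe_mono (fun j => (sq_pr hx j).1) h
  ext_const := fun c x => by rw [ext_eq, pe_const (sq_one x)]
  mono := fun _ _ _ _ _ _ _ hM h0 h => DT_mono hM h0 h
  const := fun _ _ _ _ c hM _ => DT_const hM c
  emb := fun _ _ _ _ _ _ _ _ W hM he _ => DT_emb hM he W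
  prod := fun _ _ _ _ _ _ fib _ hM h0 h => DT_prod hM fib h0 h univ
  vadd := fun K _ _ _ _ θ hM => vadd K θ hM
  uw_bd := fun K _ _ => uw_bd K
  vw_bd := fun K _ _ => vw_bd K
  step := fun _ _ e hK hM hG => step e hK hM hG

end

end Vale.Agent.P168
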