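import Vale.Agent.P168.Stm

/-! Module Base, part 1: product weights and the discrete recursion. -/

namespace Vale.Agent.P168.Bs

open Finset Real

noncomputable section

variable {A ι κ : Type} [Fintype A] [Fintype ι] [DecidableEq ι] [Fintype κ] [DecidableEq κ]

/-- expectation under site dependent product weights -/
def pe (q : ι → A → ℝ) (f : (ι → A) → ℝ) : ℝ := ∑ t : ι → A, (∏ i, q i (t i)) * f t

/-- `f` depends only on the coordinates in `P` -/
def Dep {B : Type} (P : ι → Prop) (f : (ι → B) → ℝ) : Prop :=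
  ∀ t t', (∀ j, P j → t j = t' j) → f t = f t'

variable {q q' : ι → A → ℝ} {f g : (ι → A) → ℝ}

lemma pe_prod (q φ : ι → A → ℝ) :
    pe q (fun t => ∏ i, φ i (t i)) = ∏ i, ∑ a, q i a * φ i a := by
  rw [Fintype.prod_sum]
  exact sum_congr rfl fun t _ => prod_mul_distrib.symm

lemma w_one (hq : ∀ i, ∑ a, q i a = 1) : ∑ t : ι → A, ∏ i, q i (t i) = 1 := by
  rw [← Fintype.prod_sum]; simp [hq]

lemma pe_const (hq : ∀ i, ∑ a, q i a = 1) (c : ℝ) : pe q (fun _ => c) = c := by
  rw [pe, ← sum_mul, w_one hq, one_mul]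

lemma pe_add (q : ι → A → ℝ) (f g : (ι → A) → ℝ) :
    pe q (fun t => f t + g t) = pe q f + pe q g := by
  simp only [pe, mul_add, sum_add_distrib]

lemma pe_smul (q : ι → A → ℝ) (c : ℝ) (f : (ι → A) → ℝ) :
    pe q (fun t => c * f t) = c * pe q f := by
  simp only [pe, mul_sum, mul_left_comm c]

lemma pe_sum {B : Type} (s : Finset B) (q : ι → A → ℝ) (F : B → (ι → A) → ℝ) :
    pe q (fun t => ∑ b ∈ s, F b t) = ∑ b ∈ s, pe q (F b) := by
  simp only [pe, mul_sum]
  exact sum_comm

lemma pe_mono (hq : ∀ i a, 0 ≤ q i a) (h : ∀ t, f t ≤ g t) : pe q f ≤ pe q g :=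
  sum_le_sum fun t _ => mul_le_mul_of_nonneg_left (h t) (prod_nonneg fun i _ => hq i _)

lemma pe_pos (hq : ∀ i, Pr (q i)) (h : ∀ t, 0 < f t) : 0 < pe q f := by
  have h1 := w_one fun i => (hq i).2
  obtain ⟨t, _, ht⟩ := exists_ne_zero_of_sum_ne_zero (h1.trans_ne one_ne_zero)
  have h0 : ∀ t : ι → A, 0 ≤ ∏ i, q i (t i) := fun t => prod_nonneg fun i _ => (hq i).1 _
  exact sum_pos' (fun t _ => mul_nonneg (h0 t) (h t).le)
    ⟨t, mem_univ t, mul_pos (lt_of_le_of_ne (h0 t) ht.symm) (h t)⟩

open Classical in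
lemma mix (P : ι → Prop) (h : ∀ i, P i → q i = q' i) (F : (ι → A) → (ι → A) → ℝ) :
    pe q (fun t => pe q' fun t' => F t t') = pe q fun t => pe q' fun t' =>
      F (fun i => if P i then t' i else t i) (fun i => if P i then t i else t' i) := by
  let Φ : (ι → A) × (ι → A) → (ι → A) × (ι → A) := fun z =>
    (fun i => if P i then z.2 i else z.1 i, fun i => if P i then z.1 i else z.2 i)
  have hΦ : Function.Involutive Φ := fun z => by
    ext i <;> by_cases hi : P i <;> simp [Φ, hi]
  simp only [pe, mul_sum, ← mul_assoc]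
  rw [← Fintype.sum_prod_type', ← Fintype.sum_prod_type']
  refine (Fintype.sum_bijective Φ hΦ.bijective _ _ fun z => ?_).symm
  congr 1
  rw [← prod_mul_distrib, ← prod_mul_distrib]
  refine prod_congr rfl fun i _ => ?_
  by_cases hi : P i
  · simp only [Φ, if_pos hi, h i hi, mul_comm]
  · simp only [Φ, if_neg hi]

lemma pe_dep {P : ι → Prop} (hq : ∀ i, ∑ a, q i a = 1) (hq' : ∀ i, ∑ a, q' i a = 1)
    (h : ∀ i, P i → q i = q' i) (hf : Dep P f) : pe q f = pe q' f := by
  have h1 := mix P h fun t _ => f t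
  simp only [pe_const hq'] at h1
  rw [h1, ← pe_const hq (pe q' f)]
  congr 1; funext t; congr 1; funext t'
  exact hf _ _ fun j hj => if_pos hj

lemma pe_mul {P : ι → Prop} (hq : ∀ i, ∑ a, q i a = 1) (hf : Dep P f)
    (hg : Dep (fun i => ¬ P i) g) : pe q (fun t => f t * g t) = pe q f * pe q g := by
  have h1 := mix (q := q) P (fun _ _ => rfl) fun t t' => g t * f t'
  simp only [pe_smul] at h1
  rw [show (fun t => g t * pe q f) = fun t => pe q f * g t from funext fun t => mul_comm _ _,
    pe_smul] at h1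
  rw [h1]
  congr 1; funext t
  rw [← pe_const hq (f t * g t)]
  congr 1; funext t'
  rw [mul_comm]
  congr 1
  · exact hg _ _ fun j hj => (if_neg hj).symm
  · exact hf _ _ fun j hj => (if_pos hj).symm

lemma pe_emb (hq : ∀ i, ∑ a, q i a = 1) {e : κ → ι} (he : Function.Injective e)
    (f : (κ → A) → ℝ) : pe q (fun t => f fun k => t (e k)) = pe (fun k => q (e k)) f := by
  classical
  have h1 : (fun t : ι → A => f fun k => t (e k)) = fun t => ∑ u : κ → A, f u *
      ∏ i, ∏ k with e k = i, if t i = u k then (1 : ℝ) else 0 := by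
    funext t
    rw [sum_eq_single fun k => t (e k)]
    · rw [prod_eq_one fun i _ => prod_eq_one fun k hk => if_pos (by rw [← (mem_filter.1 hk).2]),
        mul_one]
    · intro u _ hu
      obtain ⟨k, hk⟩ := Function.ne_iff.1 hu
      rw [prod_eq_zero (mem_univ (e k)) (prod_eq_zero (i := k) (by simp) (if_neg (Ne.symm hk))),
        mul_zero]
    · simp
  rw [h1, pe_sum]
  refine sum_congr rfl fun u _ => ?_
  rw [pe_smul, pe_prod q fun i a => ∏ k with e k = i, if a = u k then (1 : ℝ) else 0, mul_comm,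
    ← prod_fiberwise univ e fun k => q (e k) (u k)]
  congr 1
  refine prod_congr rfl fun i _ => ?_
  by_cases hi : ∃ k, e k = i
  · obtain ⟨k, rfl⟩ := hi
    have h2 : (univ.filter fun k' => e k' = e k) = {k} := by ext k'; simp [he.eq_iff]
    simp [h2]
  · have h2 : (univ.filter fun k' => e k' = i) = ∅ := by
      ext k'; simpa using fun h => hi ⟨k', h⟩
    simp [h2, hq]

lemma pe_curry {J : Type} [Fintype J] [DecidableEq J] (q : κ × J → A → ℝ)
    (F : κ → (J → A) → ℝ) :
    pe q (fun s => ∏ k, F k fun j => s (k, j)) = ∏ k, pe (fun j => q (k, j)) (F k) := by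
  simp only [pe]
  rw [Fintype.prod_sum]
  refine Fintype.sum_equiv (Equiv.curry κ J A) _ _ fun s => ?_
  rw [prod_mul_distrib, Fintype.prod_prod_type]; rfl

lemma pe_update [DecidableEq A] (hq : ∀ i, ∑ a, q i a = 1) (l : ι) (e : A) (F : (ι → A) → ℝ) :
    pe q (fun σ => F (Function.update σ l e)) =
      ∑ σ ∈ univ.filter (fun σ : ι → A => σ l = e), F σ * ∏ j ∈ univ.erase l, q j (σ j) := by
  rw [pe_dep (P := fun j => j ≠ l) (q' := Function.update q l fun a => if a = e then 1 else 0) hq
    (fun i => ?_) (fun i hi => (Function.update_of_ne hi _ _).symm) (fun t t' h => ?_), pe,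
    sum_filter]
  · refine sum_congr rfl fun σ _ => ?_
    rw [← mul_prod_erase univ _ (mem_univ l), Function.update_self,
      prod_congr rfl fun j hj => by rw [Function.update_of_ne (ne_of_mem_erase hj)]]
    split_ifs with h
    · rw [← h, Function.update_eq_self, one_mul, mul_comm]
    · rw [zero_mul, zero_mul]
  · by_cases hi : i = l
    · rw [hi, Function.update_self]; simp
    · rw [Function.update_of_ne hi, hq]
  · congr 1; funext j
    by_cases hj : j = l
    · rw [hj, Function.update_self, Function.update_self]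
    · rw [Function.update_of_ne hj, Function.update_of_ne hj, h j hj]

/-! ### The recursion -/

/-- admissible kernels -/
def KOk (ks : Ker A) : Prop := ∀ k ∈ ks, 0 < k.1 ∧ ∀ a, Pr (k.2 a)

lemma dc_cons (k : ℝ × (A → A → ℝ)) (ks : Ker A) (Z : (ι → A) → ℝ) (a : ι → A) :
    dc ι (k :: ks) Z a =
      k.1⁻¹ * log (pe (fun j => k.2 (a j)) fun a' => exp (k.1 * dc ι ks Z a')) := rfl

lemma dc_mono {ks : Ker A} (hk : KOk ks) {Z Z' : (ι → A) → ℝ} {c : ℝ} (h : ∀ a, Z a ≤ c + Z' a)
    (a : ι → A) : dc ι ks Z a ≤ c + dc ι ks Z' a := by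
  induction ks generalizing a with
  | nil => exact h a
  | cons k ks ih =>
    obtain ⟨k0, k1⟩ := hk k List.mem_cons_self
    have ih' := ih fun k' hk' => hk k' (List.mem_cons_of_mem _ hk')
    rw [dc_cons, dc_cons, inv_mul_le_iff₀ k0, mul_add, mul_inv_cancel_left₀ k0.ne',
      ← log_exp (k.1 * c), ← log_mul (exp_pos _).ne'
        (pe_pos (fun j => k1 _) fun _ => exp_pos _).ne', ← pe_smul]
    refine log_le_log (pe_pos (fun j => k1 _) fun _ => exp_pos _)
      (pe_mono (fun j => (k1 _).1) fun t => ?_)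
    rw [← exp_add, ← mul_add]
    exact exp_le_exp.2 (mul_le_mul_of_nonneg_left (ih' t) k0.le)

lemma dc_const {ks : Ker A} (hk : KOk ks) (c : ℝ) : dc ι ks (fun _ => c) = fun _ => c := by
  induction ks with
  | nil => rfl
  | cons k ks ih =>
    obtain ⟨k0, k1⟩ := hk k List.mem_cons_self
    funext a
    rw [dc_cons, ih fun k' hk' => hk k' (List.mem_cons_of_mem _ hk'), pe_const fun j => (k1 _).2,
      log_exp, inv_mul_cancel_left₀ k0.ne']

lemma dc_emb {ks : Ker A} (hk : KOk ks) {e : κ → ι} (he : Function.Injective e)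
    (Z : (κ → A) → ℝ) :
    dc ι ks (fun a => Z fun k => a (e k)) = fun a => dc κ ks Z fun k => a (e k) := by
  induction ks with
  | nil => rfl
  | cons k ks ih =>
    obtain ⟨k0, k1⟩ := hk k List.mem_cons_self
    funext a
    rw [dc_cons, dc_cons, ih fun k' hk' => hk k' (List.mem_cons_of_mem _ hk'),
      pe_emb (fun j => (k1 _).2) he fun a' => exp (k.1 * dc κ ks Z a')]

lemma dc_dep {ks : Ker A} (hk : KOk ks) {P : ι → Prop} {Z : (ι → A) → ℝ} (hZ : Dep P Z) :
    Dep P (dc ι ks Z) := by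
  induction ks with
  | nil => exact hZ
  | cons k ks ih =>
    obtain ⟨k0, k1⟩ := hk k List.mem_cons_self
    have ih' := ih fun k' hk' => hk k' (List.mem_cons_of_mem _ hk')
    intro a a' h
    rw [dc_cons, dc_cons, pe_dep (P := P) (fun j => (k1 _).2) (fun j => (k1 (a' j)).2)
      (fun j hj => by rw [h j hj]) fun t t' ht => by rw [ih' t t' ht]]

lemma dc_add {ks : Ker A} (hk : KOk ks) {P : ι → Prop} {Z Z' : (ι → A) → ℝ} (hZ : Dep P Z)
    (hZ' : Dep (fun i => ¬ P i) Z') :
    dc ι ks (fun a => Z a + Z' a) = fun a => dc ι ks Z a + dc ι ks Z' a := by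
  induction ks with
  | nil => rfl
  | cons k ks ih =>
    obtain ⟨k0, k1⟩ := hk k List.mem_cons_self
    have hk' : KOk ks := fun k' hk' => hk k' (List.mem_cons_of_mem _ hk')
    funext a
    rw [dc_cons, dc_cons, dc_cons, ih hk', ← mul_add,
      ← log_mul (pe_pos (fun j => k1 _) fun _ => exp_pos _).ne'
        (pe_pos (fun j => k1 _) fun _ => exp_pos _).ne',
      ← pe_mul (P := P) (fun j => (k1 _).2) (fun t t' ht => by rw [dc_dep hk' hZ t t' ht])
        (fun t t' ht => by rw [dc_dep hk' hZ' t t' ht])]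
    simp only [mul_add, exp_add]

end

end Vale.Agent.P168.Bs
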