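import Vale.Agent.P168.Base

/-! Module Bridge: frozen values of product test families are discrete message values. -/

namespace Vale.Agent.P168

open Finset Real

noncomputable section

namespace Br

open Bs

variable {T J V Γ : Type} [Fintype T] [Fintype J] [DecidableEq J] [Fintype V]

/-- indicator of having the same label -/
def ind (l : V → ℕ) (i i' : V) : ℝ := if l i' = l i then 1 else 0

lemma ind_pos (l : V → ℕ) (i : V) : 0 < ∑ i', ind l i i' :=
  sum_pos' (fun _ _ => by unfold ind; split_ifs <;> norm_num) ⟨i, mem_univ i, by simp [ind]⟩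

lemma ck_eq (l : V → ℕ) (i i' : V) : ck l i i' = (∑ i'', ind l i i'')⁻¹ * ind l i i' := by
  unfold ck ind
  rw [sum_boole]
  split_ifs <;> simp

lemma ck_pr (l : V → ℕ) (i : V) : Pr (ck l i) := by
  refine ⟨fun i' => ?_, ?_⟩
  · unfold ck; split_ifs <;> positivity
  · simp only [ck_eq]
    rw [← mul_sum, inv_mul_cancel₀ (ind_pos l i).ne']

lemma cell_tl (l : V → ℕ) (μ : T × (J → V) → ℝ) (t : T) (v : J → V) :
    cell (tl l) μ (t, v) = pe (fun j => ind l (v j)) fun v' => μ (t, v') := by
  rw [cell, Fintype.sum_prod_type, sum_eq_single t _ (by simp)]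
  · refine sum_congr rfl fun v' _ => ?_
    simp only [ind]
    by_cases h : ∀ j, l (v' j) = l (v j)
    · have e : tl l (t, v') = tl l (t, v) := congrArg (Prod.mk t) (funext h)
      rw [if_pos e, prod_eq_one fun j _ => if_pos (h j), one_mul]
    · obtain ⟨j, hj⟩ := not_forall.1 h
      rw [if_neg fun e => hj (congrFun (congrArg Prod.snd e) j),
        prod_eq_zero (mem_univ j) (if_neg hj), zero_mul]
  · exact fun t' _ ht => sum_eq_zero fun v' _ => if_neg fun e => ht (congrArg Prod.fst e)

lemma cE_tl [Nonempty V] {pT : T → ℝ} (hp : PrP pT) (l : V → ℕ) (f : T × (J → V) → ℝ) (t : T)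
    (v : J → V) :
    cE (tp pT J V) (tl l) f (t, v) = pe (fun j => ck l (v j)) fun v' => f (t, v') := by
  have h0 : (0 : ℝ) < Fintype.card V := by exact_mod_cast Fintype.card_pos
  have h1 : 0 < pT t * ((Fintype.card V : ℝ)⁻¹) ^ Fintype.card J := by
    have := hp.1 t
    positivity
  have h2 := pe_prod (fun j => ind l (v j)) fun _ _ => (1 : ℝ)
  have h3 := pe_smul (fun j => ind l (v j)) (pT t * ((Fintype.card V : ℝ)⁻¹) ^ Fintype.card J)
    fun _ => 1
  simp only [prod_const_one, mul_one] at h2 h3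
  rw [cE, den, cell_tl, cell_tl]
  simp only [tp]
  rw [pe_smul, h3, h2, mul_div_mul_left _ _ h1.ne', div_eq_inv_mul, ← prod_inv_distrib]
  simp only [pe, ck_eq, prod_mul_distrib, mul_sum, mul_assoc]

lemma dc_snoc (ks : Ker V) (k : ℝ × (V → V → ℝ)) (Z : (J → V) → ℝ) :
    dc J (ks ++ [k]) Z = dc J ks (dc J [k] Z) := by
  induction ks with
  | nil => rfl
  | cons k' ks ih => funext a; rw [List.cons_append, dc_cons, dc_cons, ih]

lemma SS_ctx [Nonempty V] {pT : T → ℝ} (hp : PrP pT) (sl : List (ℝ × Γ) → V → ℕ)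
    (hist : List (ℝ × Γ)) (Z : T × (J → V) → ℝ) :
    SS (tp pT J V) (ctxOf (fun g => tl (sl g)) hist) Z = Ex pT fun t =>
      EP (fun _ => (Fintype.card V : ℝ)⁻¹) J (dc J (kerOf sl hist) fun v => Z (t, v)) := by
  induction hist generalizing Z with
  | nil =>
    simp only [ctxOf, SS, kerOf, dc, Ex, EP, tp, Fintype.sum_prod_type, mul_sum, prod_const,
      card_univ, mul_assoc]
  | cons g hist ih =>
    rw [ctxOf, SS, ih, kerOf]
    simp only [dc_snoc, lse, cE_tl hp]
    rfl

lemma pe_push (l : V → ℕ) (σ : V → Bool) (v : J → V) (W : (J → Bool) → ℝ) :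
    pe (fun j => ck l (v j)) (fun v' => W fun j => σ (v' j)) =
      ext W fun j => ∑ i', ck l (v j) i' * spin (σ i') := by
  have h1 : (fun v' : J → V => W fun j => σ (v' j)) = fun v' => ∑ s : J → Bool, W s *
      ∏ j, (1 + spin (σ (v' j)) * spin (s j)) / 2 := by
    funext v'
    rw [sum_eq_single fun j => σ (v' j)]
    · have e : ∀ b, (1 + spin b * spin b) / 2 = 1 := fun b => by cases b <;> norm_num [spin]
      rw [prod_eq_one fun j _ => e _, mul_one]
    · intro s _ hs
      obtain ⟨j, hj⟩ := Function.ne_iff.1 hs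
      rw [prod_eq_zero (mem_univ j), mul_zero]
      revert hj
      cases σ (v' j) <;> cases s j <;> simp [spin]
    · simp
  rw [h1, pe_sum]
  refine sum_congr rfl fun s _ => ?_
  rw [pe_smul, pe_prod (fun j => ck l (v j)) fun j i => (1 + spin (σ i) * spin (s j)) / 2]
  congr 1
  refine prod_congr rfl fun j _ => ?_
  simp only [← mul_div_assoc, mul_add, mul_one, ← sum_div, sum_add_distrib, (ck_pr l (v j)).2,
    sum_mul, mul_assoc]

lemma ker_fst (sl : List (ℝ × Γ) → V → ℕ) (hist : List (ℝ × Γ)) :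
    (kerOf sl hist).map Prod.fst = (hist.map Prod.fst).reverse := by
  induction hist with
  | nil => rfl
  | cons g hist ih => simp [kerOf, ih]

lemma ker_pr (sl : List (ℝ × Γ) → V → ℕ) (hist : List (ℝ × Γ)) :
    ∀ k ∈ kerOf sl hist, ∀ a, Pr (k.2 a) := by
  induction hist with
  | nil => simp [kerOf]
  | cons g hist ih =>
    intro k hk
    rw [kerOf, List.mem_append, List.mem_singleton] at hk
    rcases hk with hk | rfl
    exacts [ih k hk, ck_pr _]

end Br

open Br in
theorem brStmt : BrStmt := by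
  refine ⟨fun T J V Γ _ _ _ _ _ pT W sl hist σ hp hW => ?_, fun V Γ _ _ sl hist σ h1 h2 => ?_⟩
  · rw [frz, SS_ctx hp]
    simp only [cE_tl hp, ty, exp_log (hW _ _)]
    congr 1; funext t
    simp only [pe_push _ σ _ (W t)]
    rfl
  · have h0 : (0 : ℝ) < Fintype.card V := by exact_mod_cast Fintype.card_pos
    refine ⟨⟨fun _ => (inv_pos.2 h0).le, ?_⟩, ker_pr sl hist, fun a => ?_, ?_, fun k hk => ?_⟩
    · simp [msgOf]
    · refine (abs_sum_le_sum_abs _ _).trans (le_of_eq ?_)
      rw [← (ck_pr (sl hist) a).2]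
      refine sum_congr rfl fun i _ => ?_
      rw [abs_mul, abs_of_nonneg ((ck_pr _ a).1 i)]
      cases σ i <;> simp [spin]
    · exact (ker_fst sl hist).symm ▸ h1
    · have h3 : k.1 ∈ (kerOf sl hist).map Prod.fst := List.mem_map_of_mem hk
      rw [ker_fst, List.mem_reverse, List.mem_map] at h3
      obtain ⟨g, hg, e⟩ := h3
      exact e ▸ h2 g hg

end

end Vale.Agent.P168
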