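import Vale.Agent.P168.Stm

/-! P168, module Casc: basic properties of the cascade of perturbations. -/

namespace Vale.Agent.P168

open Finset Real

noncomputable section

namespace Casc

lemma wpos {Γ : Type} [Fintype Γ] {w : Γ → ℝ} (hw : Pr w) (a : Γ → ℝ) :
    0 < ∑ γ, w γ * exp (a γ) := by
  have hex : ∃ γ, 0 < w γ := by
    by_contra h0
    push Not at h0
    have : ∑ γ, w γ ≤ 0 := Finset.sum_nonpos (fun a _ => h0 a)
    rw [hw.2] at this
    linarith
  obtain ⟨γ, hγ⟩ := hex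
  exact Finset.sum_pos' (fun γ _ => mul_nonneg (hw.1 γ) (exp_pos _).le)
    ⟨γ, Finset.mem_univ _, mul_pos hγ (exp_pos _)⟩

lemma zpos {S : Type} [Fintype S] [Nonempty S] (H : S → ℝ) : 0 < ∑ σ, exp (H σ) :=
  Finset.sum_pos (fun _ _ => exp_pos _) Finset.univ_nonempty

lemma lse_mono {Γ : Type} [Fintype Γ] {w : Γ → ℝ} (hw : Pr w) {m : ℝ} (hm : 0 < m)
    (a b : Γ → ℝ) (c : ℝ) (h : ∀ γ, a γ ≤ b γ + c) :
    m⁻¹ * log (∑ γ, w γ * exp (m * a γ)) ≤ m⁻¹ * log (∑ γ, w γ * exp (m * b γ)) + c := by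
  have h1 : ∑ γ, w γ * exp (m * a γ) ≤ exp (m * c) * ∑ γ, w γ * exp (m * b γ) := by
    rw [Finset.mul_sum]
    refine Finset.sum_le_sum (fun γ _ => ?_)
    have : exp (m * a γ) ≤ exp (m * c) * exp (m * b γ) := by
      rw [← exp_add]
      exact exp_le_exp.2 (by nlinarith [h γ])
    nlinarith [hw.1 γ]
  have h2 := log_le_log (wpos hw (fun γ => m * a γ)) h1
  rw [log_mul (exp_pos _).ne' (wpos hw (fun γ => m * b γ)).ne', log_exp] at h2
  have h3 := mul_le_mul_of_nonneg_left h2 (inv_pos.2 hm).le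
  have h4 : m⁻¹ * (m * c) = c := by field_simp
  rw [mul_add, h4] at h3
  linarith

lemma lse_const {Γ : Type} [Fintype Γ] {w : Γ → ℝ} (hw : Pr w) {m : ℝ} (hm : 0 < m) (c : ℝ) :
    m⁻¹ * log (∑ γ, w γ * exp (m * c)) = c := by
  rw [← Finset.sum_mul, hw.2, one_mul, log_exp]
  field_simp

lemma z_mono {S : Type} [Fintype S] [Nonempty S] (H H' : S → ℝ) (c : ℝ)
    (h : ∀ σ, H σ ≤ H' σ + c) : log (∑ σ, exp (H σ)) ≤ log (∑ σ, exp (H' σ)) + c := by
  have h1 : ∑ σ, exp (H σ) ≤ exp c * ∑ σ, exp (H' σ) := by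
    rw [Finset.mul_sum]
    refine Finset.sum_le_sum (fun σ _ => ?_)
    rw [← exp_add]
    exact exp_le_exp.2 (by linarith [h σ])
  have h2 := log_le_log (zpos H) h1
  rw [log_mul (exp_pos _).ne' (zpos H').ne', log_exp] at h2
  linarith

section
variable {S Γ : Type} [Fintype S] [Fintype Γ]

lemma mono [Nonempty S] (w : Γ → ℝ) (h : Γ → S → ℝ) (ms : List ℝ) (H H' : S → ℝ) (c : ℝ)
    (hw : Pr w) (hm : ∀ m ∈ ms, 0 < m) (hH : ∀ σ, H σ ≤ H' σ + c) :
    XX w h ms H ≤ XX w h ms H' + c := by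
  induction ms generalizing H H' with
  | nil => exact z_mono H H' c hH
  | cons m ms ih =>
    refine lse_mono hw (hm m List.mem_cons_self) _ _ c (fun γ => ?_)
    refine ih _ _ (fun m' hm' => hm m' (List.mem_cons_of_mem _ hm')) (fun σ => ?_)
    simp only [Pi.add_apply]
    linarith [hH σ]

lemma yy_bd [Nonempty S] (w : Γ → ℝ) (h : Γ → S → ℝ) (ms : List ℝ) (H y : S → ℝ) (B : ℝ)
    (hw : Pr w) (hm : ∀ m ∈ ms, 0 < m) (hy : ∀ σ, |y σ| ≤ B) : |YY w h ms H y| ≤ B := by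
  have h1 := mono w h ms (H + y) H B hw hm (fun σ => by
    simp only [Pi.add_apply]; linarith [(abs_le.1 (hy σ)).2])
  have h2 := mono w h ms H (H + y) B hw hm (fun σ => by
    simp only [Pi.add_apply]; linarith [(abs_le.1 (hy σ)).1])
  unfold YY
  rw [abs_le]
  constructor <;> linarith

lemma tau_pr (w : Γ → ℝ) (h : Γ → S → ℝ) (m : ℝ) (ms : List ℝ) (H : S → ℝ) (hw : Pr w)
    (hm : 0 < m) : Pr (tau w h m ms H) := by
  refine ⟨fun γ => mul_nonneg (hw.1 γ) (exp_pos _).le, ?_⟩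
  have hZ := wpos hw (fun γ => m * XX w h ms (H + h γ))
  have e : exp (m * XX w h (m :: ms) H) = ∑ γ, w γ * exp (m * XX w h ms (H + h γ)) := by
    rw [XX, ← mul_assoc, mul_inv_cancel₀ hm.ne', one_mul, exp_log hZ]
  have e2 : ∀ γ, tau w h m ms H γ =
      w γ * exp (m * XX w h ms (H + h γ)) / exp (m * XX w h (m :: ms) H) := by
    intro γ
    rw [tau, mul_sub, exp_sub, mul_div_assoc]
  rw [Finset.sum_congr rfl (fun γ _ => e2 γ), ← Finset.sum_div, e, div_self hZ.ne']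

lemma gib_pr [Nonempty S] (H : S → ℝ) : Pr (gib H) := by
  refine ⟨fun σ => div_nonneg (exp_pos _).le (zpos H).le, ?_⟩
  unfold gib
  rw [← Finset.sum_div, div_self (zpos H).ne']

lemma tilt (w : Γ → ℝ) (h : Γ → S → ℝ) (m : ℝ) (ms : List ℝ) (H y : S → ℝ) (γ : Γ) :
    tau w h m ms (H + y) γ =
      tau w h m ms H γ * exp (m * (YY w h ms (H + h γ) y - YY w h (m :: ms) H y)) := by
  unfold tau YY
  rw [mul_assoc, ← exp_add, add_right_comm H y]
  congr 2
  ring

lemma gtilt [Nonempty S] (w : Γ → ℝ) (h : Γ → S → ℝ) (H y : S → ℝ) (σ : S) :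
    gib (H + y) σ = gib H σ * exp (y σ - YY w h [] H y) := by
  unfold gib YY XX
  rw [exp_sub, exp_sub, exp_log (zpos _), exp_log (zpos _), Pi.add_apply, exp_add]
  have h1 := zpos H
  have h2 := zpos (H + y)
  field_simp

lemma mix (w : Γ → ℝ) (h : Γ → S → ℝ) (m : ℝ) (ms : List ℝ) (H y : S → ℝ) (hw : Pr w)
    (hm : 0 < m) :
    exp (m * YY w h (m :: ms) H y) =
      ∑ γ, tau w h m ms H γ * exp (m * YY w h ms (H + h γ) y) := by
  have h1 := (tau_pr w h m ms (H + y) hw hm).2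
  have e : ∀ γ, tau w h m ms (H + y) γ =
      tau w h m ms H γ * exp (m * YY w h ms (H + h γ) y) / exp (m * YY w h (m :: ms) H y) := by
    intro γ
    rw [tilt, mul_sub, exp_sub, mul_div_assoc]
  rw [Finset.sum_congr rfl (fun γ _ => e γ), ← Finset.sum_div, div_eq_one_iff_eq (exp_pos _).ne']
    at h1
  exact h1.symm

lemma gmix [Nonempty S] (w : Γ → ℝ) (h : Γ → S → ℝ) (H y : S → ℝ) :
    exp (YY w h [] H y) = ∑ σ, gib H σ * exp (y σ) := by
  have h1 := (gib_pr (H + y)).2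
  have e : ∀ σ, gib (H + y) σ = gib H σ * exp (y σ) / exp (YY w h [] H y) := by
    intro σ
    rw [gtilt w h, exp_sub, mul_div_assoc]
  rw [Finset.sum_congr rfl (fun σ _ => e σ), ← Finset.sum_div, div_eq_one_iff_eq (exp_pos _).ne']
    at h1
  exact h1.symm

lemma pe_mono [Nonempty S] (w : Γ → ℝ) (h : Γ → S → ℝ) (ms : List ℝ) (hist : List (ℝ × Γ))
    (H : S → ℝ) (Φ Ψ : List (ℝ × Γ) → S → ℝ) (hw : Pr w) (hm : ∀ m ∈ ms, 0 < m)
    (hΦ : ∀ hist' σ, (hist'.map Prod.fst).reverse = (hist.map Prod.fst).reverse ++ ms →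
      Φ hist' σ ≤ Ψ hist' σ) : PE w h ms hist H Φ ≤ PE w h ms hist H Ψ := by
  induction ms generalizing hist H with
  | nil =>
    exact Finset.sum_le_sum (fun σ _ => mul_le_mul_of_nonneg_left
      (hΦ hist σ (by simp)) ((gib_pr H).1 σ))
  | cons m ms ih =>
    refine Finset.sum_le_sum (fun γ _ => mul_le_mul_of_nonneg_left ?_
      ((tau_pr w h m ms H hw (hm m List.mem_cons_self)).1 γ))
    refine ih _ _ (fun m' hm' => hm m' (List.mem_cons_of_mem _ hm')) (fun hist' σ he => ?_)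
    exact hΦ hist' σ (by rw [he]; simp)

lemma pe_const [Nonempty S] (w : Γ → ℝ) (h : Γ → S → ℝ) (ms : List ℝ) (hist : List (ℝ × Γ))
    (H : S → ℝ) (c : ℝ) (hw : Pr w) (hm : ∀ m ∈ ms, 0 < m) :
    PE w h ms hist H (fun _ _ => c) = c := by
  induction ms generalizing hist H with
  | nil => rw [PE, ← Finset.sum_mul, (gib_pr H).2, one_mul]
  | cons m ms ih =>
    rw [PE, Finset.sum_congr rfl (fun γ _ => by
      rw [ih _ _ (fun m' hm' => hm m' (List.mem_cons_of_mem _ hm'))]), ← Finset.sum_mul,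
      (tau_pr w h m ms H hw (hm m List.mem_cons_self)).2, one_mul]

lemma pe_sum {α : Type} (w : Γ → ℝ) (h : Γ → S → ℝ) (ms : List ℝ) (hist : List (ℝ × Γ))
    (H : S → ℝ) (s : Finset α) (a : α → ℝ) (Φ : α → List (ℝ × Γ) → S → ℝ) :
    PE w h ms hist H (fun g σ => ∑ i ∈ s, a i * Φ i g σ) =
      ∑ i ∈ s, a i * PE w h ms hist H (Φ i) := by
  induction ms generalizing hist H with
  | nil =>
    simp only [PE, Finset.mul_sum]
    rw [Finset.sum_comm]
    exact Finset.sum_congr rfl (fun i _ => Finset.sum_congr rfl (fun σ _ => by ring))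
  | cons m ms ih =>
    simp only [PE, ih, Finset.mul_sum]
    rw [Finset.sum_comm]
    exact Finset.sum_congr rfl (fun i _ => Finset.sum_congr rfl (fun σ _ => by ring))

lemma pe_lin (w : Γ → ℝ) (h : Γ → S → ℝ) (ms : List ℝ) (hist : List (ℝ × Γ))
    (H : S → ℝ) (Φ Ψ : List (ℝ × Γ) → S → ℝ) (a b : ℝ) :
    PE w h ms hist H (fun g σ => a * Φ g σ + b * Ψ g σ) =
      a * PE w h ms hist H Φ + b * PE w h ms hist H Ψ := by
  induction ms generalizing hist H with
  | nil =>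
    simp only [PE, Finset.mul_sum, ← Finset.sum_add_distrib]
    exact Finset.sum_congr rfl (fun σ _ => by ring)
  | cons m ms ih =>
    simp only [PE, ih, Finset.mul_sum, ← Finset.sum_add_distrib]
    exact Finset.sum_congr rfl (fun σ _ => by ring)

lemma near [Nonempty S] (w : Γ → ℝ) (h : Γ → S → ℝ) (ms : List ℝ) (H : S → ℝ) (b : ℝ)
    (hw : Pr w) (hm : ∀ m ∈ ms, 0 < m) (hb : ∀ γ σ, |h γ σ| ≤ b) :
    |XX w h ms H - log (∑ σ, exp (H σ))| ≤ ms.length * b := by
  induction ms generalizing H with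
  | nil => simp [XX]
  | cons m ms ih =>
    have hm0 := hm m List.mem_cons_self
    have h1 : ∀ γ, |XX w h ms (H + h γ) - log (∑ σ, exp (H σ))| ≤ (ms.length + 1) * b := by
      intro γ
      have h2 := abs_le.1 (ih (H + h γ) (fun m' hm' => hm m' (List.mem_cons_of_mem _ hm')))
      have h3 := z_mono (H + h γ) H b (fun σ => by
        simp only [Pi.add_apply]; linarith [(abs_le.1 (hb γ σ)).2])
      have h4 := z_mono H (H + h γ) b (fun σ => by
        simp only [Pi.add_apply]; linarith [(abs_le.1 (hb γ σ)).1])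
      rw [abs_le]
      constructor <;> linarith [h2.1, h2.2]
    have h5 := lse_mono hw hm0 (fun γ => XX w h ms (H + h γ)) (fun _ => log (∑ σ, exp (H σ)))
      ((ms.length + 1) * b) (fun γ => by linarith [(abs_le.1 (h1 γ)).2])
    have h6 := lse_mono hw hm0 (fun _ => log (∑ σ, exp (H σ))) (fun γ => XX w h ms (H + h γ))
      ((ms.length + 1) * b) (fun γ => by linarith [(abs_le.1 (h1 γ)).1])
    rw [lse_const hw hm0] at h5 h6
    rw [XX, abs_le, List.length_cons]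
    push_cast
    constructor <;> linarith

lemma dom {Γ' : Type} [Fintype Γ'] (w : Γ → ℝ) (w' : Γ' → ℝ) (h' : Γ' → S → ℝ) (g : Γ → Γ')
    (a μ0 : ℝ) (ms : List ℝ) (H : S → ℝ) (hw : Pr w) (ha : 0 < a) (ha1 : a ≤ 1)
    (hμ : 0 < μ0) (hm : ∀ m ∈ ms, μ0 ≤ m)
    (hF : ∀ F : Γ' → ℝ, (∀ γ, 0 ≤ F γ) → a * ∑ γ, w γ * F (g γ) ≤ ∑ γ', w' γ' * F γ') :
    XX w (fun γ => h' (g γ)) ms H + ms.length * (log a / μ0) ≤ XX w' h' ms H := by
  induction ms generalizing H with
  | nil => simp [XX]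
  | cons m ms ih =>
    have hμm := hm m List.mem_cons_self
    have hm0 : 0 < m := lt_of_lt_of_le hμ hμm
    have h1 := lse_mono hw hm0 (fun γ => XX w (fun γ => h' (g γ)) ms (H + h' (g γ)))
      (fun γ => XX w' h' ms (H + h' (g γ))) (-(ms.length * (log a / μ0))) (fun γ => by
        linarith [ih (H + h' (g γ)) (fun m' hm' => hm m' (List.mem_cons_of_mem _ hm'))])
    have h2 := hF (fun γ' => exp (m * XX w' h' ms (H + h' γ'))) (fun _ => (exp_pos _).le)
    have hZ := wpos hw (fun γ => m * XX w' h' ms (H + h' (g γ)))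
    have h3 := log_le_log (mul_pos ha hZ) h2
    rw [log_mul ha.ne' hZ.ne'] at h3
    have h4 := mul_le_mul_of_nonneg_left h3 (inv_pos.2 hm0).le
    have h5 : log a / μ0 ≤ m⁻¹ * log a := by
      have hl : log a ≤ 0 := log_nonpos ha.le ha1
      have hi : m⁻¹ ≤ μ0⁻¹ := inv_anti₀ hμ hμm
      rw [div_eq_mul_inv]
      nlinarith
    rw [XX, XX, List.length_cons]
    push_cast
    rw [mul_add] at h4
    linarith

lemma marg {S' E : Type} [Fintype S'] [Fintype E] [Nonempty E] (w : Γ → ℝ) (h : Γ → S → ℝ)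
    (e : S × E ≃ S') (ms : List ℝ) (H' : S' → ℝ) :
    XX w (fun γ σ' => h γ (e.symm σ').1) ms H' =
      XX w h ms (fun σ => log (∑ ε, exp (H' (e (σ, ε))))) := by
  induction ms generalizing H' with
  | nil =>
    rw [XX, XX, ← e.sum_comp, Fintype.sum_prod_type]
    congr 1
    exact Finset.sum_congr rfl (fun σ _ => (exp_log (zpos (fun ε => H' (e (σ, ε))))).symm)
  | cons m ms ih =>
    have e1 : ∀ γ, (fun σ => log (∑ ε, exp ((H' + fun σ' => h γ (e.symm σ').1) (e (σ, ε))))) =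
        (fun σ => log (∑ ε, exp (H' (e (σ, ε))))) + h γ := by
      intro γ
      funext σ
      simp only [Pi.add_apply, Equiv.symm_apply_apply, exp_add]
      rw [← Finset.sum_mul, log_mul (zpos (fun ε => H' (e (σ, ε)))).ne' (exp_pos _).ne', log_exp]
    rw [XX, XX]
    simp only [ih, e1]

end

lemma chain (Δ : ℝ) (ms : List ℝ) (hc : Chain Δ ms) :
    nxt ms ≤ 1 ∧ (∀ m ∈ ms, nxt ms ≤ m ∧ m ≤ 1) ∧
      ∀ k, Chain Δ (ms.drop k) ∧ nxt ms ≤ nxt (ms.drop k) := by
  induction ms with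
  | nil => simp [nxt, Chain]
  | cons m ms ih =>
    obtain ⟨h1, h2, h3⟩ := id hc
    obtain ⟨i1, i2, i3⟩ := ih h3
    have e : nxt (m :: ms) = m := rfl
    rw [e]
    refine ⟨h1.trans i1, fun m' hm' => ?_, fun k => ?_⟩
    · rcases List.mem_cons.1 hm' with rfl | hm'
      · exact ⟨le_rfl, h1.trans i1⟩
      · exact ⟨h1.trans (i2 m' hm').1, (i2 m' hm').2⟩
    · cases k with
      | zero => exact ⟨hc, le_rfl⟩
      | succ k => exact ⟨(i3 k).1, h1.trans (i3 k).2⟩

lemma sw_pr {Ξ : Type} [Fintype Ξ] (p : Ξ → ℝ) (q : ℝ) (n : ℕ) (hp : Pr p) (hq : 0 ≤ q)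
    (hq1 : q ≤ 1) : Pr (sw p q n) := by
  constructor
  · intro γ
    refine Finset.prod_nonneg (fun k _ => ?_)
    cases γ k with
    | none => exact sub_nonneg.2 hq1
    | some ξ => exact mul_nonneg hq (hp.1 ξ)
  · have h1 : ∑ o : Option Ξ, o.elim (1 - q) (fun ξ => q * p ξ) = 1 := by
      rw [Fintype.sum_option]
      simp only [Option.elim_none, Option.elim_some]
      rw [← Finset.mul_sum, hp.2]
      ring
    have h2 := Finset.prod_univ_sum (fun _ : Fin n => (univ : Finset (Option Ξ)))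
      (fun _ o => o.elim (1 - q) (fun ξ => q * p ξ))
    rw [Fintype.piFinset_univ, h1, Finset.prod_const_one] at h2
    exact h2.symm

lemma tp_pr {T : Type} [Fintype T] (pT : T → ℝ) (J V : Type) [Fintype J] [DecidableEq J]
    [Fintype V] [Nonempty V] (hp : PrP pT) : PrP (tp pT J V) := by
  have hV : (0 : ℝ) < Fintype.card V := by exact_mod_cast Fintype.card_pos
  refine ⟨fun ξ => mul_pos (hp.1 _) (pow_pos (inv_pos.2 hV) _), ?_⟩
  unfold tp
  rw [Fintype.sum_prod_type]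
  simp only [Finset.sum_const, Finset.card_univ, Fintype.card_fun, nsmul_eq_mul]
  have e : ∀ t, ((Fintype.card V ^ Fintype.card J : ℕ) : ℝ) *
      (pT t * ((Fintype.card V : ℝ)⁻¹) ^ Fintype.card J) = pT t := by
    intro t
    push_cast
    rw [inv_pow]
    field_simp
  rw [Finset.sum_congr rfl (fun t _ => e t), hp.2]

end Casc

theorem xApi : XApi where
  mono := Casc.mono
  yy_bd := Casc.yy_bd
  tau_pr := Casc.tau_pr
  gib_pr := Casc.gib_pr
  tilt := Casc.tilt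
  gtilt := Casc.gtilt
  mix := Casc.mix
  gmix := Casc.gmix
  pe_mono := Casc.pe_mono
  pe_const := Casc.pe_const
  pe_lin := Casc.pe_lin
  pe_sum := Casc.pe_sum
  near := Casc.near
  dom := fun w w' h' g a μ0 ms H hw _ => Casc.dom w w' h' g a μ0 ms H hw
  marg := Casc.marg
  chain := Casc.chain
  sw_pr := Casc.sw_pr
  tp_pr := Casc.tp_pr

end

end Vale.Agent.P168
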