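import Vale.Agent.P168.Stm

/-! P168, module Cmp: comparison of the continuous model with finite models. -/

namespace Vale.Agent.P168

open MeasureTheory Finset Real

noncomputable section

namespace Cmp

lemma av_lip {A : Type} [Fintype A] (f g : A → ℝ) (c : ℝ) (hc : 0 ≤ c)
    (h : ∀ a, |f a - g a| ≤ c) : |av f - av g| ≤ c := by
  rw [av, av, ← sub_div, ← sum_sub_distrib, abs_div, Nat.abs_cast]
  refine div_le_of_le_mul₀ (Nat.cast_nonneg _) hc ((abs_sum_le_sum_abs _ _).trans ?_)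
  refine (sum_le_sum fun a _ => h a).trans ?_
  rw [sum_const, card_univ, nsmul_eq_mul, mul_comm]

lemma av_abs {A : Type} [Fintype A] (f : A → ℝ) (c : ℝ) (hc : 0 ≤ c) (h : ∀ a, |f a| ≤ c) :
    |av f| ≤ c := by
  have := av_lip f (fun _ => 0) c hc (by simpa using h)
  simpa [av] using this

lemma lse_le {S : Type} [Fintype S] [Nonempty S] (a b : S → ℝ) (c : ℝ) (h : ∀ s, a s ≤ b s + c) :
    log (∑ s, exp (a s)) ≤ log (∑ s, exp (b s)) + c := by
  have h1 : 0 < ∑ s, exp (b s) := sum_pos (fun _ _ => exp_pos _) univ_nonempty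
  rw [log_le_iff_le_exp (sum_pos (fun _ _ => exp_pos _) univ_nonempty), exp_add, exp_log h1,
    sum_mul]
  exact sum_le_sum fun s _ => by rw [← exp_add]; exact exp_le_exp.2 (h s)

lemma lse_lip {S : Type} [Fintype S] [Nonempty S] (a b : S → ℝ) (c : ℝ)
    (h : ∀ s, |a s - b s| ≤ c) : |log (∑ s, exp (a s)) - log (∑ s, exp (b s))| ≤ c := by
  have h1 := lse_le a b c fun s => by linarith [(abs_le.1 (h s)).2]
  have h2 := lse_le b a c fun s => by linarith [(abs_le.1 (h s)).1]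
  rw [abs_le]; constructor <;> linarith

lemma abs_spin (s : Bool) : |spin s| = 1 := by cases s <;> simp [spin]

lemma logZ_lip {K N n : ℕ} (θ θ' : Fin n → Clause K) (i : Fin n → Fin K → Fin N)
    (h h' : Fin N → ℝ) :
    |logZ θ i h - logZ θ' i h'| ≤ ∑ k, ‖θ k - θ' k‖ + ∑ v, ‖h v - h' v‖ := by
  have key : ∀ σ : Fin N → Bool, |(∑ k, θ k (fun j => σ (i k j)) + ∑ v, h v * spin (σ v)) -
      (∑ k, θ' k (fun j => σ (i k j)) + ∑ v, h' v * spin (σ v))| ≤
        ∑ k, ‖θ k - θ' k‖ + ∑ v, ‖h v - h' v‖ := by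
    intro σ
    rw [add_sub_add_comm, ← sum_sub_distrib, ← sum_sub_distrib]
    refine (abs_add_le _ _).trans (add_le_add ((abs_sum_le_sum_abs _ _).trans
      (sum_le_sum fun k _ => ?_)) ((abs_sum_le_sum_abs _ _).trans (sum_le_sum fun v _ => ?_)))
    · exact norm_le_pi_norm (θ k - θ' k) _
    · rw [← sub_mul, abs_mul, abs_spin, mul_one, Real.norm_eq_abs]
  exact lse_lip _ _ _ key

lemma int_lip {X : Type} [MeasurableSpace X] (ρ : Measure X) [IsProbabilityMeasure ρ]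
    (f g : X → ℝ) (c : ℝ) (hf : Integrable f ρ) (hg : Integrable g ρ)
    (h : ∀ a, |f a - g a| ≤ c) : |∫ a, f a ∂ρ - ∫ a, g a ∂ρ| ≤ c := by
  rw [← integral_sub hf hg]
  simpa using norm_integral_le_of_norm_le_const (μ := ρ) (f := fun a => f a - g a) (C := c)
    (Filter.Eventually.of_forall h)

lemma int1 (ν : Measure ℝ) [IsProbabilityMeasure ν] (hν : Integrable (fun h => h) ν) (φ : ℝ → ℝ)
    (h : ∀ e e', |φ e - φ e'| ≤ 1 * ‖e - e'‖) :
    Integrable φ ν ∧ |∫ e, φ e ∂ν| ≤ |φ 0| + ∫ e, ‖e‖ ∂ν := by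
  have hc : Continuous φ := (LipschitzWith.of_dist_le_mul (K := 1) fun e e' => by
    simpa [Real.dist_eq] using h e e').continuous
  have hb : ∀ e, ‖φ e‖ ≤ |φ 0| + ‖e‖ := fun e => by
    have h1 := h e 0
    have h2 := abs_sub_abs_le_abs_sub (φ e) (φ 0)
    rw [sub_zero, one_mul] at h1
    rw [Real.norm_eq_abs]; linarith
  have hi : Integrable (fun e : ℝ => |φ 0| + ‖e‖) ν := (integrable_const _).add hν.norm
  refine ⟨hi.mono' hc.aestronglyMeasurable (Filter.Eventually.of_forall hb), ?_⟩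
  have := norm_integral_le_of_norm_le hi (Filter.Eventually.of_forall hb)
  rw [integral_add (integrable_const _) hν.norm] at this
  simpa using this

lemma ep_lip (hOp : OpApi) {A : Type} [Fintype A] (ι : Type) [Fintype ι] [DecidableEq ι]
    (p : A → ℝ) (hp : PrP p) (f g : (ι → A) → ℝ) (c : ℝ) (h : ∀ t, |f t - g t| ≤ c) :
    |EP p ι f - EP p ι g| ≤ c := by
  have := hOp.abs ι p (fun t => f t - g t) c ⟨fun a => (hp.1 a).le, hp.2⟩ h
  simpa only [EP, mul_sub, sum_sub_distrib] using this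

lemma pois (hPo : PoApi) (c A B a b : ℝ) (g g' : ℕ → ℝ) (hc : 0 ≤ c) (hA : 0 ≤ A) (hB : 0 ≤ B)
    (ha : 0 ≤ a) (hb : 0 ≤ b) (h1 : ∀ n, |g n| ≤ A + B * n) (h2 : ∀ n, |g n - g' n| ≤ a + b * n) :
    |∑' n, poi c n * g n - ∑' n, poi c n * g' n| ≤ a + b * c := by
  have s1 := hPo.summ c (A + B) g hc fun n => (h1 n).trans (by
    have : (0 : ℝ) ≤ n := Nat.cast_nonneg n
    nlinarith [mul_nonneg hA this])
  have s2 := hPo.summ c (A + B + a + b) g' hc fun n => by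
    have : (0 : ℝ) ≤ n := Nat.cast_nonneg n
    have h3 := abs_sub_abs_le_abs_sub (g' n) (g n)
    rw [abs_sub_comm] at h3
    nlinarith [mul_nonneg hA this, mul_nonneg ha this, h1 n, h2 n]
  rw [← s1.tsum_sub s2]
  simp only [← mul_sub]
  exact hPo.bd c a b _ hc h2

section
variable (hC : CApi) {r : ℕ} {m : Fin r → ℝ} {x : (Fin (r + 1) → unitInterval) → ℝ}
  (hm : ∀ p, 0 < m p) (hx : Measurable x) (hx1 : ∀ ω, |x ω| ≤ 1)
include hC hm hx hx1

lemma tc_lip (ι : Type) [Fintype ι] [DecidableEq ι] (W W' : (ι → Bool) → ℝ) (c : ℝ)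
    (h0 : ∀ s, 0 < W s) (h0' : ∀ s, 0 < W' s) (h1 : ∀ s, W s ≤ exp c * W' s)
    (h2 : ∀ s, W' s ≤ exp c * W s) : |TC r m x ι W - TC r m x ι W'| ≤ c := by
  have a1 := hC.mono r m x ι W W' c hm hx hx1 h0 h1
  have a2 := hC.mono r m x ι W' W c hm hx hx1 h0' h2
  rw [abs_le]; constructor <;> linarith

lemma tc_abs (ι : Type) [Fintype ι] [DecidableEq ι] (W : (ι → Bool) → ℝ) (c : ℝ)
    (h0 : ∀ s, 0 < W s) (h1 : ∀ s, |log (W s)| ≤ c) : |TC r m x ι W| ≤ c := by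
  have := tc_lip hC hm hx hx1 ι W (fun _ => 1) c h0 (fun _ => one_pos) (fun s => by
    rw [mul_one, ← log_le_iff_le_exp (h0 s)]; exact (abs_le.1 (h1 s)).2) (fun s => by
    rw [← exp_log (h0 s), ← exp_add]
    exact one_le_exp (by linarith [(abs_le.1 (h1 s)).1]))
  rwa [hC.const r m x ι 1 hm one_pos, log_one, sub_zero] at this

variable (hB : BApi) {K n : ℕ}
include hB

lemma u_lip (θ θ' : Fin n → Clause K) (h h' : ℝ) :
    |av (fun l : Fin n → Fin K => TC r m x _ (Uw h θ l)) -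
      av (fun l : Fin n → Fin K => TC r m x _ (Uw h' θ' l))| ≤ |h - h'| + ∑ k, ‖θ k - θ' k‖ := by
  refine av_lip _ _ _ (by positivity) fun l => tc_lip hC hm hx hx1 _ _ _ _
    (fun s => (hB.uw_bd K _ h h' θ θ' l s).1) (fun s => (hB.uw_bd K _ h' h θ' θ l s).1)
    (fun s => (hB.uw_bd K _ h h' θ θ' l s).2.1) fun s => ?_
  have := (hB.uw_bd K _ h' h θ' θ l s).2.1
  rwa [abs_sub_comm, sum_congr rfl fun k _ => norm_sub_rev (θ' k) (θ k)] at this

lemma u_zero : |av (fun l : Fin n → Fin K => TC r m x _ (Uw 0 (0 : Fin n → Clause K) l))| ≤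
    log 2 := by
  refine av_abs _ _ (log_nonneg one_le_two) fun l => tc_abs hC hm hx hx1 _ _ _
    (fun s => (hB.uw_bd K _ 0 0 0 0 l s).1) fun s => ?_
  simpa using (hB.uw_bd K _ 0 0 (0 : Fin n → Clause K) 0 l s).2.2

lemma v_lip (θ θ' : Fin n → Clause K) :
    |TC r m x _ (Vw θ) - TC r m x _ (Vw θ')| ≤ 1 * ∑ k, ‖θ k - θ' k‖ := by
  rw [one_mul]
  refine tc_lip hC hm hx hx1 _ _ _ _ (fun s => (hB.vw_bd K _ θ θ' s).1)
    (fun s => (hB.vw_bd K _ θ' θ s).1) (fun s => (hB.vw_bd K _ θ θ' s).2.1) fun s => ?_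
  have := (hB.vw_bd K _ θ' θ s).2.1
  rwa [sum_congr rfl fun k _ => norm_sub_rev (θ' k) (θ k)] at this

lemma v_zero : |TC r m x _ (Vw (0 : Fin n → Clause K))| ≤ 0 := by
  refine tc_abs hC hm hx hx1 _ _ _ (fun s => (hB.vw_bd K _ 0 0 s).1) fun s => ?_
  simpa using (hB.vw_bd K _ (0 : Fin n → Clause K) 0 s).2.2

variable (ν : Measure ℝ) [IsProbabilityMeasure ν] (hν : Integrable (fun h => h) ν)
include hν

lemma u_int (θ : Fin n → Clause K) :
    ∀ h h' : ℝ, |av (fun l : Fin n → Fin K => TC r m x _ (Uw h θ l)) -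
      av (fun l : Fin n → Fin K => TC r m x _ (Uw h' θ l))| ≤ 1 * ‖h - h'‖ := fun h h' => by
  simpa using u_lip hC hm hx hx1 hB θ θ h h'

lemma ui_lip (θ θ' : Fin n → Clause K) :
    |∫ h, av (fun l : Fin n → Fin K => TC r m x _ (Uw h θ l)) ∂ν -
      ∫ h, av (fun l : Fin n → Fin K => TC r m x _ (Uw h θ' l)) ∂ν| ≤ 1 * ∑ k, ‖θ k - θ' k‖ := by
  refine int_lip ν _ _ _ (int1 ν hν _ (u_int hC hm hx hx1 hB ν hν θ)).1
    (int1 ν hν _ (u_int hC hm hx hx1 hB ν hν θ')).1 fun h => ?_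
  simpa using u_lip hC hm hx hx1 hB θ θ' h h

lemma ui_zero : |∫ h, av (fun l : Fin n → Fin K =>
    TC r m x _ (Uw h (0 : Fin n → Clause K) l)) ∂ν| ≤ log 2 + ∫ e, ‖e‖ ∂ν :=
  (int1 ν hν _ (u_int hC hm hx hx1 hB ν hν 0)).2.trans
    (add_le_add (u_zero hC hm hx hx1 hB) le_rfl)

end

lemma TU_eq (hB : BApi) (K : ℕ) (lam : ℝ) (μ : Measure (Clause K)) (ν : Measure ℝ) (r : ℕ)
    (m : Fin r → ℝ) (x : (Fin (r + 1) → unitInterval) → ℝ) :
    TU K lam μ ν r m x = ∑' n : ℕ, poi (K * lam) n *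
      ∫ θ, ∫ h, av (fun l : Fin n → Fin K => TC r m x _ (Uw h θ l))
        ∂ν ∂(Measure.pi fun _ : Fin n => μ) := by
  simp only [TU, TC, hB.extU]

lemma TV_eq (hB : BApi) (K : ℕ) (lam : ℝ) (μ : Measure (Clause K)) (r : ℕ)
    (m : Fin r → ℝ) (x : (Fin (r + 1) → unitInterval) → ℝ) :
    TV K lam μ r m x = ∑' n : ℕ, poi ((K - 1) * lam) n *
      ∫ θ, TC r m x _ (Vw θ) ∂(Measure.pi fun _ : Fin n => μ) := by
  simp only [TV, TC, hB.extV]

end Cmp

open Cmp in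
theorem cmpStmt (hPo : PoApi) (hOp : OpApi) (hB : BApi) (hC : CApi) (hF : FinStmt) : CmpStmt := by
  intro K lam μ ν _ _ hK hl hμ hν
  obtain ⟨f1, f2⟩ := hF (Clause K) μ hμ
  obtain ⟨g1, g2⟩ := hF ℝ ν hν
  have hK1 : (1 : ℝ) ≤ K := by exact_mod_cast hK
  have c1 : 0 ≤ (K : ℝ) * lam := by positivity
  have c2 : 0 ≤ ((K : ℝ) - 1) * lam := mul_nonneg (by linarith) hl.le
  set A : ℝ := ∫ e, ‖e‖ ∂ν with hA
  set B : ℝ := ∫ e, ‖e‖ ∂μ with hBd
  have hA0 : 0 ≤ A := integral_nonneg fun _ => norm_nonneg _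
  have hB0 : 0 ≤ B := integral_nonneg fun _ => norm_nonneg _
  have hl2 : 0 ≤ log 2 := log_nonneg one_le_two
  have bU : ∀ (r : ℕ) (m : Fin r → ℝ) (x : (Fin (r + 1) → unitInterval) → ℝ), (∀ p, 0 < m p) →
      Measurable x → (∀ ω, |x ω| ≤ 1) → ∀ n : ℕ,
      |∫ θ, ∫ h, av (fun l : Fin n → Fin K => TC r m x _ (Uw h θ l))
        ∂ν ∂(Measure.pi fun _ : Fin n => μ)| ≤ log 2 + A + B * n := by
    intro r m x hm hx hx1 n
    have h1 := (f1 (Fin n) _ 1 zero_le_one (ui_lip hC hm hx hx1 hB ν hν)).2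
    have h2 := ui_zero hC hm hx hx1 hB ν hν (K := K) (n := n)
    rw [Fintype.card_fin] at h1
    linarith
  have bV : ∀ (r : ℕ) (m : Fin r → ℝ) (x : (Fin (r + 1) → unitInterval) → ℝ), (∀ p, 0 < m p) →
      Measurable x → (∀ ω, |x ω| ≤ 1) → ∀ n : ℕ,
      |∫ θ, TC r m x _ (Vw θ) ∂(Measure.pi fun _ : Fin n => μ)| ≤ 0 + B * n := by
    intro r m x hm hx hx1 n
    have h1 := (f1 (Fin n) _ 1 zero_le_one (v_lip hC hm hx hx1 hB)).2
    have h2 := v_zero hC hm hx hx1 hB (K := K) (n := n)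
    rw [Fintype.card_fin] at h1
    linarith
  refine ⟨⟨-(log 2 + A + B * (K * lam)) - (0 + B * ((K - 1) * lam)), ?_⟩, fun δ hδ => ?_⟩
  · intro t ht
    obtain ⟨r, m, x, -, hm, hx, hx1, rfl⟩ := Set.mem_iUnion.1 ht
    have h1 := hPo.bd _ _ _ _ c1 (bU r m x (fun p => (hm p).1) hx hx1)
    have h2 := hPo.bd _ _ _ _ c2 (bV r m x (fun p => (hm p).1) hx hx1)
    rw [TU_eq hB, TV_eq hB]
    linarith [(abs_le.1 h1).1, (abs_le.1 h2).2]
  set d : ℝ := δ / (2 + lam + 2 * (K * lam)) with hd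
  have hd0 : 0 < d := by positivity
  have hdd : d * (2 + lam + 2 * (K * lam)) = δ := by rw [hd]; field_simp
  have hdl : 0 < d * lam := by positivity
  have hdk : 0 ≤ d * (K * lam) := by positivity
  obtain ⟨n1, v1, p1, hp1, f3, f4⟩ := f2 d hd0
  obtain ⟨n2, v2, p2, hp2, g3, g4⟩ := g2 d hd0
  refine ⟨n1, n2, ⟨p1, v1, p2, v2⟩, ⟨hp1, hp2⟩, fun N hN => ?_, fun r m x hm hx hx1 => ?_,
    fun φ hφ => ?_⟩
  · have hN0 : (0 : ℝ) < N := by exact_mod_cast hN
    have l1 : ∀ (n : ℕ) (θ : Fin n → Clause K) (h h' : Fin N → ℝ),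
        |av (fun i : Fin n → Fin K → Fin N => logZ θ i h) -
          av (fun i : Fin n → Fin K → Fin N => logZ θ i h')| ≤ 1 * ∑ v, ‖h v - h' v‖ :=
      fun n θ h h' => av_lip _ _ _ (by positivity) fun i => by simpa using logZ_lip θ θ i h h'
    have l2 : ∀ (n : ℕ) (θ θ' : Fin n → Clause K),
        |∫ h, av (fun i : Fin n → Fin K → Fin N => logZ θ i h) ∂(Measure.pi fun _ : Fin N => ν) -
          ∫ h, av (fun i : Fin n → Fin K → Fin N => logZ θ' i h)
            ∂(Measure.pi fun _ : Fin N => ν)| ≤ 1 * ∑ k, ‖θ k - θ' k‖ :=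
      fun n θ θ' => int_lip _ _ _ _ (g1 (Fin N) _ 1 zero_le_one (l1 n θ)).1
        (g1 (Fin N) _ 1 zero_le_one (l1 n θ')).1 fun h =>
          av_lip _ _ _ (by positivity) fun i => by simpa using logZ_lip θ θ' i h h
    have h1 := pois hPo (lam * N) (|log (Fintype.card (Fin N → Bool))| + N * A) B (N * d) d
      (fun n => ∫ θ, ∫ h, av (fun i : Fin n → Fin K → Fin N => logZ θ i h)
        ∂(Measure.pi fun _ : Fin N => ν) ∂(Measure.pi fun _ : Fin n => μ))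
      (fun n => EP p1 (Fin n) fun t => EP p2 (Fin N) fun e =>
        av (fun i : Fin n → Fin K → Fin N => logZ (fun k => v1 (t k)) i (fun v => v2 (e v))))
      (by positivity) (by positivity) hB0 (by positivity) hd0.le (fun n => ?_) (fun n => ?_)
    · rw [pressure, pressF, ← mul_sub, abs_mul, abs_of_pos (by positivity : (0 : ℝ) < 1 / N),
        one_div, inv_mul_le_iff₀ hN0]
      refine h1.trans ?_
      nlinarith
    · have a1 := (f1 (Fin n) _ 1 zero_le_one (l2 n)).2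
      have a2 := (g1 (Fin N) _ 1 zero_le_one (l1 n 0)).2
      have a3 : |av (fun i : Fin n → Fin K → Fin N =>
          logZ (0 : Fin n → Clause K) i (0 : Fin N → ℝ))| ≤ |log (Fintype.card (Fin N → Bool))| :=
        av_abs _ _ (abs_nonneg _) fun i => by simp [logZ]
      rw [Fintype.card_fin] at a1 a2
      linarith
    · have a1 := f4 (Fin n) _ 1 zero_le_one (l2 n)
      have a2 := ep_lip hOp (Fin n) p1 hp1 _ _ _ fun t =>
        g4 (Fin N) _ 1 zero_le_one (l1 n fun k => v1 (t k))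
      rw [Fintype.card_fin] at a1 a2
      have a3 := (abs_sub_le _ _ _).trans (add_le_add a1 a2)
      linarith
  · have h1 := pois hPo (K * lam) (log 2 + A) B d d _
      (fun n => uF (⟨p1, v1, p2, v2⟩ : FM K (Fin n1) (Fin n2)) (fun _ W => TC r m x _ W) n)
      c1 (by positivity) hB0 hd0.le hd0.le (bU r m x hm hx hx1) (fun n => ?_)
    have h2 := pois hPo ((K - 1) * lam) 0 B 0 d _
      (fun n => vF (⟨p1, v1, p2, v2⟩ : FM K (Fin n1) (Fin n2)) (fun _ W => TC r m x _ W) n)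
      c2 le_rfl hB0 le_rfl hd0.le (bV r m x hm hx hx1) (fun n => ?_)
    · rw [TU_eq hB, TV_eq hB, trialF, sub_sub_sub_comm]
      refine (abs_sub _ _).trans ?_
      nlinarith
    · have a1 := f4 (Fin n) _ 1 zero_le_one (v_lip hC hm hx hx1 hB)
      rw [Fintype.card_fin] at a1
      unfold vF
      linarith
    · have a1 := f4 (Fin n) _ 1 zero_le_one (ui_lip hC hm hx hx1 hB ν hν)
      have a2 := ep_lip hOp (Fin n) p1 hp1 _ _ _ fun t =>
        g3 _ 1 zero_le_one (u_int hC hm hx hx1 hB ν hν fun k => v1 (t k))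
      rw [Fintype.card_fin] at a1
      have a3 := (abs_sub_le _ _ _).trans (add_le_add a1 a2)
      unfold uF
      linarith
  · refine (f3 φ 2 zero_le_two hφ).trans ?_
    nlinarith

end

end Vale.Agent.P168
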