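import Vale.Agent.P168.Stm

/-! P168, module Cons: consequences of the approximate Mecke identity. -/

namespace Vale.Agent.P168

open Finset Real

noncomputable section

namespace Cons

variable {Ξ Λ A : Type} [Fintype Ξ] [Fintype A]

def EE (p : Ξ → ℝ) (τ : A → ℝ) (f : A → Ξ → ℝ) : ℝ := ∑ c, τ c * Ex p (f c)

variable {p : Ξ → ℝ} {τ : A → ℝ}

lemma EE_mono (hp : PrP p) (hτ : Pr τ) {f g : A → Ξ → ℝ} (h : ∀ c ξ, f c ξ ≤ g c ξ) :
    EE p τ f ≤ EE p τ g :=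
  sum_le_sum fun c _ => mul_le_mul_of_nonneg_left
    (sum_le_sum fun ξ _ => mul_le_mul_of_nonneg_left (h c ξ) (hp.1 ξ).le) (hτ.1 c)

lemma EE_lin (f g : A → Ξ → ℝ) (a b : ℝ) :
    EE p τ (fun c ξ => a * f c ξ + b * g c ξ) = a * EE p τ f + b * EE p τ g := by
  simp only [EE, Ex, mul_sum, ← sum_add_distrib]
  exact sum_congr rfl fun c _ => sum_congr rfl fun ξ _ => by ring

lemma EE_fix (hτ : Pr τ) (f : Ξ → ℝ) : EE p τ (fun _ => f) = Ex p f := by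
  rw [EE, ← sum_mul, hτ.2, one_mul]

lemma EE_one (hp : PrP p) (hτ : Pr τ) : EE p τ (fun _ _ => 1) = 1 := by
  rw [EE_fix hτ]; simpa [Ex] using hp.2

lemma EE_swap (E : A → Ξ → ℝ) (Ψ : Ξ → ℝ) :
    EE p τ (fun c ξ => E c ξ * Ψ ξ) = Ex p (fun ξ => Ψ ξ * ∑ c, τ c * E c ξ) := by
  simp only [EE, Ex, mul_sum]
  rw [sum_comm]
  exact sum_congr rfl fun c _ => sum_congr rfl fun ξ _ => by ring

lemma am (hS : SApi) (hp : PrP p) {F : Ξ → Λ} {μ E : A → Ξ → ℝ} {δ : ℝ} (h : AM p F τ μ E δ)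
    (Ψ : ℝ → Ξ → ℝ) (g : ℝ) (h1 : ∀ t t' ξ, |Ψ t ξ - Ψ t' ξ| ≤ g * |t - t'|)
    (h2 : ∀ t ξ, |Ψ t ξ| ≤ g) (h3 : ∀ t, Meas F (Ψ t)) :
    |EE p τ (fun c ξ => Ψ (den p F (μ c) ξ) ξ * den p F (μ c) ξ) -
      EE p τ (fun c ξ => E c ξ * Ψ (den p F (μ c) ξ) ξ)| ≤ g * δ := by
  have e : ∀ c, Ex p (fun ξ => Ψ (den p F (μ c) ξ) ξ * den p F (μ c) ξ) =
      ∑ ξ, μ c ξ * Ψ (den p F (μ c) ξ) ξ := fun c =>
    hS.ex_den p (μ c) (fun ξ => Ψ (den p F (μ c) ξ) ξ) F hp fun ξ ξ' hξ => by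
      change Ψ _ _ = Ψ _ _
      rw [hS.den_meas p (μ c) F ξ ξ' hξ, h3 _ ξ ξ' hξ]
  simp only [EE, e]
  exact h Ψ g h1 h2

/-- the truncation `min (x_+) 1` -/
def tr (x : ℝ) : ℝ := min (max x 0) 1

lemma tr_nn (x : ℝ) : 0 ≤ tr x := le_min (le_max_right _ _) zero_le_one

lemma tr_abs (x : ℝ) : |tr x| ≤ 1 := by rw [abs_of_nonneg (tr_nn x)]; exact min_le_right _ _

lemma tr_lip (x y : ℝ) : |tr x - tr y| ≤ |x - y| :=
  (abs_min_sub_min_le_max _ _ _ _).trans (max_le (abs_max_sub_max_le_abs _ _ _) (by simp))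

lemma tr_key (x s : ℝ) (h0 : 0 < s) (h1 : s ≤ 1) : max x 0 ≤ s + s⁻¹ * (tr x * x) := by
  rcases le_or_gt x 0 with h | h
  · rw [tr, max_eq_right h, min_eq_left zero_le_one]; simpa using h0.le
  rw [max_eq_left h.le]
  rcases le_or_gt x s with g | g
  · have : 0 ≤ s⁻¹ * (tr x * x) := mul_nonneg (inv_pos.2 h0).le (mul_nonneg (tr_nn x) h.le)
    linarith
  · have h2 : s ≤ tr x := le_min (g.le.trans (le_max_left _ _)) h1
    have h3 : x ≤ s⁻¹ * (tr x * x) := by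
      rw [le_inv_mul_iff₀ h0]; exact mul_le_mul_of_nonneg_right h2 h.le
    linarith

lemma lohi {B : ℝ} (hB : 0 ≤ B) : exp (-B) ≤ exp B := exp_le_exp.2 (by linarith)

lemma cl_abs {B : ℝ} (hB : 0 ≤ B) (t : ℝ) :
    |t - cl B t| ≤ max (t - exp B) 0 + max (exp (-B) - t) 0 := by
  have h := lohi hB
  have h1 := le_max_left (t - exp B) 0
  have h2 := le_max_right (t - exp B) 0
  have h3 := le_max_left (exp (-B) - t) 0
  have h4 := le_max_right (exp (-B) - t) 0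
  unfold cl
  rcases le_total t (exp B) with g | g
  · rw [min_eq_right g]
    rcases le_total t (exp (-B)) with k | k
    · rw [max_eq_left k, abs_le]; constructor <;> linarith
    · rw [max_eq_right k, abs_le]; constructor <;> linarith
  · rw [min_eq_left g, max_eq_right h, abs_le]; constructor <;> linarith

lemma cl_mem {B : ℝ} (hB : 0 ≤ B) (t : ℝ) : exp (-B) ≤ cl B t ∧ cl B t ≤ exp B :=
  ⟨le_max_left _ _, max_le (lohi hB) (min_le_left _ _)⟩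

lemma cl_lip (B t t' : ℝ) : |cl B t - cl B t'| ≤ |t - t'| :=
  (abs_max_sub_max_le_max _ _ _ _).trans (max_le (by simp)
    ((abs_min_sub_min_le_max _ _ _ _).trans (max_le (by simp) le_rfl)))

lemma cl_proj {B : ℝ} (hB : 0 ≤ B) (t y : ℝ) (h1 : exp (-B) ≤ y) (h2 : y ≤ exp B) :
    0 ≤ (t - cl B t) * (cl B t - y) := by
  have h := lohi hB
  unfold cl
  rcases le_total t (exp B) with g | g
  · rw [min_eq_right g]
    rcases le_total t (exp (-B)) with k | k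
    · rw [max_eq_left k]; exact mul_nonneg_of_nonpos_of_nonpos (by linarith) (by linarith)
    · rw [max_eq_right k]; simp
  · rw [min_eq_left g, max_eq_right h]; exact mul_nonneg (by linarith) (by linarith)

section
variable (hS : SApi) {B δ : ℝ} (hB : 0 ≤ B) (hp : PrP p) (hτ : Pr τ) {F : Ξ → Λ}
  {μ E : A → Ξ → ℝ} (hE : ∀ c ξ, exp (-B) ≤ E c ξ ∧ E c ξ ≤ exp B) (h0 : 0 < δ) (h1 : δ ≤ 1)
  (h : AM p F τ μ E δ)
include hS hB hp hτ hE h0 h1 h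

lemma c1 : EE p τ (fun c ξ => |den p F (μ c) ξ - cl B (den p F (μ c) ξ)|) ≤ 4 * √δ := by
  have s0 : 0 < √δ := sqrt_pos.2 h0
  have s1 : √δ ≤ 1 := sqrt_le_one.2 h1
  have s2 : (√δ)⁻¹ * δ = √δ := by
    rw [inv_mul_eq_iff_eq_mul₀ s0.ne', mul_self_sqrt h0.le]
  have a1 := (abs_le.1 (am hS hp h (fun t _ => tr (t - exp B)) 1
    (fun t t' _ => by simpa using tr_lip (t - exp B) (t' - exp B)) (fun _ _ => tr_abs _)
    fun _ _ _ _ => rfl)).2
  have a2 := (abs_le.1 (am hS hp h (fun t _ => tr (exp (-B) - t)) 1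
    (fun t t' _ => by simpa [abs_sub_comm t' t] using tr_lip (exp (-B) - t) (exp (-B) - t'))
    (fun _ _ => tr_abs _) fun _ _ _ _ => rfl)).1
  have a3 := EE_mono hp hτ (f := fun c ξ => |den p F (μ c) ξ - cl B (den p F (μ c) ξ)|)
    (g := fun c ξ => (2 * √δ) * 1 + (√δ)⁻¹ *
      (1 * (1 * (tr (den p F (μ c) ξ - exp B) * den p F (μ c) ξ) +
        (-1) * (E c ξ * tr (den p F (μ c) ξ - exp B))) +
      (-1) * (1 * (tr (exp (-B) - den p F (μ c) ξ) * den p F (μ c) ξ) +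
        (-1) * (E c ξ * tr (exp (-B) - den p F (μ c) ξ))))) fun c ξ => by
    set t := den p F (μ c) ξ
    have b1 := tr_key (t - exp B) _ s0 s1
    have b2 := tr_key (exp (-B) - t) _ s0 s1
    have b3 := mul_le_mul_of_nonneg_right (hE c ξ).2 (tr_nn (t - exp B))
    have b4 := mul_le_mul_of_nonneg_right (hE c ξ).1 (tr_nn (exp (-B) - t))
    have b5 : tr (t - exp B) * (t - exp B) + tr (exp (-B) - t) * (exp (-B) - t) ≤
        1 * (1 * (tr (t - exp B) * t) + (-1) * (E c ξ * tr (t - exp B))) +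
          (-1) * (1 * (tr (exp (-B) - t) * t) + (-1) * (E c ξ * tr (exp (-B) - t))) := by
      linarith
    have b6 := mul_le_mul_of_nonneg_left b5 (inv_pos.2 s0).le
    have b7 := cl_abs hB t
    linarith
  rw [EE_lin, EE_lin, EE_lin, EE_lin, EE_one hp hτ] at a3
  refine a3.trans ?_
  have a4 : (√δ)⁻¹ * _ ≤ (√δ)⁻¹ * (2 * δ) := mul_le_mul_of_nonneg_left
    (show 1 * (1 * EE p τ (fun c ξ => tr (den p F (μ c) ξ - exp B) * den p F (μ c) ξ) +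
        (-1) * EE p τ (fun c ξ => E c ξ * tr (den p F (μ c) ξ - exp B))) +
      (-1) * (1 * EE p τ (fun c ξ => tr (exp (-B) - den p F (μ c) ξ) * den p F (μ c) ξ) +
        (-1) * EE p τ (fun c ξ => E c ξ * tr (exp (-B) - den p F (μ c) ξ))) ≤ 2 * δ by linarith)
    (inv_pos.2 s0).le
  linarith

lemma c2 (Ψ : Ξ → ℝ) (g : ℝ) (hm : Meas F Ψ) (hg : ∀ ξ, |Ψ ξ| ≤ g) :
    |EE p τ (fun c ξ => Ψ ξ * cl B (den p F (μ c) ξ)) -
      Ex p (fun ξ => Ψ ξ * ∑ c, τ c * E c ξ)| ≤ g * (5 * √δ) := by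
  have g0 : 0 ≤ g := by
    by_contra hc
    have : IsEmpty Ξ := ⟨fun ξ => hc ((abs_nonneg _).trans (hg ξ))⟩
    simpa using hp.2
  have a1 := abs_le.1 (am hS hp h (fun _ ξ => Ψ ξ) g
    (fun t t' _ => by rw [sub_self, abs_zero]; positivity) (fun _ ξ => hg ξ) fun _ => hm)
  have a2 := mul_le_mul_of_nonneg_left (c1 hS hB hp hτ hE h0 h1 h) g0
  have a3 : δ ≤ √δ := by
    rw [le_sqrt h0.le h0.le]; nlinarith
  have a4 := mul_le_mul_of_nonneg_left a3 g0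
  have k : ∀ c ξ, |Ψ ξ * cl B (den p F (μ c) ξ) - Ψ ξ * den p F (μ c) ξ| ≤
      g * |den p F (μ c) ξ - cl B (den p F (μ c) ξ)| := fun c ξ => by
    rw [← mul_sub, abs_mul, abs_sub_comm]
    exact mul_le_mul_of_nonneg_right (hg ξ) (abs_nonneg _)
  have a5 := EE_mono hp hτ (f := fun c ξ => Ψ ξ * cl B (den p F (μ c) ξ))
    (g := fun c ξ => 1 * (Ψ ξ * den p F (μ c) ξ) +
      g * |den p F (μ c) ξ - cl B (den p F (μ c) ξ)|) fun c ξ => by
    linarith [(abs_le.1 (k c ξ)).2]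
  have a6 := EE_mono hp hτ (g := fun c ξ => Ψ ξ * cl B (den p F (μ c) ξ))
    (f := fun c ξ => 1 * (Ψ ξ * den p F (μ c) ξ) +
      (-g) * |den p F (μ c) ξ - cl B (den p F (μ c) ξ)|) fun c ξ => by
    linarith [(abs_le.1 (k c ξ)).1]
  rw [EE_lin] at a5 a6
  rw [EE_swap] at a1
  rw [abs_le]
  constructor <;> linarith [a1.1, a1.2]

lemma c3 : EE p τ (fun c ξ =>
      (cl B (den p F (μ c) ξ) - cE p F (fun ξ' => ∑ c', τ c' * E c' ξ') ξ) ^ 2) ≤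
    EE p τ (fun c ξ => E c ξ ^ 2) - Ex p (fun ξ => (∑ c, τ c * E c ξ) ^ 2) + 2 * exp B * δ := by
  set Eb : Ξ → ℝ := fun ξ' => ∑ c', τ c' * E c' ξ' with hEb
  have e1 : ∀ ξ, exp (-B) ≤ Eb ξ ∧ Eb ξ ≤ exp B := fun ξ => by
    have k : ∀ x : ℝ, ∑ c, τ c * x = x := fun x => by rw [← sum_mul, hτ.2, one_mul]
    constructor
    · rw [← k (exp (-B))]
      exact sum_le_sum fun c _ => mul_le_mul_of_nonneg_left (hE c ξ).1 (hτ.1 c)
    · rw [← k (exp B)]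
      exact sum_le_sum fun c _ => mul_le_mul_of_nonneg_left (hE c ξ).2 (hτ.1 c)
  have e2 : ∀ ξ, exp (-B) ≤ cE p F Eb ξ ∧ cE p F Eb ξ ≤ exp B := fun ξ =>
    ⟨(hS.cE_const p F _ ξ hp).symm.le.trans (hS.cE_mono p _ _ F ξ hp fun ξ' _ => (e1 ξ').1),
      (hS.cE_mono p _ _ F ξ hp fun ξ' _ => (e1 ξ').2).trans (hS.cE_const p F _ ξ hp).le⟩
  have m1 : Meas F (cE p F Eb) := hS.den_meas p _ F
  have b1 : 1 ≤ exp B := one_le_exp hB
  have lo0 := exp_pos (-B)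
  have a1 := (abs_le.1 (am hS hp h (fun t ξ => cl B t - cE p F Eb ξ) (exp B)
    (fun t t' ξ => by
      rw [sub_sub_sub_cancel_right]
      exact (cl_lip B t t').trans (le_mul_of_one_le_left (abs_nonneg _) b1))
    (fun t ξ => by
      rw [abs_le]; constructor <;> linarith [(cl_mem hB t).1, (cl_mem hB t).2, (e2 ξ).1, (e2 ξ).2])
    fun t ξ ξ' hξ => by
      change _ - _ = _ - _
      rw [m1 ξ ξ' hξ])).2
  set G : A → Ξ → ℝ := fun c ξ => cl B (den p F (μ c) ξ) - cE p F Eb ξ with hG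
  have a2 : EE p τ (fun c ξ => G c ξ * cE p F Eb ξ) = EE p τ (fun c ξ => G c ξ * Eb ξ) :=
    sum_congr rfl fun c _ => by
      rw [hS.ex_cE p Eb (G c) F hp fun ξ ξ' hξ => by
        simp only [hG]
        rw [hS.den_meas p (μ c) F ξ ξ' hξ, m1 ξ ξ' hξ]]
  have a3 := EE_mono hp hτ (f := fun c ξ => G c ξ ^ 2)
    (g := fun c ξ => 1 * (G c ξ * den p F (μ c) ξ) + (-1) * (G c ξ * cE p F Eb ξ)) fun c ξ => by
    have := cl_proj hB (den p F (μ c) ξ) _ (e2 ξ).1 (e2 ξ).2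
    simp only [hG]
    linarith
  have a4 := EE_mono hp hτ (f := fun c ξ => 1 * (E c ξ * G c ξ) + (-1) * (G c ξ * Eb ξ))
    (g := fun c ξ => (1 / 2) * G c ξ ^ 2 + (1 / 2) *
      (1 * (1 * E c ξ ^ 2 + (-2) * (E c ξ * Eb ξ)) + 1 * Eb ξ ^ 2)) fun c ξ => by
    nlinarith [sq_nonneg (G c ξ - (E c ξ - Eb ξ))]
  rw [EE_lin, a2] at a3
  rw [EE_lin, EE_lin, EE_lin, EE_lin, EE_swap E Eb, EE_fix hτ] at a4
  have a5 : Ex p (fun ξ => Eb ξ * ∑ c, τ c * E c ξ) = Ex p (fun ξ => Eb ξ ^ 2) := by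
    simp only [hEb, sq]
  rw [a5] at a4
  change EE p τ (fun c ξ => G c ξ * den p F (μ c) ξ) - EE p τ (fun c ξ => E c ξ * G c ξ) ≤ _ at a1
  change EE p τ (fun c ξ => G c ξ ^ 2) ≤ _ - Ex p (fun ξ => Eb ξ ^ 2) + _
  linarith

end

end Cons

open Cons in
theorem consStmt (hS : SApi) : ConsStmt := by
  intro B hB
  have b0 := exp_pos B
  refine ⟨5 + 2 * exp B, by positivity, fun Ξ Λ A _ _ p F τ μ E δ hp hτ _ hE h0 h1 h => ?_⟩
  have s0 : 0 < √δ := sqrt_pos.2 h0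
  have s1 := mul_pos b0 s0
  refine ⟨(c1 hS hB hp hτ hE h0 h1 h).trans (by linarith), fun Ψ g hm hg => ?_,
    (c3 hS hB hp hτ hE h0 h1 h).trans (by unfold EE; linarith)⟩
  have g0 : 0 ≤ g := by
    by_contra hc
    have : IsEmpty Ξ := ⟨fun ξ => hc ((abs_nonneg _).trans (hg ξ))⟩
    simpa using hp.2
  exact (c2 hS hB hp hτ hE h0 h1 h Ψ g hm hg).trans
    (mul_le_mul_of_nonneg_left (by linarith) g0)

end

end Vale.Agent.P168
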