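import Vale.Agent.P168.Stm

/-! P168, module Cont: the continuous recursion. -/

namespace Vale.Agent.P168

open MeasureTheory Finset Real Filter Topology

noncomputable section

namespace Cont

variable {ι : Type} [Fintype ι]

lemma cons_meas {P : Type} [MeasurableSpace P] {r : ℕ} {f : P → unitInterval}
    {g : P → Fin r → unitInterval} (hf : Measurable f) (hg : Measurable g) :
    Measurable fun z => (Fin.cons (f z) (g z) : Fin (r + 1) → unitInterval) := by
  refine measurable_pi_iff.2 fun k => ?_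
  refine Fin.cases ?_ (fun k => ?_) k
  · simpa using hf
  · simpa [Function.comp_def] using (measurable_pi_apply k).comp hg

/-- slice at the first level -/
def sl {r : ℕ} (Y : (ι → Fin (r + 1) → unitInterval) → ℝ) (w : ι → unitInterval) :
    (ι → Fin r → unitInterval) → ℝ := fun ω => Y fun i => Fin.cons (w i) (ω i)

lemma meas (r : ℕ) : ∀ (P : Type) [MeasurableSpace P] (m : Fin r → ℝ)
    (Y : P → (ι → Fin r → unitInterval) → ℝ), Measurable (Function.uncurry Y) →
    Measurable (fun z => casc ι r m (Y z)) := by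
  induction r with
  | zero =>
    intro P _ m Y hY
    exact hY.comp (measurable_id.prodMk measurable_const)
  | succ r ih =>
    intro P _ m Y hY
    have h := ih (P × (ι → unitInterval)) (Fin.tail m) (fun z => sl (Y z.1) z.2)
      (hY.comp (f := fun q : (P × (ι → unitInterval)) × (ι → Fin r → unitInterval) =>
        (q.1.1, fun i => (Fin.cons (q.1.2 i) (q.2 i) : Fin (r + 1) → unitInterval)))
        (measurable_fst.fst.prodMk (measurable_pi_iff.2 fun i =>
          cons_meas (by fun_prop) (by fun_prop))))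
    exact ((h.pow_const (m 0)).stronglyMeasurable.integral_prod_right').measurable.pow_const _

/-- measurable with values in `[c, C]` -/
def Good {X : Type} [MeasurableSpace X] (c C : ℝ) (Y : X → ℝ) : Prop :=
  Measurable Y ∧ ∀ ω, Y ω ∈ Set.Icc c C

omit [Fintype ι] in
lemma sl_meas {r : ℕ} {Y : (ι → Fin (r + 1) → unitInterval) → ℝ} (h : Measurable Y) :
    Measurable (Function.uncurry (sl Y)) :=
  h.comp (f := fun q : (ι → unitInterval) × (ι → Fin r → unitInterval) =>
    fun i => (Fin.cons (q.1 i) (q.2 i) : Fin (r + 1) → unitInterval))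
    (measurable_pi_iff.2 fun i => cons_meas (by fun_prop) (by fun_prop))

omit [Fintype ι] in
lemma Good.sl {r : ℕ} {c C : ℝ} {Y : (ι → Fin (r + 1) → unitInterval) → ℝ} (h : Good c C Y)
    (w : ι → unitInterval) : Good c C (sl Y w) :=
  ⟨(sl_meas h.1).comp (measurable_const.prodMk measurable_id), fun _ => h.2 _⟩

lemma Good.int {X : Type} [MeasureSpace X] [IsProbabilityMeasure (volume : Measure X)] {c C : ℝ}
    {Y : X → ℝ} (h : Good c C Y) : Integrable Y ∧ ∫ x, Y x ∈ Set.Icc c C := by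
  have hi : Integrable Y := Integrable.of_mem_Icc c C h.1.aemeasurable (Eventually.of_forall h.2)
  refine ⟨hi, ?_, ?_⟩
  · simpa using integral_mono (integrable_const c) hi fun x => (h.2 x).1
  · simpa using integral_mono hi (integrable_const C) fun x => (h.2 x).2

lemma Good.pow {X : Type} [MeasurableSpace X] {c C a : ℝ} {Y : X → ℝ} (h : Good c C Y)
    (hc : 0 < c) (ha : 0 < a) : Good (c ^ a) (C ^ a) fun x => Y x ^ a :=
  ⟨h.1.pow_const a, fun x => ⟨rpow_le_rpow hc.le (h.2 x).1 ha.le,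
    rpow_le_rpow (hc.le.trans (h.2 x).1) (h.2 x).2 ha.le⟩⟩

lemma Good.log {X : Type} [MeasurableSpace X] {c C : ℝ} {Y : X → ℝ} (h : Good c C Y)
    (hc : 0 < c) : Good (log c) (log C) fun x => log (Y x) :=
  ⟨h.1.log, fun x => ⟨log_le_log hc (h.2 x).1, log_le_log (hc.trans_le (h.2 x).1) (h.2 x).2⟩⟩

lemma bd {c C : ℝ} (hc : 0 < c) (r : ℕ) : ∀ (m : Fin r → ℝ)
    (Y : (ι → Fin r → unitInterval) → ℝ), (∀ p, 0 < m p) → Good c C Y →
    casc ι r m Y ∈ Set.Icc c C := by
  induction r with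
  | zero => exact fun m Y _ h => h.2 _
  | succ r ih =>
    intro m Y hm h
    have g : Good c C fun w => casc ι r (Fin.tail m) (sl Y w) :=
      ⟨meas r _ _ _ (sl_meas h.1), fun w => ih _ _ (fun p => hm _) (h.sl w)⟩
    have h1 := (g.pow hc (hm 0)).int.2
    have h2 : 0 < 1 / m 0 := one_div_pos.2 (hm 0)
    have hC : 0 ≤ C := hc.le.trans ((h.2 fun _ _ => 0).1.trans (h.2 _).2)
    refine ⟨le_trans (le_of_eq ?_) (rpow_le_rpow (by positivity) h1.1 h2.le),
      (rpow_le_rpow (le_trans (by positivity) h1.1) h1.2 h2.le).trans (le_of_eq ?_)⟩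
    · rw [one_div, rpow_rpow_inv hc.le (hm 0).ne']
    · rw [one_div, rpow_rpow_inv hC (hm 0).ne']

lemma good_casc {c C : ℝ} (hc : 0 < c) {r : ℕ} {m : Fin r → ℝ} (hm : ∀ p, 0 < m p)
    {Y : (ι → Fin (r + 1) → unitInterval) → ℝ} (h : Good c C Y) :
    Good c C fun w => casc ι r m (sl Y w) :=
  ⟨meas r _ _ _ (sl_meas h.1), fun w => bd hc r _ _ hm (h.sl w)⟩

lemma mono {c C c' C' e : ℝ} (hc : 0 < c) (hc' : 0 < c') (he : 0 < e) (r : ℕ) : ∀ (m : Fin r → ℝ)
    (Y Y' : (ι → Fin r → unitInterval) → ℝ), (∀ p, 0 < m p) → Good c C Y → Good c' C' Y' →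
    (∀ ω, Y ω ≤ e * Y' ω) → casc ι r m Y ≤ e * casc ι r m Y' := by
  induction r with
  | zero => exact fun m Y Y' _ _ _ h => h _
  | succ r ih =>
    intro m Y Y' hm h h' hY
    have hm' : ∀ p, 0 < Fin.tail m p := fun p => hm _
    have g := good_casc hc hm' h
    have g' := good_casc hc' hm' h'
    have i := (g.pow hc (hm 0)).int
    have i' := (g'.pow hc' (hm 0)).int
    have h1 : ∫ w, casc ι r (Fin.tail m) (sl Y w) ^ m 0 ≤
        e ^ m 0 * ∫ w, casc ι r (Fin.tail m) (sl Y' w) ^ m 0 := by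
      rw [← integral_const_mul]
      refine integral_mono i.1 (i'.1.const_mul _) fun w => ?_
      have h2 := rpow_le_rpow (hc.le.trans (g.2 w).1)
        (ih _ _ _ hm' (h.sl w) (h'.sl w) fun ω => hY _) (hm 0).le
      rwa [mul_rpow he.le (hc'.le.trans (g'.2 w).1)] at h2
    refine (rpow_le_rpow (le_trans (by positivity) i.2.1) h1 (one_div_pos.2 (hm 0)).le).trans
      (le_of_eq ?_)
    rw [mul_rpow (by positivity) (le_trans (by positivity) i'.2.1), one_div,
      rpow_rpow_inv he.le (hm 0).ne', ← one_div]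
    rfl

lemma fub {r : ℕ} (φ : (Fin (r + 1) → unitInterval) → ℝ) (h : Good (-2) 2 φ) (j : ι) :
    Good (-2) 2 (fun w : ι → unitInterval => ∫ ω, φ (Fin.cons (w j) ω)) ∧
    ∫ w : ι → unitInterval, ∫ ω, φ (Fin.cons (w j) ω) = ∫ ω, φ ω := by
  have g : Good (-2) 2 fun q : unitInterval × (Fin r → unitInterval) => φ (Fin.cons q.1 q.2) :=
    ⟨h.1.comp (cons_meas measurable_fst measurable_snd), fun _ => h.2 _⟩
  have m1 : Measurable fun t : unitInterval => ∫ ω, φ (Fin.cons t ω) :=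
    g.1.stronglyMeasurable.integral_prod_right'.measurable
  refine ⟨⟨m1.comp (measurable_pi_apply j), fun w => (Good.int (X := Fin r → unitInterval)
    ⟨g.1.comp (measurable_const.prodMk measurable_id), fun _ => h.2 _⟩).2⟩, ?_⟩
  have e1 := integral_comp_eval (μ := fun _ : ι => (volume : Measure unitInterval)) (i := j)
    m1.aestronglyMeasurable
  have e2 := (volume_preserving_piFinSuccAbove (fun _ : Fin (r + 1) => unitInterval)
    0).symm.integral_comp' φ
  rw [volume_pi, e1, ← e2]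
  refine (integral_prod _ g.int.1).symm.trans (integral_congr_ae (Eventually.of_forall fun q => ?_))
  simp [MeasurableEquiv.piFinSuccAbove_symm_apply, Fin.insertNthEquiv]

/-- the Lipschitz property at depth `r` -/
def Lp (ι : Type) [Fintype ι] (r : ℕ) (c C L : ℝ)
    (T : ((ι → Fin r → unitInterval) → ℝ) → ℝ) : Prop :=
  ∀ (Y Y' : (ι → Fin r → unitInterval) → ℝ) (φ : ι → (Fin r → unitInterval) → ℝ) (K : ℝ),
    Good c C Y → Good c C Y' → (∀ j, Good (-2) 2 (φ j)) →
    (∀ ω, |Y ω - Y' ω| ≤ K * ∑ j, φ j (ω j)) → |T Y - T Y'| ≤ L * (K * ∑ j, ∫ ω, φ j ω)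

lemma lipI {f : ℝ → ℝ} {c C : ℝ} (hf : ContDiffOn ℝ 1 f (Set.Icc c C)) :
    ∃ L : ℝ, 0 ≤ L ∧ ∀ s ∈ Set.Icc c C, ∀ t ∈ Set.Icc c C, |f s - f t| ≤ L * |s - t| := by
  obtain ⟨K, hK⟩ := hf.exists_lipschitzOnWith one_ne_zero (convex_Icc c C) isCompact_Icc
  exact ⟨K, K.2, fun s hs t ht => hK.dist_le_mul s hs t ht⟩

lemma level {c C L a b : ℝ} (hc : 0 < c) {r : ℕ} {m : Fin r → ℝ} (hm : ∀ p, 0 < m p)
    (hL : 0 ≤ L) (h : Lp ι r c C L (casc ι r m)) {f : ℝ → ℝ}
    (hf : ContDiffOn ℝ 1 f (Set.Icc c C))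
    (hg : ∀ Y : (ι → unitInterval) → ℝ, Good c C Y → Good a b fun w => f (Y w)) :
    ∃ L', 0 ≤ L' ∧ Lp ι (r + 1) c C L' fun Y => ∫ w, f (casc ι r m (sl Y w)) := by
  obtain ⟨M, M0, hM⟩ := lipI hf
  refine ⟨M * L, mul_nonneg M0 hL, fun Y Y' φ K hY hY' hφ hK => ?_⟩
  have g := good_casc hc hm hY
  have g' := good_casc hc hm hY'
  have i := fun j => (fub (φ j) (hφ j) j).1.int.1
  rw [← integral_sub (hg _ g).int.1 (hg _ g').int.1,
    ← sum_congr rfl fun j _ => (fub (φ j) (hφ j) j).2, ← integral_finsetSum _ fun j _ => i j,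
    ← integral_const_mul, ← integral_const_mul]
  rw [← Real.norm_eq_abs]
  refine norm_integral_le_of_norm_le (((integrable_finsetSum _ fun j _ => i j).const_mul
    _).const_mul _) (Eventually.of_forall fun w => ?_)
  refine (hM _ (g.2 w) _ (g'.2 w)).trans ?_
  rw [mul_assoc]
  exact mul_le_mul_of_nonneg_left (h _ _ (fun j ω => φ j (Fin.cons (w j) ω)) K (hY.sl w) (hY'.sl w)
    (fun j => ⟨(hφ j).1.comp (cons_meas measurable_const measurable_id), fun _ => (hφ j).2 _⟩)
    fun ω => hK _) M0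

lemma lip {c C : ℝ} (hc : 0 < c) (r : ℕ) : ∀ m : Fin r → ℝ, (∀ p, 0 < m p) →
    ∃ L, 0 ≤ L ∧ Lp ι r c C L (casc ι r m) := by
  induction r with
  | zero =>
    refine fun m _ => ⟨1, zero_le_one, fun Y Y' φ K _ _ _ hK => ?_⟩
    have e : ∀ j, ∫ ω, φ j ω = φ j Fin.elim0 := fun j => by
      rw [show φ j = fun _ => φ j Fin.elim0 from funext fun ω => congrArg _ (Subsingleton.elim _ _)]
      simp
    simp only [e, one_mul]
    exact hK _
  | succ r ih =>
    intro m hm
    have hm' : ∀ p, 0 < Fin.tail m p := fun p => hm _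
    obtain ⟨L, L0, hL⟩ := ih _ hm'
    obtain ⟨L', L1, hL'⟩ := level hc hm' L0 hL (f := fun t => t ^ m 0)
      (contDiffOn_id.rpow_const_of_ne fun t ht => (hc.trans_le ht.1).ne')
      fun Y hY => hY.pow hc (hm 0)
    obtain ⟨M, M0, hM⟩ := lipI (f := fun t => t ^ (1 / m 0)) (c := c ^ m 0) (C := C ^ m 0)
      (contDiffOn_id.rpow_const_of_ne fun t ht => ((rpow_pos_of_pos hc _).trans_le ht.1).ne')
    refine ⟨M * L', mul_nonneg M0 L1, fun Y Y' φ K hY hY' hφ hK => ?_⟩
    refine (hM _ ((good_casc hc hm' hY).pow hc (hm 0)).int.2 _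
      ((good_casc hc hm' hY').pow hc (hm 0)).int.2).trans ?_
    rw [mul_assoc]
    exact mul_le_mul_of_nonneg_left (hL' Y Y' φ K hY hY' hφ hK) M0

variable [DecidableEq ι]

lemma ext_good (hB : BApi) {W : (ι → Bool) → ℝ} (hW : ∀ s, 0 < W s) : ∃ c C, 0 < c ∧
    ∀ (r : ℕ) (x : (Fin r → unitInterval) → ℝ), Measurable x → (∀ ω, |x ω| ≤ 1) →
      Good c C fun ω : ι → Fin r → unitInterval => ext W fun i => x (ω i) := by
  obtain ⟨s0, h0⟩ := Finite.exists_min W
  obtain ⟨s1, h1⟩ := Finite.exists_max W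
  refine ⟨W s0, W s1, hW s0, fun r x hx h => ⟨by unfold ext; fun_prop, fun ω => ⟨?_, ?_⟩⟩⟩
  · exact (hB.ext_const _ _).symm.trans_le (hB.ext_le _ _ _ (fun _ => h _) h0)
  · exact (hB.ext_le _ _ _ (fun _ => h _) h1).trans_eq (hB.ext_const _ _)

lemma ext_lip (W : (ι → Bool) → ℝ) : ∃ K : ℝ, ∀ x x' : ι → ℝ, (∀ j, |x j| ≤ 1) →
    (∀ j, |x' j| ≤ 1) → |ext W x - ext W x'| ≤ K * ∑ j, |x j - x' j| := by
  have hf : ContDiff ℝ 1 (ext W) := by unfold ext; fun_prop
  obtain ⟨K, hK⟩ := hf.contDiffOn.exists_lipschitzOnWith one_ne_zero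
    (convex_closedBall (0 : ι → ℝ) 1) (isCompact_closedBall 0 1)
  refine ⟨K, fun x x' h h' => (hK.norm_sub_le
    (mem_closedBall_zero_iff.2 ((pi_norm_le_iff_of_nonneg zero_le_one).2 h))
    (mem_closedBall_zero_iff.2 ((pi_norm_le_iff_of_nonneg zero_le_one).2 h'))).trans ?_⟩
  refine mul_le_mul_of_nonneg_left ((pi_norm_le_iff_of_nonneg
    (sum_nonneg fun _ _ => abs_nonneg _)).2 fun j => ?_) K.2
  exact single_le_sum (f := fun j => |x j - x' j|) (fun _ _ => abs_nonneg _) (mem_univ j)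

end Cont

open Cont in
theorem cApi (hB : BApi) : CApi where
  meas := fun P _ _ _ r m Y hY => meas r P m Y hY
  mono := fun r m x ι _ _ W W' c hm hx h1 hW hWW => by
    have hW' : ∀ s, 0 < W' s := fun s =>
      (mul_pos_iff_of_pos_left (exp_pos c)).1 ((hW s).trans_le (hWW s))
    obtain ⟨a, A, a0, ha⟩ := ext_good hB hW
    obtain ⟨b, B, b0, hb⟩ := ext_good hB hW'
    have g := good_casc a0 hm (ha _ x hx h1)
    have g' := good_casc b0 hm (hb _ x hx h1)
    have h2 := integral_mono (g.log a0).int.1 ((integrable_const c).add (g'.log b0).int.1)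
      fun w => (log_le_log (a0.trans_le (g.2 w).1) (mono a0 b0 (exp_pos c) r m _ _ hm
        ((ha _ x hx h1).sl w) ((hb _ x hx h1).sl w) fun ω => by
          refine (hB.ext_le _ _ _ (fun _ => h1 _) hWW).trans_eq ?_
          simp only [sl, ext, mul_sum, mul_assoc])).trans_eq (by
        rw [log_mul (exp_pos c).ne' (b0.trans_le (g'.2 w).1).ne', log_exp]; rfl)
    rw [integral_add' (integrable_const c) (g'.log b0).int.1, integral_const, probReal_univ,
      one_smul] at h2
    exact h2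
  const := fun r m x ι _ _ c hm hc => by
    have e : ∀ w : ι → unitInterval, casc ι r m
        (fun ω => ext (fun _ => c) fun i => x (Fin.cons (w i) (ω i))) = c := fun w => by
      simp only [hB.ext_const]
      have := bd (ι := ι) (C := c) hc r m (fun _ => c) hm ⟨measurable_const, fun _ => ⟨le_rfl, le_rfl⟩⟩
      exact le_antisymm this.2 this.1
    simp [TC, Tmsg, e]
  lip := fun r m ι _ _ W hm hW => by
    obtain ⟨a, A, a0, ha⟩ := ext_good hB hW
    obtain ⟨K, hK⟩ := ext_lip W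
    obtain ⟨L, L0, hL⟩ := lip (ι := ι) (C := A) a0 r m fun p => (hm p).1
    obtain ⟨L', -, hL'⟩ := level a0 (fun p => (hm p).1) L0 hL (f := log)
      (contDiffOn_id.log fun t ht => (a0.trans_le ht.1).ne') fun Y hY => hY.log a0
    refine ⟨L' * (K * Fintype.card ι), fun x x' hx hx' h h' => ?_⟩
    refine (hL' _ _ (fun _ ω => |x ω - x' ω|) K (ha _ x hx h) (ha _ x' hx' h')
      (fun _ => ⟨(hx.sub hx').abs, fun ω => ⟨by linarith [abs_nonneg (x ω - x' ω)],
        by linarith [abs_sub (x ω) (x' ω), h ω, h' ω]⟩⟩)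
      fun ω => hK _ _ (fun _ => h _) fun _ => h' _).trans_eq ?_
    rw [sum_const, card_univ, nsmul_eq_mul]; ring

end

end Vale.Agent.P168
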