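import Mathlib

/-! Diluted spin glasses: pressure and the Mezard-Parisi trial functional. -/

namespace Vale.Agent.P168

open MeasureTheory

noncomputable section

/-- The spin value: `true` is `+1`, `false` is `-1`. -/
def spin (s : Bool) : ℝ := if s then 1 else -1

/-- Poisson probability of `n` for mean `c`. -/
def poi (c : ℝ) (n : ℕ) : ℝ := Real.exp (-c) * c ^ n / (n.factorial : ℝ)

/-- Uniform average over a finite type. -/
def av {A : Type} [Fintype A] (f : A → ℝ) : ℝ := (∑ a, f a) / (Fintype.card A : ℝ)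

/-- A clause: a real function of `K` spins (with the sup norm). -/
abbrev Clause (K : ℕ) : Type := (Fin K → Bool) → ℝ

/-- `log` of the partition function of `N` spins with `n` clauses `θ k` on the sites `i k`
and fields `h v`. -/
def logZ {K N n : ℕ} (θ : Fin n → Clause K) (i : Fin n → Fin K → Fin N) (h : Fin N → ℝ) : ℝ :=
  Real.log (∑ σ : Fin N → Bool,
    Real.exp (∑ k, θ k (fun j => σ (i k j)) + ∑ v, h v * spin (σ v)))

/-- The pressure `F_N`: Poisson(`lam N`) clauses of law `μ`, uniform sites, fields of law `ν`. -/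
def pressure (K : ℕ) (lam : ℝ) (μ : Measure (Clause K)) (ν : Measure ℝ) (N : ℕ) : ℝ :=
  (1 / (N : ℝ)) * ∑' n : ℕ, poi (lam * N) n *
    ∫ θ, ∫ h, av (fun i : Fin n → Fin K → Fin N => logZ θ i h)
      ∂(Measure.pi fun _ : Fin N => ν) ∂(Measure.pi fun _ : Fin n => μ)

/-- The recursion `Y_{p-1} = (E_p Y_p^{m_p})^{1/m_p}`, from level `r` down to level `0`, for a
function `Y` of the uniform variables of levels `1..r` of the messages indexed by `ι`;
`m 0` is `m_1` and the outermost integral is over the level-1 variables. -/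
def casc (ι : Type) [Fintype ι] :
    (r : ℕ) → (Fin r → ℝ) → ((ι → Fin r → unitInterval) → ℝ) → ℝ
  | 0, _, Y => Y (fun _ => Fin.elim0)
  | r + 1, m, Y =>
      (∫ w : ι → unitInterval,
        casc ι r (Fin.tail m) (fun ω => Y (fun i => Fin.cons (w i) (ω i))) ^ (m 0)) ^ (1 / m 0)

/-- `E log Y_0` over the level-0 variables, for a function `Y` of independent messages
`x(ω_0, ..., ω_r)` indexed by `ι`. -/
def Tmsg (ι : Type) [Fintype ι] (r : ℕ) (m : Fin r → ℝ)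
    (x : (Fin (r + 1) → unitInterval) → ℝ) (Y : (ι → ℝ) → ℝ) : ℝ :=
  ∫ w : ι → unitInterval,
    Real.log (casc ι r m (fun ω => Y (fun i => x (Fin.cons (w i) (ω i)))))

/-- The variable `U` with `n` clauses, positions `l k`, field `h`, messages `x (k, j)`. -/
def Ufun {K n : ℕ} (h : ℝ) (θ : Fin n → Clause K) (l : Fin n → Fin K)
    (x : Fin n × Fin K → ℝ) : ℝ :=
  ∑ e : Bool, Real.exp (h * spin e) *
    ∏ k, ∑ σ ∈ Finset.univ.filter (fun σ : Fin K → Bool => σ (l k) = e),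
      Real.exp (θ k σ) * ∏ j ∈ Finset.univ.erase (l k), (1 + x (k, j) * spin (σ j)) / 2

/-- The variable `V` with `n` clauses and messages `x (k, j)`. -/
def Vfun {K n : ℕ} (θ : Fin n → Clause K) (x : Fin n × Fin K → ℝ) : ℝ :=
  ∏ k, ∑ σ : Fin K → Bool, Real.exp (θ k σ) * ∏ j, (1 + x (k, j) * spin (σ j)) / 2

/-- `T U`: Poisson(`K lam`) clauses, field of law `ν`, uniform positions. -/
def TU (K : ℕ) (lam : ℝ) (μ : Measure (Clause K)) (ν : Measure ℝ) (r : ℕ) (m : Fin r → ℝ)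
    (x : (Fin (r + 1) → unitInterval) → ℝ) : ℝ :=
  ∑' n : ℕ, poi (K * lam) n *
    ∫ θ, ∫ h, av (fun l : Fin n → Fin K => Tmsg (Fin n × Fin K) r m x (Ufun h θ l))
      ∂ν ∂(Measure.pi fun _ : Fin n => μ)

/-- `T V`: Poisson(`(K-1) lam`) clauses. -/
def TV (K : ℕ) (lam : ℝ) (μ : Measure (Clause K)) (r : ℕ) (m : Fin r → ℝ)
    (x : (Fin (r + 1) → unitInterval) → ℝ) : ℝ :=
  ∑' n : ℕ, poi ((K - 1) * lam) n *
    ∫ θ, Tmsg (Fin n × Fin K) r m x (Vfun θ) ∂(Measure.pi fun _ : Fin n => μ)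

/-- All values `T U - T V` at depth `r`, over `0 < m_1 < ... < m_r < 1` and measurable
`x : [0,1]^{r+1} → [-1,1]`. -/
def trial (K : ℕ) (lam : ℝ) (μ : Measure (Clause K)) (ν : Measure ℝ) (r : ℕ) : Set ℝ :=
  {t | ∃ (m : Fin r → ℝ) (x : (Fin (r + 1) → unitInterval) → ℝ),
    StrictMono m ∧ (∀ p, 0 < m p ∧ m p < 1) ∧ Measurable x ∧ (∀ ω, |x ω| ≤ 1) ∧
      t = TU K lam μ ν r m x - TV K lam μ r m x}

/-- `Φ_r`. -/
def Phi (K : ℕ) (lam : ℝ) (μ : Measure (Clause K)) (ν : Measure ℝ) (r : ℕ) : ℝ :=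
  sInf (trial K lam μ ν r)

/-- The class of clause laws: `μ` is the law of a random `θ` with
`exp θ(σ) = a (1 + b f_1(σ_1) ... f_K(σ_K))`, `a > 0`, `|b| < 1`, `|f_j| ≤ 1`, the `f_j` i.i.d.
and independent of `b`, and `E (-b)^n ≥ 0` for `n ≥ 1`. -/
def InClass (K : ℕ) (μ : Measure (Clause K)) : Prop :=
  ∃ (Ω : Type) (_ : MeasurableSpace Ω) (P : Measure Ω) (_ : IsProbabilityMeasure P)
    (θ : Ω → Clause K) (a b : Ω → ℝ) (f : Fin K → Ω → Bool → ℝ),
    Measurable θ ∧ Measurable a ∧ Measurable b ∧ (∀ j, Measurable (f j)) ∧ μ = P.map θ ∧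
    (∀ ω σ, Real.exp (θ ω σ) = a ω * (1 + b ω * ∏ j, f j ω (σ j))) ∧
    (∀ ω, 0 < a ω) ∧ (∀ ω, |b ω| < 1) ∧ (∀ j ω s, |f j ω s| ≤ 1) ∧
    ProbabilityTheory.iIndepFun f P ∧
    (∀ j j', ProbabilityTheory.IdentDistrib (f j) (f j') P P) ∧
    ProbabilityTheory.IndepFun b (fun ω j => f j ω) P ∧
    ∀ n : ℕ, 1 ≤ n → 0 ≤ ∫ ω, (-b ω) ^ n ∂P

end

end Vale.Agent.P168
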