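import Vale.Agent.P168.Stm

/-! P168, module Exi: every finite message is realised by a continuous one. -/

namespace Vale.Agent.P168

open MeasureTheory Finset Real Filter Topology

noncomputable section

namespace Exi

lemma real {A : Type} [Fintype A] {p : A → ℝ} (h : Pr p) : ∃ ψ : unitInterval → A,
    (∀ a, MeasurableSet {t | ψ t = a}) ∧ (fun a => volume.real {t | ψ t = a}) = p := by
  letI : MeasurableSpace A := ⊤
  obtain ⟨b, -, -⟩ := exists_ne_zero_of_sum_ne_zero (h.2.trans_ne one_ne_zero)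
  haveI : Nonempty A := ⟨b⟩
  let q : PMF A := PMF.ofFintype (fun a => ENNReal.ofReal (p a)) (by
    rw [← ENNReal.ofReal_sum_of_nonneg fun a _ => h.1 a, h.2, ENNReal.ofReal_one])
  obtain ⟨f, hf, e⟩ := q.toMeasure.exists_measurable_map_eq
  refine ⟨f, fun a => hf (measurableSet_singleton a), funext fun a => ?_⟩
  have h1 := Measure.map_apply (μ := volume) hf (measurableSet_singleton a)
  rw [e, q.toMeasure_apply_singleton a (measurableSet_singleton a)] at h1
  exact (congrArg ENNReal.toReal h1).symm.trans (ENNReal.toReal_ofReal (h.1 a))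

end Exi

theorem exiStmt (hI : IdStmt) : ExiStmt := by
  rintro A _ ⟨ini, ks, x⟩ ⟨h1, h2, h3, h4, h5⟩
  obtain ⟨ψ0, a0, b0⟩ := Exi.real h1
  choose ψ a1 b1 using fun (p : Fin ks.length) (a : A) => Exi.real (h2 _ (ks.get_mem p) a)
  obtain ⟨k1, k2⟩ := hI A ks.length (fun p => (ks.get p).1) ψ0 ψ x a0 a1
    (fun p => (h5 _ (ks.get_mem p)).1) h3
  refine ⟨ks.length, fun p => (ks.get p).1, _, fun p q hpq => ?_, fun p => h5 _ (ks.get_mem p), k1,
    fun ω => h3 _, fun ι _ _ W hW => ?_⟩
  · exact List.pairwise_iff_get.1 (List.pairwise_map.1 h4) p q hpq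
  · have e : (fun p : Fin ks.length =>
        ((ks.get p).1, fun a a' => volume.real {t | ψ p a t = a'})) = ks.get :=
      funext fun p => Prod.ext rfl (funext fun a => b1 p a)
    rw [k2 ι W hW, b0, e, List.ofFn_get]

end

end Vale.Agent.P168
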