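import Vale.Agent.P168.Stm

/-! P168: module Fin (finite approximation of an integrable law). -/

namespace Vale.Agent.P168

open MeasureTheory Finset Filter Topology

noncomputable section

namespace FinA

variable {E : Type} [NormedAddCommGroup E] [MeasurableSpace E] [BorelSpace E]
  [SecondCountableTopology E] {μ : Measure E} [IsProbabilityMeasure μ]

omit [MeasurableSpace E] [BorelSpace E] [SecondCountableTopology E] in
lemma cont {ι : Type} [Fintype ι] {Φ : (ι → E) → ℝ} {c : ℝ} (hc : 0 ≤ c)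
    (h : ∀ e e', |Φ e - Φ e'| ≤ c * ∑ i, ‖e i - e' i‖) : Continuous Φ := by
  refine (LipschitzWith.of_dist_le' (K := c * Fintype.card ι) fun e e' => ?_).continuous
  rw [Real.dist_eq, mul_assoc, dist_eq_norm]
  refine (h e e').trans (mul_le_mul_of_nonneg_left ?_ hc)
  simpa using sum_le_card_nsmul univ (fun i => ‖e i - e' i‖) ‖e - e'‖
    fun i _ => norm_le_pi_norm (e - e') i

omit [SecondCountableTopology E] [NormedAddCommGroup E] [BorelSpace E] in
lemma sum_int (ι : Type) [Fintype ι] {f : E → ℝ} (hf : Integrable f μ) :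
    Integrable (fun e : ι → E => ∑ i, f (e i)) (Measure.pi fun _ : ι => μ) ∧
      ∫ e : ι → E, ∑ i, f (e i) ∂(Measure.pi fun _ : ι => μ) = Fintype.card ι * ∫ e, f e ∂μ := by
  have h : ∀ i : ι, Integrable (fun e : ι → E => f (e i)) (Measure.pi fun _ : ι => μ) := fun i =>
    integrable_comp_eval (μ := fun _ : ι => μ) hf
  refine ⟨integrable_finsetSum _ fun i _ => h i, ?_⟩
  rw [integral_finsetSum _ fun i _ => h i, sum_congr rfl fun i _ =>
    integral_comp_eval (μ := fun _ : ι => μ) (i := i) hf.aestronglyMeasurable]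
  simp

lemma part1 (hμ : Integrable (fun e => e) μ) (ι : Type) [Fintype ι] (Φ : (ι → E) → ℝ) (c : ℝ)
    (hc : 0 ≤ c) (h : ∀ e e', |Φ e - Φ e'| ≤ c * ∑ i, ‖e i - e' i‖) :
    Integrable Φ (Measure.pi fun _ : ι => μ) ∧
      |∫ e, Φ e ∂(Measure.pi fun _ : ι => μ)| ≤ |Φ 0| + c * (Fintype.card ι * ∫ e, ‖e‖ ∂μ) := by
  obtain ⟨h1, h2⟩ := sum_int ι hμ.norm
  have h3 : ∀ e, ‖Φ e‖ ≤ |Φ 0| + c * ∑ i, ‖e i‖ := fun e => by
    have := h e 0
    simp only [Pi.zero_apply, sub_zero] at this
    rw [Real.norm_eq_abs]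
    linarith [abs_sub_abs_le_abs_sub (Φ e) (Φ 0)]
  have h4 := (integrable_const |Φ 0|).add (h1.const_mul c)
  refine ⟨h4.mono' (cont hc h).aestronglyMeasurable (Eventually.of_forall h3), ?_⟩
  refine (norm_integral_le_of_norm_le h4 (Eventually.of_forall h3)).trans (le_of_eq ?_)
  simp only [Pi.add_apply]
  rw [integral_add (integrable_const _) (h1.const_mul c), integral_const_mul, h2]
  simp

lemma approx (hμ : Integrable (fun e => e) μ) {δ : ℝ} (hδ : 0 < δ) :
    ∃ (n : ℕ) (v : Fin n → E) (g : E → Fin n), Measurable g ∧ (∀ t, μ (g ⁻¹' {t}) ≠ 0) ∧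
      Integrable (fun e => ‖e - v (g e)‖) μ ∧ ∫ e, ‖e - v (g e)‖ ∂μ ≤ δ := by
  classical
  obtain ⟨s, hs, hs'⟩ := (memLp_one_iff_integrable.2 hμ).exists_simpleFunc_eLpNorm_sub_lt
    ENNReal.one_ne_top (ε := ENNReal.ofReal δ) (by simpa using hδ)
  let R : Finset E := s.range.filter fun y => μ (s ⁻¹' {y}) ≠ 0
  have hR : ∀ᵐ e ∂μ, s e ∈ R := by
    have h1 : μ (⋃ y ∈ s.range.filter fun y => μ (s ⁻¹' {y}) = 0, s ⁻¹' {y}) = 0 :=
      (measure_biUnion_null_iff (Finset.countable_toSet _)).2 fun y hy => (mem_filter.1 hy).2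
    refine measure_mono_null (fun e he => ?_) h1
    simp only [R, Set.mem_compl_iff, Set.mem_ofPred_eq, mem_filter, not_and, not_not] at he
    exact Set.mem_biUnion (mem_coe.2 (mem_filter.2 ⟨s.mem_range_self e, he (s.mem_range_self e)⟩))
      rfl
  obtain ⟨e0, he0⟩ := hR.exists
  let G : E → Fin R.card := fun y => R.equivFin (if h : y ∈ R then ⟨y, h⟩ else ⟨_, he0⟩)
  have h1 : ∀ y ∈ R, (R.equivFin.symm (G y) : E) = y := fun y hy => by simp [G, hy]
  have h2 : (fun e => ‖e - (R.equivFin.symm (G (s e)) : E)‖) =ᵐ[μ] fun e => ‖e - s e‖ :=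
    hR.mono fun e he => by simp only [h1 _ he]
  have h3 : Integrable (fun e => ‖e - s e‖) μ := (hμ.sub (memLp_one_iff_integrable.1 hs')).norm
  refine ⟨R.card, fun t => R.equivFin.symm t, fun e => G (s e), (s.map G).measurable, fun t h => ?_,
    h3.congr h2.symm, ?_⟩
  · refine (mem_filter.1 (R.equivFin.symm t).2).2 (measure_mono_null (fun e he => ?_) h)
    have : s e = R.equivFin.symm t := he
    simp [G, this]
  · rw [integral_congr_ae h2, integral_norm_eq_lintegral_enorm (f := fun e => e - s e)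
      (hμ.sub (memLp_one_iff_integrable.1 hs')).aestronglyMeasurable]
    rw [eLpNorm_one_eq_lintegral_enorm] at hs
    exact ENNReal.toReal_le_of_le_ofReal hδ.le hs.le

end FinA

open FinA in
theorem finStmt : FinStmt := by
  intro E _ _ _ _ μ _ hμ
  refine ⟨part1 hμ, fun δ hδ => ?_⟩
  obtain ⟨n, v, g, hg, h0, h1, h2⟩ := approx hμ hδ
  have := Measure.isProbabilityMeasure_map (μ := μ) hg.aemeasurable
  have key : ∀ (ι : Type) [Fintype ι] [DecidableEq ι] (Φ : (ι → E) → ℝ) (c : ℝ), 0 ≤ c →
      (∀ e e', |Φ e - Φ e'| ≤ c * ∑ i, ‖e i - e' i‖) →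
      |∫ e, Φ e ∂(Measure.pi fun _ : ι => μ) -
        EP (fun t => (μ.map g).real {t}) ι (fun t => Φ (fun i => v (t i)))| ≤
          c * (Fintype.card ι * δ) := by
    intro ι _ _ Φ c hc h
    have m1 : Measurable fun (e : ι → E) (i : ι) => g (e i) := by fun_prop
    have e1 : EP (fun t => (μ.map g).real {t}) ι (fun t => Φ (fun i => v (t i))) =
        ∫ e, Φ (fun i => v (g (e i))) ∂(Measure.pi fun _ : ι => μ) := by
      rw [← integral_map (f := fun t : ι → Fin n => Φ (fun i => v (t i))) m1.aemeasurable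
        (measurable_of_finite _).aestronglyMeasurable,
        Measure.pi_map_pi fun _ => hg.aemeasurable, integral_fintype Integrable.of_finite]
      simp [EP, Measure.real, ENNReal.toReal_prod]
    have i1 : Integrable (fun e : ι → E => Φ (fun i => v (g (e i)))) (Measure.pi fun _ : ι => μ) :=
      Integrable.comp_measurable (g := fun t : ι → Fin n => Φ (fun i => v (t i)))
        Integrable.of_finite m1
    obtain ⟨i2, e2⟩ := sum_int ι h1
    rw [e1, ← integral_sub (part1 hμ ι Φ c hc h).1 i1]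
    refine (norm_integral_le_of_norm_le (f := fun e => Φ e - Φ fun i => v (g (e i)))
      (i2.const_mul c) (Eventually.of_forall fun e => h _ _)).trans ?_
    rw [integral_const_mul, e2]
    gcongr
  refine ⟨n, v, fun t => (μ.map g).real {t}, ⟨fun t => ?_, ?_⟩, fun φ c hc h => ?_, key⟩
  · refine ENNReal.toReal_pos ?_ (measure_ne_top _ _)
    rw [Measure.map_apply hg (measurableSet_singleton t)]; exact h0 t
  · simp
  · have e1 : Ex (fun t => (μ.map g).real {t}) (fun t => φ (v t)) = ∫ e, φ (v (g e)) ∂μ := by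
      rw [← integral_map (f := fun t => φ (v t)) hg.aemeasurable
        (measurable_of_finite _).aestronglyMeasurable, integral_fintype Integrable.of_finite]
      rfl
    have i1 : Integrable (fun e => φ (v (g e))) μ :=
      Integrable.comp_measurable (g := fun t => φ (v t)) Integrable.of_finite hg
    have hc' : Continuous φ := (LipschitzWith.of_dist_le' (K := c) fun e e' => by
      rw [Real.dist_eq, dist_eq_norm]; exact h e e').continuous
    have i2 : Integrable φ μ := ((integrable_const |φ 0|).add (hμ.norm.const_mul c)).mono'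
      hc'.aestronglyMeasurable (Eventually.of_forall fun e => by
        have := h e 0
        rw [sub_zero] at this
        simp only [Pi.add_apply, Real.norm_eq_abs]
        linarith [abs_sub_abs_le_abs_sub (φ e) (φ 0)])
    rw [e1, ← integral_sub i2 i1]
    refine (norm_integral_le_of_norm_le (f := fun e => φ e - φ (v (g e))) (h1.const_mul c)
      (Eventually.of_forall fun e => h _ _)).trans ?_
    rw [integral_const_mul]
    gcongr

end

end Vale.Agent.P168
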