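import Vale.Agent.P168.Stm

/-! P168, module Frz: cells, conditional expectations and the frozen functional. -/

namespace Vale.Agent.P168

open Finset Real

namespace Frz

variable {Ξ Λ : Type} [Fintype Ξ]

lemma cell_meas (μ : Ξ → ℝ) (F : Ξ → Λ) : Meas F (cell F μ) := fun ξ ξ' h => by
  rw [cell, cell, h]

lemma le_cell {μ : Ξ → ℝ} (F : Ξ → Λ) (ξ : Ξ) (h : ∀ ξ, 0 ≤ μ ξ) : μ ξ ≤ cell F μ ξ := by
  classical
  unfold cell
  refine le_trans ?_ (single_le_sum (fun i _ => ?_) (mem_univ ξ))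
  · rw [if_pos rfl]
  · split_ifs
    exacts [h i, le_rfl]

lemma cell_pos (p : Ξ → ℝ) (F : Ξ → Λ) (ξ : Ξ) (hp : PrP p) : 0 < cell F p ξ :=
  (hp.1 ξ).trans_le (le_cell F ξ fun ξ => (hp.1 ξ).le)

lemma den_meas (p μ : Ξ → ℝ) (F : Ξ → Λ) : Meas F (den p F μ) := fun ξ ξ' h => by
  rw [den, den, cell_meas μ F ξ ξ' h, cell_meas p F ξ ξ' h]

lemma den_nn (p μ : Ξ → ℝ) (F : Ξ → Λ) (ξ : Ξ) (hp : PrP p) (h : ∀ ξ, 0 ≤ μ ξ) :
    0 ≤ den p F μ ξ :=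
  div_nonneg ((h ξ).trans (le_cell F ξ h)) (cell_pos p F ξ hp).le

lemma ex_den (p μ G : Ξ → ℝ) (F : Ξ → Λ) (hp : PrP p) (hG : Meas F G) :
    Ex p (fun ξ => G ξ * den p F μ ξ) = ∑ ξ, μ ξ * G ξ := by
  classical
  have e : ∀ ξ, p ξ * (G ξ * den p F μ ξ) =
      ∑ ξ', μ ξ' * G ξ' / cell F p ξ' * if F ξ = F ξ' then p ξ else 0 := by
    intro ξ
    rw [den, cell.eq_1 F μ, sum_div, mul_sum, mul_sum]
    refine sum_congr rfl fun ξ' _ => ?_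
    by_cases h : F ξ' = F ξ
    · rw [if_pos h, if_pos h.symm, hG _ _ h, cell_meas p F _ _ h]; ring
    · rw [if_neg h, if_neg (Ne.symm h)]; ring
  rw [Ex, sum_congr rfl fun ξ _ => e ξ, sum_comm]
  refine sum_congr rfl fun ξ' _ => ?_
  rw [← mul_sum, ← cell.eq_1, div_mul_cancel₀ _ (cell_pos p F ξ' hp).ne']

lemma ex_cE (p f G : Ξ → ℝ) (F : Ξ → Λ) (hp : PrP p) (hG : Meas F G) :
    Ex p (fun ξ => G ξ * cE p F f ξ) = Ex p (fun ξ => G ξ * f ξ) := by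
  rw [cE, ex_den p _ G F hp hG, Ex]
  exact sum_congr rfl fun ξ _ => by ring

lemma cE_mono (p f g : Ξ → ℝ) (F : Ξ → Λ) (ξ : Ξ) (hp : PrP p)
    (h : ∀ ξ', F ξ' = F ξ → f ξ' ≤ g ξ') : cE p F f ξ ≤ cE p F g ξ := by
  refine div_le_div_of_nonneg_right (sum_le_sum fun ξ' _ => ?_) (cell_pos p F ξ hp).le
  split_ifs with h'
  exacts [mul_le_mul_of_nonneg_left (h ξ' h') (hp.1 ξ').le, le_rfl]

lemma cE_mul (p f G : Ξ → ℝ) (F : Ξ → Λ) (ξ : Ξ) (hG : Meas F G) :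
    cE p F (fun ξ' => G ξ' * f ξ') ξ = G ξ * cE p F f ξ := by
  simp only [cE, den]
  rw [← mul_div_assoc, cell.eq_1 F fun ξ' => p ξ' * f ξ', mul_sum]
  congr 1
  refine sum_congr rfl fun ξ' _ => ?_
  split_ifs with h
  · simp only [hG _ _ h]; ring
  · ring

lemma cE_const (p : Ξ → ℝ) (F : Ξ → Λ) (c : ℝ) (ξ : Ξ) (hp : PrP p) :
    cE p F (fun _ => c) ξ = c := by
  have := cE_mul p (fun _ => 1) (fun _ => c) F ξ fun _ _ _ => rfl
  simp only [mul_one] at this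
  rw [this]
  simp only [cE, den, mul_one]
  rw [div_self (cell_pos p F ξ hp).ne', mul_one]

lemma cE_sum {C : Type} [Fintype C] (p : Ξ → ℝ) (F : Ξ → Λ) (τ : C → ℝ) (f : C → Ξ → ℝ) (ξ : Ξ) :
    cE p F (fun ξ' => ∑ c, τ c * f c ξ') ξ = ∑ c, τ c * cE p F (f c) ξ := by
  simp only [cE, den, ← mul_div_assoc, ← sum_div]
  congr 1
  simp only [cell, mul_sum]
  rw [sum_comm]
  refine sum_congr rfl fun ξ' _ => ?_
  split_ifs
  · exact sum_congr rfl fun c _ => by ring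
  · simp

lemma cE_lin (p f g : Ξ → ℝ) (F : Ξ → Λ) (a b : ℝ) (ξ : Ξ) :
    cE p F (fun ξ' => a * f ξ' + b * g ξ') ξ = a * cE p F f ξ + b * cE p F g ξ := by
  simpa using cE_sum p F (fun c : Bool => if c then a else b) (fun c => if c then f else g) ξ

lemma cE_pos {p f : Ξ → ℝ} (F : Ξ → Λ) (ξ : Ξ) (hp : PrP p) (h : ∀ ξ, 0 < f ξ) :
    0 < cE p F f ξ :=
  div_pos ((mul_pos (hp.1 ξ) (h ξ)).trans_le (le_cell (μ := fun ξ' => p ξ' * f ξ') F ξ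
    fun ξ => (mul_pos (hp.1 ξ) (h ξ)).le)) (cell_pos p F ξ hp)

lemma tower (p μ : Ξ → ℝ) (F F' : Ξ → Λ) (ξ : Ξ) (hp : PrP p) (h : Meas F' F) :
    cE p F (den p F' μ) ξ = den p F μ ξ := by
  classical
  have := ex_den p μ (fun ξ' => if F ξ' = F ξ then 1 else 0) F' hp
    fun a b hab => by simp only [h a b hab]
  simp only [cE, den.eq_1 p F]
  congr 1
  simp only [Ex, ite_mul, one_mul, zero_mul, mul_ite, mul_one, mul_zero] at this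
  exact this

lemma proj (p f g : Ξ → ℝ) (F : Ξ → Λ) (hp : PrP p) (hg : Meas F g) :
    Ex p (fun ξ => (f ξ - cE p F f ξ) ^ 2) ≤ Ex p (fun ξ => (f ξ - g ξ) ^ 2) := by
  have h := ex_cE p f (fun ξ => cE p F f ξ - g ξ) F hp fun a b hab => by
    simp only [hg a b hab, cE, den_meas p _ F a b hab]
  have h2 : ∑ ξ, p ξ * (f ξ - cE p F f ξ) ^ 2 + 2 * (∑ ξ, p ξ * ((cE p F f ξ - g ξ) * f ξ) -
      ∑ ξ, p ξ * ((cE p F f ξ - g ξ) * cE p F f ξ)) ≤ ∑ ξ, p ξ * (f ξ - g ξ) ^ 2 := by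
    rw [← sum_sub_distrib, mul_sum, ← sum_add_distrib]
    refine sum_le_sum fun ξ _ => ?_
    nlinarith [mul_nonneg (hp.1 ξ).le (sq_nonneg (cE p F f ξ - g ξ))]
  unfold Ex at *
  linarith

lemma few (p : Ξ → ℝ) (F : Ξ → Λ) (L : ℕ) (hp : PrP p) (h : Few L F) :
    Ex p (fun ξ => 1 / cell F p ξ) ≤ L := by
  classical
  obtain ⟨s, h1, h2⟩ := h
  rw [Ex, ← sum_fiberwise_of_maps_to (s := univ) (t := s) (g := F) fun ξ _ => h2 ξ]
  refine le_trans (sum_le_card_nsmul s _ 1 fun l _ => ?_) (by simpa using h1)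
  rcases (univ.filter fun ξ => F ξ = l).eq_empty_or_nonempty with h0 | ⟨ξ0, h0⟩
  · simp [h0]
  · have e0 : F ξ0 = l := (mem_filter.1 h0).2
    have e : ∀ ξ ∈ univ.filter fun ξ => F ξ = l,
        p ξ * (1 / cell F p ξ) = p ξ / cell F p ξ0 := fun ξ hξ => by
      rw [cell_meas p F ξ ξ0 ((mem_filter.1 hξ).2.trans e0.symm), mul_one_div]
    rw [sum_congr rfl e, ← sum_div, div_le_one (cell_pos p F ξ0 hp), sum_filter, cell, e0]

lemma den_add [DecidableEq Ξ] (p μ : Ξ → ℝ) (F : Ξ → Λ) (κ : ℝ) (ξ0 ξ : Ξ) (hp : PrP p)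
    (hκ : 0 ≤ κ) :
    |den p F (fun ξ' => μ ξ' + if ξ' = ξ0 then κ else 0) ξ - den p F μ ξ| ≤ κ / cell F p ξ0 := by
  classical
  have e : cell F (fun ξ' => μ ξ' + if ξ' = ξ0 then κ else 0) ξ - cell F μ ξ =
      if F ξ0 = F ξ then κ else 0 := by
    rw [cell, cell, ← sum_sub_distrib, sum_eq_single ξ0]
    · split_ifs <;> simp_all
    · intro b _ hb
      simp [hb]
    · simp
  have c0 := cell_pos p F ξ0 hp
  rw [den, den, ← sub_div, e]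
  split_ifs with h
  · rw [cell_meas p F _ _ h, abs_of_nonneg (div_nonneg hκ (cell_pos p F ξ hp).le)]
  · rw [zero_div, abs_zero]; positivity

lemma lse_meas (p : Ξ → ℝ) (m : ℝ) (F : Ξ → Λ) (Z : Ξ → ℝ) : Meas F (lse p m F Z) :=
  fun a b h => by simp only [lse, cE, den_meas p _ F a b h]

lemma exp_lse {p : Ξ → ℝ} {m : ℝ} (F : Ξ → Λ) (Z : Ξ → ℝ) (ξ : Ξ) (hp : PrP p) (hm : 0 < m) :
    exp (m * lse p m F Z ξ) = cE p F (fun ξ' => exp (m * Z ξ')) ξ := by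
  rw [lse, mul_inv_cancel_left₀ hm.ne', exp_log (cE_pos F ξ hp fun _ => exp_pos _)]

lemma lse_mono {p : Ξ → ℝ} {m s : ℝ} (F : Ξ → Λ) {Z Z' : Ξ → ℝ} (hp : PrP p) (hm : 0 < m)
    (h : ∀ ξ, Z ξ ≤ Z' ξ + s) (ξ : Ξ) : lse p m F Z ξ ≤ lse p m F Z' ξ + s := by
  refine le_of_mul_le_mul_left (exp_le_exp.1 ?_) hm
  rw [mul_add, add_comm, exp_add, exp_lse F Z ξ hp hm, exp_lse F Z' ξ hp hm,
    ← cE_mul p _ (fun _ => exp (m * s)) F ξ fun _ _ _ => rfl]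
  refine cE_mono p _ _ F ξ hp fun ξ' _ => ?_
  rw [← exp_add, exp_le_exp]
  nlinarith [h ξ']

lemma mono (p : Ξ → ℝ) (M s : ℝ) (F : Ξ → Λ) (c : List (ℝ × (Ξ → Λ))) (Z Z' : Ξ → ℝ) (hp : PrP p)
    (hc : CtxOk M F c) (h : ∀ ξ, Z ξ ≤ Z' ξ + s) : SS p c Z ≤ SS p c Z' + s := by
  induction c generalizing M F Z Z' with
  | nil =>
    calc SS p [] Z ≤ ∑ ξ, p ξ * (Z' ξ + s) :=
          sum_le_sum fun ξ _ => mul_le_mul_of_nonneg_left (h ξ) (hp.1 ξ).le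
      _ = _ := by simp only [mul_add, sum_add_distrib, ← sum_mul, hp.2, one_mul, SS, Ex]
  | cons k c ih => exact ih _ _ _ _ hc.2.2.2 (lse_mono k.2 hp hc.1 h)

lemma w_pos (p : Ξ → ℝ) (c : List (ℝ × (Ξ → Λ))) (Z : Ξ → ℝ) (ξ : Ξ) : 0 < WW p c Z ξ := by
  induction c generalizing Z with
  | nil => exact one_pos
  | cons k c ih => exact mul_pos (exp_pos _) (ih _)

lemma w_meas (p : Ξ → ℝ) (M : ℝ) (F : Ξ → Λ) (c : List (ℝ × (Ξ → Λ))) (Z : Ξ → ℝ)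
    (hc : CtxOk M F c) (hZ : Meas F Z) : Meas F (WW p c Z) := by
  induction c generalizing M F Z with
  | nil => exact fun _ _ _ => rfl
  | cons k c ih =>
    intro a b h
    have h2 := hc.2.2.1 a b h
    simp only [WW, hZ a b h, lse_meas p k.1 k.2 Z a b h2,
      ih _ _ _ hc.2.2.2 (lse_meas p k.1 k.2 Z) a b h2]

lemma w_tel (p : Ξ → ℝ) (M s : ℝ) (F : Ξ → Λ) (c : List (ℝ × (Ξ → Λ))) (Z Z' : Ξ → ℝ) (ξ : Ξ)
    (hp : PrP p) (hc : CtxOk M F c) (hM : 0 ≤ M) (h : ∀ ξ, |Z ξ - Z' ξ| ≤ s) :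
    WW p c Z ξ ≤ exp (M * (Z ξ - Z' ξ + s)) * WW p c Z' ξ := by
  have h0 : 0 ≤ Z ξ - Z' ξ + s := by linarith [(abs_le.1 (h ξ)).1]
  induction c generalizing M F Z Z' with
  | nil => simpa [WW] using mul_nonneg hM h0
  | cons k c ih =>
    have l1 := lse_mono (s := s) (Z := Z) (Z' := Z') k.2 hp hc.1
      fun ξ => by linarith [(abs_le.1 (h ξ)).2]
    have l2 := lse_mono (s := s) (Z := Z') (Z' := Z) k.2 hp hc.1
      fun ξ => by linarith [(abs_le.1 (h ξ)).1]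
    have i := ih k.1 k.2 (lse p k.1 k.2 Z) (lse p k.1 k.2 Z') hc.2.2.2 hc.1.le
      (fun ξ => abs_le.2 ⟨by linarith [l2 ξ], by linarith [l1 ξ]⟩) (by linarith [l2 ξ])
    simp only [WW]
    refine (mul_le_mul_of_nonneg_left i (exp_pos _).le).trans ?_
    rw [← mul_assoc, ← mul_assoc, ← exp_add, ← exp_add]
    refine mul_le_mul_of_nonneg_right (exp_le_exp.2 ?_) (w_pos _ _ _ _).le
    nlinarith [mul_le_mul_of_nonneg_right hc.2.1 h0]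

lemma w_lip (p : Ξ → ℝ) (M s : ℝ) (F : Ξ → Λ) (c : List (ℝ × (Ξ → Λ))) (Z Z' : Ξ → ℝ) (ξ : Ξ)
    (hp : PrP p) (hc : CtxOk M F c) (hM : M ≤ 1) (h : ∀ ξ, |Z ξ - Z' ξ| ≤ s) :
    WW p c Z ξ ≤ exp (2 * s) * WW p c Z' ξ := by
  have h0 := abs_le.1 (h ξ)
  have hc' : CtxOk 1 F c := by
    cases c with
    | nil => trivial
    | cons k c => exact ⟨hc.1, hc.2.1.trans hM, hc.2.2⟩
  refine (w_tel p 1 s F c Z Z' ξ hp hc' zero_le_one h).trans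
    (mul_le_mul_of_nonneg_right (exp_le_exp.2 ?_) (w_pos _ _ _ _).le)
  linarith [h0.2]

lemma w_zero (p : Ξ → ℝ) (c : List (ℝ × (Ξ → Λ))) (ξ : Ξ) (hp : PrP p) :
    WW p c (fun _ => 0) ξ = 1 := by
  induction c with
  | nil => rfl
  | cons k c ih =>
    have e : lse p k.1 k.2 (fun _ => 0) = fun _ => 0 := funext fun ξ => by
      simp [lse, cE_const p k.2 1 ξ hp]
    simp [WW, e, ih]

lemma w_le (p : Ξ → ℝ) (M b : ℝ) (F : Ξ → Λ) (c : List (ℝ × (Ξ → Λ))) (Z : Ξ → ℝ) (ξ : Ξ)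
    (hp : PrP p) (hc : CtxOk M F c) (hM : M ≤ 1) (h : ∀ ξ, |Z ξ| ≤ b) :
    WW p c Z ξ ≤ exp (2 * b) := by
  simpa [w_zero p c ξ hp] using w_lip p M b F c Z (fun _ => 0) ξ hp hc hM (by simpa using h)

lemma jen {p : Ξ → ℝ} {m : ℝ} (F : Ξ → Λ) (Z Z' : Ξ → ℝ) (ξ : Ξ) (hp : PrP p) (hm : 0 < m) :
    cE p F (fun ξ' => exp (m * (Z ξ' - lse p m F Z ξ')) * (Z' ξ' - Z ξ')) ξ ≤
      lse p m F Z' ξ - lse p m F Z ξ := by
  set a := lse p m F Z ξ with ha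
  set a' := lse p m F Z' ξ with ha'
  have one : ∀ Y : Ξ → ℝ, exp (-(m * lse p m F Y ξ)) * cE p F (fun ξ' => exp (m * Y ξ')) ξ = 1 :=
    fun Y => by rw [← exp_lse F Y ξ hp hm, ← exp_add, neg_add_cancel, exp_zero]
  have h1 := cE_mono p (fun ξ' => (1 - m * (a' - a)) * exp (-(m * a)) * exp (m * Z ξ') +
      m * (exp (m * (Z ξ' - lse p m F Z ξ')) * (Z' ξ' - Z ξ')))
    (fun ξ' => exp (-(m * a')) * exp (m * Z' ξ')) F ξ hp fun ξ' h => by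
      have e1 : exp (-(m * a)) * exp (m * Z ξ') = exp (m * (Z ξ' - a)) := by
        rw [← exp_add]; congr 1; ring
      have e2 : exp (-(m * a')) * exp (m * Z' ξ') =
          exp (m * (Z ξ' - a)) * exp (m * (Z' ξ' - Z ξ') - m * (a' - a)) := by
        rw [← exp_add, ← exp_add]; congr 1; ring
      rw [lse_meas p m F Z ξ' ξ h, ← ha, mul_assoc, e1, e2]
      nlinarith [mul_le_mul_of_nonneg_left (add_one_le_exp (m * (Z' ξ' - Z ξ') - m * (a' - a)))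
        (exp_pos (m * (Z ξ' - a))).le]
  rw [cE_lin, cE_mul p _ (fun _ => exp (-(m * a'))) F ξ fun _ _ _ => rfl, one, mul_assoc, one] at h1
  exact le_of_mul_le_mul_left (by linarith) hm

lemma sub (p : Ξ → ℝ) (M : ℝ) (F : Ξ → Λ) (c : List (ℝ × (Ξ → Λ))) (Z Z' : Ξ → ℝ) (hp : PrP p)
    (hc : CtxOk M F c) : SS p c Z + Ex p (fun ξ => WW p c Z ξ * (Z' ξ - Z ξ)) ≤ SS p c Z' := by
  induction c generalizing M F Z Z' with
  | nil =>
    simp only [SS, WW, Ex, ← sum_add_distrib]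
    exact le_of_eq (sum_congr rfl fun ξ _ => by ring)
  | cons k c ih =>
    refine le_trans (add_le_add le_rfl ?_) (ih _ _ (lse p k.1 k.2 Z) (lse p k.1 k.2 Z') hc.2.2.2)
    have e := ex_cE p (fun ξ' => exp (k.1 * (Z ξ' - lse p k.1 k.2 Z ξ')) * (Z' ξ' - Z ξ'))
      (WW p c (lse p k.1 k.2 Z)) k.2 hp (w_meas p _ _ c _ hc.2.2.2 (lse_meas p _ _ Z))
    refine le_trans (le_of_eq (Eq.trans ?_ e.symm)) (sum_le_sum fun ξ _ =>
      mul_le_mul_of_nonneg_left (mul_le_mul_of_nonneg_left (jen k.2 Z Z' ξ hp hc.1)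
        (w_pos _ _ _ _).le) (hp.1 ξ).le)
    exact sum_congr rfl fun ξ _ => by simp only [WW]; ring

lemma mix_pos {C : Type} [Fintype C] {τ u : C → ℝ} (hτ : Pr τ) (hu : ∀ a, 0 < u a) :
    0 < ∑ a, τ a * u a := by
  obtain ⟨a, -, ha⟩ := exists_ne_zero_of_sum_ne_zero (hτ.2.trans_ne one_ne_zero)
  exact sum_pos' (fun a _ => mul_nonneg (hτ.1 a) (hu a).le)
    ⟨a, mem_univ a, mul_pos ((hτ.1 a).lt_of_ne' ha) (hu a)⟩

lemma conc {C : Type} [Fintype C] (p : Ξ → ℝ) (M : ℝ) (F : Ξ → Λ) (c : List (ℝ × (Ξ → Λ)))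
    (τ : C → ℝ) (u : C → Ξ → ℝ) (hp : PrP p) (hc : CtxOk M F c) (hM : 0 < M) (hτ : Pr τ)
    (hu : ∀ a ξ, 0 < u a ξ) : ∑ a, τ a * SS p c (fun ξ => M⁻¹ * log (u a ξ)) ≤
      SS p c (fun ξ => M⁻¹ * log (∑ a, τ a * u a ξ)) := by
  induction c generalizing M F u with
  | nil =>
    simp only [SS, Ex, mul_sum]
    rw [sum_comm]
    refine sum_le_sum fun ξ _ => ?_
    have := strictConcaveOn_log_Ioi.concaveOn.le_map_sum (t := univ) (w := τ)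
      (p := fun a => u a ξ) (fun a _ => hτ.1 a) hτ.2 fun a _ => hu a ξ
    simp only [smul_eq_mul] at this
    refine le_trans (le_of_eq ?_) (mul_le_mul_of_nonneg_left (mul_le_mul_of_nonneg_left this
      (inv_pos.2 hM).le) (hp.1 ξ).le)
    simp only [mul_sum]
    exact sum_congr rfl fun a _ => by ring
  | cons k c ih =>
    have pos := fun a ξ => cE_pos (f := fun ξ' => exp (k.1 * (M⁻¹ * log (u a ξ')))) k.2 ξ hp
      fun _ => exp_pos _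
    refine (ih k.1 k.2 _ hc.2.2.2 hc.1 pos).trans ?_
    refine (mono p k.1 0 k.2 c _ _ hp hc.2.2.2 fun ξ => ?_).trans_eq (add_zero _)
    rw [add_zero, lse]
    refine mul_le_mul_of_nonneg_left (log_le_log (mix_pos hτ fun a => pos a ξ) ?_)
      (inv_pos.2 hc.1).le
    rw [← cE_sum]
    refine cE_mono p _ _ _ ξ hp fun ξ' _ => ?_
    have e : ∀ t : ℝ, 0 < t → exp (k.1 * (M⁻¹ * log t)) = t ^ (k.1 / M) := fun t ht => by
      rw [rpow_def_of_pos ht]; congr 1; ring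
    have := (concaveOn_rpow (div_pos hc.1 hM).le ((div_le_one hM).2 hc.2.1)).le_map_sum
      (t := univ) (w := τ) (p := fun a => u a ξ') (fun a _ => hτ.1 a) hτ.2 fun a _ => (hu a ξ').le
    simp only [smul_eq_mul] at this
    rw [e _ (mix_pos hτ fun a => hu a ξ'), sum_congr rfl fun a _ => by rw [e _ (hu a ξ')]]
    exact this

end Frz

theorem sApi : SApi :=
  ⟨Frz.cell_pos, Frz.cell_meas, Frz.den_meas, Frz.den_nn, Frz.ex_den, Frz.ex_cE, Frz.cE_mono,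
    Frz.cE_const, Frz.cE_lin, Frz.cE_sum, Frz.cE_mul, Frz.tower, Frz.proj, Frz.few, Frz.den_add,
    Frz.sub, Frz.w_pos, Frz.w_le, Frz.w_meas, Frz.w_lip, Frz.conc, Frz.mono⟩

end Vale.Agent.P168
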