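import Vale.Agent.P168.Stm

/-! P168, module Ident: finite Markov messages as continuous messages. -/

namespace Vale.Agent.P168

open MeasureTheory Finset Real Filter Topology

noncomputable section

namespace Ident

variable {A : Type} [Fintype A] {ι : Type} [Fintype ι] [DecidableEq ι]

lemma int_eq (χ : ι → unitInterval → A) (h : ∀ j a, MeasurableSet {t | χ j t = a})
    (F : (ι → A) → ℝ) : ∫ w : ι → unitInterval, F (fun j => χ j (w j)) =
      ∑ a : ι → A, (∏ j, volume.real {t | χ j t = a j}) * F a := by
  classical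
  have e : ∀ w : ι → unitInterval, F (fun j => χ j (w j)) =
      ∑ a : ι → A, (∏ j, {t | χ j t = a j}.indicator (fun _ => (1 : ℝ)) (w j)) * F a := by
    intro w
    rw [sum_eq_single (fun j => χ j (w j)) ?_ (by simp)]
    · simp
    · intro a _ ha
      obtain ⟨j, hj⟩ := Function.ne_iff.1 ha
      rw [prod_eq_zero (mem_univ j) (Set.indicator_of_notMem (s := {t | χ j t = a j})
        (fun hc => hj (Eq.symm hc)) _), zero_mul]
  simp only [e]
  rw [integral_finsetSum _ fun a _ => (Integrable.fintype_prod
    (f := fun j => {t | χ j t = a j}.indicator fun _ => (1 : ℝ)) fun j =>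
      (integrable_const 1).indicator (h j _)).mul_const _]
  refine sum_congr rfl fun a _ => ?_
  rw [integral_mul_const, integral_fintype_prod_volume_eq_prod
    (fun j => {t | χ j t = a j}.indicator fun _ => (1 : ℝ))]
  refine congrArg (· * F a) (prod_congr rfl fun j _ => ?_)
  rw [integral_indicator (h j _)]; simp

lemma wpos {B : Type} [Fintype B] {p f : B → ℝ} (h0 : ∀ b, 0 ≤ p b) (h1 : ∑ b, p b = 1)
    (hf : ∀ b, 0 < f b) : 0 < ∑ b, p b * f b := by
  obtain ⟨b, -, hb⟩ := exists_ne_zero_of_sum_ne_zero (h1.trans_ne one_ne_zero)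
  exact sum_pos' (fun b _ => mul_nonneg (h0 b) (hf b).le)
    ⟨b, mem_univ b, mul_pos ((h0 b).lt_of_ne hb.symm) (hf b)⟩

lemma ext_pos {W : (ι → Bool) → ℝ} (hW : ∀ s, 0 < W s) {x : ι → ℝ} (hx : ∀ j, |x j| ≤ 1) :
    0 < ext W x := by
  unfold ext
  simp only [mul_comm (W _)]
  refine wpos (fun s => prod_nonneg fun j _ => ?_) ?_ hW
  · have := abs_le.1 (hx j)
    unfold spin; split_ifs <;> linarith [this.1, this.2]
  · rw [← Fintype.piFinset_univ, ← prod_univ_sum (fun _ => univ)
      fun j (b : Bool) => (1 + x j * spin b) / 2]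
    refine prod_eq_one fun j _ => ?_
    simp [spin]; ring

lemma casc_eq (Z : (ι → A) → ℝ) (r : ℕ) : ∀ (m : Fin r → ℝ) (ψ : Fin r → A → unitInterval → A),
    (∀ p a a', MeasurableSet {t | ψ p a t = a'}) → (∀ p, 0 < m p) → ∀ a : ι → A,
    casc ι r m (fun ω => exp (Z fun j => run r ψ (a j) (ω j))) =
      exp (dc ι (List.ofFn fun p => (m p, fun a a' => volume.real {t | ψ p a t = a'})) Z a) := by
  induction r with
  | zero => intro m ψ _ _ a; simp [casc, run, dc]
  | succ r ih =>
    intro m ψ hψ hm a
    rw [List.ofFn_succ, dc, casc]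
    simp only [run, Fin.cons_zero, Fin.tail_cons]
    have e := fun w : ι → unitInterval => ih (Fin.tail m) (Fin.tail ψ) (fun p => hψ _)
      (fun p => hm _) fun j => ψ 0 (a j) (w j)
    simp only [e, ← exp_mul]
    rw [int_eq (fun j => ψ 0 (a j)) (fun j => hψ 0 _) fun a' => exp (dc ι (List.ofFn fun p =>
      (Fin.tail m p, fun a a' => volume.real {t | Fin.tail ψ p a t = a'})) Z a' * m 0),
      rpow_def_of_pos (wpos (fun b => prod_nonneg fun j _ => measureReal_nonneg) ?_
        fun b => exp_pos _), one_div, mul_comm]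
    · simp only [mul_comm (m 0)]; rfl
    · simpa using (int_eq (fun j => ψ 0 (a j)) (fun j => hψ 0 _) fun _ => 1).symm

lemma run_meas [MeasurableSpace A] [MeasurableSingletonClass A] (r : ℕ) :
    ∀ ψ : Fin r → A → unitInterval → A, (∀ p a a', MeasurableSet {t | ψ p a t = a'}) →
    Measurable fun q : A × (Fin r → unitInterval) => run r ψ q.1 q.2 := by
  induction r with
  | zero => exact fun _ _ => measurable_fst
  | succ r ih =>
    intro ψ hψ
    refine measurable_from_prod_countable_right fun a => ?_
    exact (ih (Fin.tail ψ) fun p => hψ _).comp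
      (f := fun ω : Fin (r + 1) → unitInterval => (ψ 0 a (ω 0), Fin.tail ω))
      (((measurable_to_countable' (hψ 0 a)).comp (measurable_pi_apply 0)).prodMk
        (measurable_pi_iff.2 fun k => measurable_pi_apply _))

end Ident

open Ident in
theorem idStmt : IdStmt := by
  intro A _ r m ψ0 ψ xA h0 hψ hm hx
  refine ⟨?_, fun ι _ _ W hW => ?_⟩
  · letI : MeasurableSpace A := ⊤
    exact (measurable_from_top (f := xA)).comp ((run_meas r ψ hψ).comp
      (f := fun ω : Fin (r + 1) → unitInterval => (ψ0 (ω 0), Fin.tail ω))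
      (((measurable_to_countable' h0).comp (measurable_pi_apply 0)).prodMk
        (measurable_pi_iff.2 fun k => measurable_pi_apply _)))
  · have e := fun w : ι → unitInterval => casc_eq (fun a => log (ext W fun j => xA (a j))) r m ψ
      hψ hm fun j => ψ0 (w j)
    simp only [fun a : ι → A => exp_log (ext_pos hW (x := fun j => xA (a j)) fun j => hx _)] at e
    simp only [TC, Tmsg, DT, EP, Fin.cons_zero, Fin.tail_cons, e, log_exp]
    exact int_eq (fun _ => ψ0) (fun _ => h0) _

end

end Vale.Agent.P168
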