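import Vale.Agent.P168.Stm

/-! P168: module Key (the cavity inequality for the perturbed system). -/

namespace Vale.Agent.P168

open Finset Real

noncomputable section

namespace Key

/-- arithmetic progression -/
def ar (Δ : ℝ) : ℝ → ℕ → List ℝ
  | _, 0 => []
  | a, k + 1 => a :: ar Δ (a + Δ) k

lemma ar_len (Δ : ℝ) : ∀ (k : ℕ) (a : ℝ), (ar Δ a k).length = k
  | 0, _ => rfl
  | k + 1, a => by simp [ar, ar_len Δ k]

lemma ar_nxt {Δ a : ℝ} {k : ℕ} (h : a + k * Δ = 1) : nxt (ar Δ a k) = a := by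
  cases k with
  | zero => simp [ar, nxt] at h ⊢; exact h.symm
  | succ k => rfl

lemma ar_chain {Δ : ℝ} (hΔ : 0 ≤ Δ) : ∀ (k : ℕ) (a : ℝ), a + k * Δ = 1 → Chain Δ (ar Δ a k)
  | 0, _, _ => trivial
  | k + 1, a, h => by
    have h' : a + Δ + k * Δ = 1 := by rw [← h]; push_cast; ring
    refine ⟨?_, ?_, ar_chain hΔ k _ h'⟩ <;> rw [ar_nxt h'] <;> linarith

lemma ar_mem {Δ : ℝ} (hΔ : 0 < Δ) : ∀ (k : ℕ) (a : ℝ), ∀ m ∈ ar Δ a k, a ≤ m ∧ m < a + k * Δ
  | 0, _, m, hm => by simp [ar] at hm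
  | k + 1, a, m, hm => by
    have hk : 0 ≤ (k : ℝ) * Δ := by positivity
    rcases List.mem_cons.1 hm with rfl | hm
    · exact ⟨le_rfl, by push_cast; linarith⟩
    · have := ar_mem hΔ k _ m hm
      exact ⟨by linarith [this.1], by push_cast; linarith [this.2]⟩

lemma ar_pw {Δ : ℝ} (hΔ : 0 < Δ) : ∀ (k : ℕ) (a : ℝ), (ar Δ a k).Pairwise (· < ·)
  | 0, _ => List.Pairwise.nil
  | k + 1, a => List.Pairwise.cons (fun m hm => by linarith [(ar_mem hΔ k _ m hm).1]) (ar_pw hΔ k _)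

/-- accumulated labeling along a history -/
def acc {X V : Type} (c : List X → V → ℕ) : List X → V → ℕ
  | [] => c []
  | g :: hist => fun i => Nat.pair (c (g :: hist) i) (acc c hist i)

lemma acc_meas {X V : Type} (c : List X → V → ℕ) (hist : List X) : Meas (acc c hist) (c hist) := by
  cases hist with
  | nil => exact fun _ _ h => h
  | cons g hist => exact fun _ _ h => (Nat.pair_eq_pair.1 h).1

lemma acc_nest {X V : Type} (c : List X → V → ℕ) (g : X) (hist : List X) :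
    Meas (acc c (g :: hist)) (acc c hist) := fun _ _ h => (Nat.pair_eq_pair.1 h).2

lemma acc_few {X V : Type} (c : List X → V → ℕ) {Q : ℕ} (h : ∀ hist, Few Q (c hist)) :
    ∀ hist : List X, Few (Q ^ (hist.length + 1)) (acc c hist)
  | [] => by simpa [acc] using h []
  | g :: hist => by
    obtain ⟨s, h1, h2⟩ := h (g :: hist)
    obtain ⟨s', h3, h4⟩ := acc_few c h hist
    refine ⟨(s ×ˢ s').image fun x => Nat.pair x.1 x.2, card_image_le.trans ?_, fun i =>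
      mem_image.2 ⟨(_, _), mem_product.2 ⟨h2 i, h4 i⟩, rfl⟩⟩
    rw [card_product, List.length_cons, pow_succ' Q (hist.length + 1)]
    exact Nat.mul_le_mul h1 h3

lemma few_mono {Ξ Λ : Type} {L L' : ℕ} {F : Ξ → Λ} (h : Few L F) (hL : L ≤ L') : Few L' F :=
  h.imp fun _ hs => ⟨hs.1.trans hL, hs.2⟩

lemma few_code {V : Type} {k L : ℕ} (a : Fin k → V → ℕ) (h : ∀ l i, a l i < L) :
    Few (L ^ k) (fun i => Encodable.encode fun l => a l i) := by
  refine ⟨(Fintype.piFinset fun _ : Fin k => range L).image Encodable.encode,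
    card_image_le.trans (by simp), fun i => mem_image.2 ⟨_, ?_, rfl⟩⟩
  simpa using fun l => h l i

lemma few_tl {T V : Type} [Fintype T] {K L : ℕ} {l : V → ℕ} (h : Few L l) :
    Few (Fintype.card T * L ^ K) (tl l : T × (Fin K → V) → T × (Fin K → ℕ)) := by
  obtain ⟨s, h1, h2⟩ := h
  refine ⟨univ ×ˢ Fintype.piFinset fun _ : Fin K => s, ?_, fun ξ => ?_⟩
  · simp only [card_product, card_univ, Fintype.card_piFinset, prod_const, Fintype.card_fin]
    gcongr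
  · simp [tl, h2]

lemma meas_tl {T J V : Type} {l l' : V → ℕ} (h : Meas l l') :
    Meas (tl l : T × (J → V) → T × (J → ℕ)) (tl l') := fun ξ ξ' e => by
  simp only [tl, Prod.mk.injEq] at e ⊢
  exact ⟨e.1, funext fun j => h _ _ (congrFun e.2 j)⟩

lemma ex_tp {T : Type} [Fintype T] (pT : T → ℝ) (J V : Type) [Fintype J] [DecidableEq J]
    [Fintype V] (f : T × (J → V) → ℝ) :
    Ex (tp pT J V) f = Ex pT (fun t => av fun v : J → V => f (t, v)) := by
  simp only [Ex, tp, av, Fintype.sum_prod_type, Fintype.card_fun, Nat.cast_pow]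
  refine sum_congr rfl fun t _ => ?_
  rw [div_eq_mul_inv, sum_mul, mul_sum]
  exact sum_congr rfl fun v _ => by rw [inv_pow]; ring

lemma abs_ex {A : Type} [Fintype A] {p f : A → ℝ} {b : ℝ} (hp : PrP p) (h : ∀ a, |f a| ≤ b) :
    |Ex p f| ≤ b := by
  refine (abs_sum_le_sum_abs _ _).trans ?_
  calc ∑ a, |p a * f a| ≤ ∑ a, p a * b := sum_le_sum fun a _ => by
        rw [abs_mul, abs_of_pos (hp.1 a)]; exact mul_le_mul_of_nonneg_left (h a) (hp.1 a).le
    _ = b := by rw [← sum_mul, hp.2, one_mul]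

lemma prp_pr {A : Type} [Fintype A] {p : A → ℝ} (h : PrP p) : Pr p := ⟨fun a => (h.1 a).le, h.2⟩

lemma dt_bd (hB : BApi) {A : Type} [Fintype A] (ι : Type) [Fintype ι] [DecidableEq ι] {M : Msg A}
    {W : (ι → Bool) → ℝ} {b : ℝ} (hM : M.Ok) (h : ∀ s, 0 < W s ∧ |log (W s)| ≤ b) :
    |DT ι M W| ≤ b := by
  have h0 := hB.const ι M 1 hM one_pos
  have h1 := hB.mono ι M W (fun _ => 1) b hM (fun s => (h s).1) fun s => by
    rw [mul_one, ← log_le_iff_le_exp (h s).1]; exact (abs_le.1 (h s).2).2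
  have h2 := hB.mono ι M (fun _ => 1) W b hM (fun _ => one_pos) fun s => by
    rw [← exp_log (h s).1, ← exp_add]; exact one_le_exp (by linarith [(abs_le.1 (h s).2).1])
  rw [h0, log_one] at h1 h2
  exact abs_le.2 ⟨by linarith, by linarith⟩

variable {K : ℕ} {Θ Η : Type} [Fintype Θ] [Fintype Η]

/-- types of a cavity spin with `l` clauses -/
abbrev TT (K : ℕ) (Θ Η : Type) (l : ℕ) : Type := (Fin l → Θ) × Η × (Fin l → Fin K)

def pT (D : FM K Θ Η) (l : ℕ) (t : TT K Θ Η l) : ℝ :=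
  (∏ i, D.p (t.1 i)) * (D.q t.2.1 * (Fintype.card (Fin l → Fin K) : ℝ)⁻¹)

def WT (D : FM K Θ Η) (l : ℕ) (t : TT K Θ Η l) : (Fin l × Fin K → Bool) → ℝ :=
  Uw (D.η t.2.1) (fun k => D.θ (t.1 k)) t.2.2

lemma ex_pT (D : FM K Θ Η) (l : ℕ) (f : TT K Θ Η l → ℝ) :
    Ex (pT D l) f = EP D.p (Fin l) fun t => Ex D.q fun e => av fun c => f (t, e, c) := by
  simp only [Ex, EP, pT, av, Fintype.sum_prod_type, mul_sum, div_eq_mul_inv, sum_mul]
  exact sum_congr rfl fun t _ => sum_congr rfl fun e _ => sum_congr rfl fun c _ => by ring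

lemma pT_pr (hOp : OpApi) {D : FM K Θ Η} (hD : D.Ok) (hK : 1 ≤ K) (l : ℕ) : PrP (pT D l) := by
  have : Nonempty (Fin K) := ⟨⟨0, hK⟩⟩
  have hc : (0 : ℝ) < Fintype.card (Fin l → Fin K) := by exact_mod_cast Fintype.card_pos
  refine ⟨fun t => mul_pos (prod_pos fun i _ => hD.1.1 _) (mul_pos (hD.2.1 _) (inv_pos.2 hc)), ?_⟩
  have h := ex_pT D l fun _ => 1
  simp only [Ex, mul_one, av, sum_const, card_univ, nsmul_eq_mul, div_self hc.ne', hD.2.2] at h
  rw [h, hOp.const _ _ _ (prp_pr hD.1)]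

omit [Fintype Θ] [Fintype Η] in
lemma WT_bd (hB : BApi) (D : FM K Θ Η) {B : ℝ} (h1 : ∀ t, ‖D.θ t‖ ≤ B) (h2 : ∀ e, |D.η e| ≤ B)
    (l : ℕ) (t : TT K Θ Η l) (s : Fin l × Fin K → Bool) :
    0 < WT D l t s ∧ |log (WT D l t s)| ≤ log 2 + B + l * B := by
  have h := hB.uw_bd K (Fin l) (D.η t.2.1) (D.η t.2.1) (fun k => D.θ (t.1 k))
    (fun k => D.θ (t.1 k)) t.2.2 s
  refine ⟨h.1, h.2.2.trans ?_⟩
  have := sum_le_card_nsmul univ (fun k : Fin l => ‖D.θ (t.1 k)‖) B fun k _ => h1 _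
  simp only [card_univ, Fintype.card_fin, nsmul_eq_mul] at this
  linarith [h2 t.2.1]

lemma uF_eq (D : FM K Θ Η) {A : Type} [Fintype A] (M : Msg A) (l : ℕ) :
    uF D (fun _ W => DT _ M W) l = Ex (pT D l) fun t => DT (Fin l × Fin K) M (WT D l t) := by
  rw [ex_pT]; rfl

lemma ups_eq (D : FM K Θ Η) (N n : ℕ) (q : ℝ) (ms : List ℝ) (l : ℕ) (H : (Fin N → Bool) → ℝ) :
    ups D N n q ms l H = Ex (tp (pT D l) (Fin l × Fin K) (Fin N)) fun ξ =>
      YY (sw (tp D.p (Fin K) (Fin N)) q n) (sh (sy D N) n) ms H (ty (WT D l) ξ) := by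
  rw [ex_tp, ex_pT]; rfl

omit [Fintype Θ] [Fintype Η] in
lemma sy_eq (D : FM K Θ Η) (N : ℕ) : ty (fun t s => exp (D.θ t s)) = sy D N := by
  funext ξ σ; simp [ty, sy]

lemma vF_eq (hPo : PoApi) (hOp : OpApi) (hB : BApi) {D : FM K Θ Η} (hD : D.Ok) {A : Type}
    [Fintype A] {M : Msg A} (hM : M.Ok) (c : ℝ) :
    ∑' n : ℕ, poi c n * vF D (fun _ W => DT _ M W) n =
      c * Ex D.p fun t => DT (Fin K) M fun s => exp (D.θ t s) := by
  have h : ∀ n, vF D (fun _ W => DT _ M W) n =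
      n * Ex D.p fun t => DT (Fin K) M fun s => exp (D.θ t s) := fun n => by
    have := hOp.sum1 (Fin n) D.p (fun t => DT (Fin K) M fun s => exp (D.θ t s)) (prp_pr hD.1)
    rw [Fintype.card_fin] at this
    rw [← this, vF]
    congr 1
    funext t
    exact hB.vadd K (Fin n) M (fun k => D.θ (t k)) hM
  simp only [h, ← mul_assoc]
  rw [tsum_mul_right, hPo.mean]

lemma poi_le (hPo : PoApi) {c : ℝ} (hc : 0 ≤ c) (n0 : ℕ) : ∑ l ∈ range n0, poi c l ≤ 1 := by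
  have h := hPo.summ c 1 (fun _ => 1) hc fun n => by simp
  simp only [mul_one] at h
  rw [← hPo.one c]
  exact h.sum_le_tsum _ fun n _ => hPo.nn c n hc

end Key

open Key in
theorem keyStmt (hPo : PoApi) (hOp : OpApi) (hB : BApi) (hX : XApi) (hV : VStmt) (hU : UStmt)
    (hA : AppStmt) (hBr : BrStmt) : KeyStmt := by
  intro K Θ Η _ _ lam D ε hK hlam hD hε
  obtain ⟨B, hB0, hB1, hB2⟩ : ∃ B : ℝ, 0 ≤ B ∧ (∀ t, ‖D.θ t‖ ≤ B) ∧ ∀ e, |D.η e| ≤ B := by
    have h1 : 0 ≤ ∑ t, ‖D.θ t‖ := sum_nonneg fun _ _ => norm_nonneg _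
    have h2 : 0 ≤ ∑ e, |D.η e| := sum_nonneg fun _ _ => abs_nonneg _
    exact ⟨∑ t, ‖D.θ t‖ + ∑ e, |D.η e|, by positivity, fun t => le_add_of_le_of_nonneg
      (single_le_sum (f := fun t => ‖D.θ t‖) (fun _ _ => norm_nonneg _) (mem_univ t)) h2,
      fun e => le_add_of_nonneg_of_le h1
        (single_le_sum (f := fun e => |D.η e|) (fun _ _ => abs_nonneg _) (mem_univ e))⟩
  have hK' : (1 : ℝ) ≤ K := by exact_mod_cast hK
  have hc : 0 ≤ K * lam := by positivity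
  have hl2 : 0 ≤ log 2 := log_nonneg one_le_two
  have hCl : ∀ l : ℕ, log 2 + B + l * B ≤ (log 2 + B) * (1 + l) := fun l => by
    have : 0 ≤ log 2 * l := by positivity
    linarith
  obtain ⟨n0, hn0⟩ := hPo.tail (K * lam) (log 2 + B) (ε / 4) hc (by positivity)
  have hBU : ∀ l : Fin n0, ∀ t s, 0 < WT D l t s ∧ |log (WT D l t s)| ≤ log 2 + B + n0 * B :=
    fun l t s => ⟨(WT_bd hB D hB1 hB2 l t s).1, (WT_bd hB D hB1 hB2 l t s).2.trans (by
      gcongr; exact l.2.le)⟩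
  obtain ⟨μV, hμV, hV⟩ := hV B (ε / 4 / (K * lam)) hB0 (by positivity)
  obtain ⟨μU, hμU, hU⟩ := hU (log 2 + B + n0 * B) (ε / 4) (by positivity) (by positivity)
  obtain ⟨μ0, h0, h1, h2, h3⟩ : ∃ μ0 : ℝ, 0 < μ0 ∧ μ0 ≤ μV ∧ μ0 ≤ μU ∧ μ0 < 1 :=
    ⟨min (min μV μU) (1 / 2), by positivity, (min_le_left _ _).trans (min_le_left _ _),
      (min_le_left _ _).trans (min_le_right _ _), (min_le_right _ _).trans_lt (by norm_num)⟩
  obtain ⟨Δ0, hΔ0, hV⟩ := hV μ0 h0 h1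
  obtain ⟨εA, hεA, hU⟩ := hU μ0 h0 h2
  obtain ⟨r, Δ, hΔ, hΔ', hr⟩ : ∃ (r : ℕ) (Δ : ℝ), 0 < Δ ∧ Δ ≤ Δ0 ∧ μ0 + r * Δ = 1 := by
    obtain ⟨r, hr⟩ := exists_nat_gt (1 / Δ0)
    have hr0 : (0 : ℝ) < r := lt_trans (by positivity) hr
    refine ⟨r, (1 - μ0) / r, div_pos (by linarith) hr0, ?_, by field_simp; ring⟩
    rw [div_lt_iff₀ hΔ0] at hr
    rw [div_le_iff₀ hr0]; linarith
  obtain ⟨L, hA⟩ := hA (log 2 + B + n0 * B) εA r (by positivity) hεA
  obtain ⟨q, n, hq, hq', -, hV⟩ := hV Δ r (Fintype.card Θ * ((L ^ n0 + 1) ^ (r + 1)) ^ K) hΔ.le hΔ'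
    (by linarith)
  have hch := ar_chain hΔ.le r μ0 hr
  have hnx := ar_nxt hr
  have hlen := ar_len Δ r μ0
  have hmem := ar_mem hΔ r μ0
  have hpw := ar_pw hΔ r μ0
  generalize ar Δ μ0 r = ms at hch hnx hlen hmem hpw
  have hpos : ∀ m ∈ ms, 0 < m := fun m hm => h0.trans_le (hmem m hm).1
  refine ⟨ms, n, q, μ0, hq, hq', h0, fun m hm => (hmem m hm).1, fun φ hφ N hN H => ?_⟩
  have : Nonempty (Fin N) := ⟨⟨0, hN⟩⟩
  have hp := hX.tp_pr D.p (Fin K) (Fin N) hD.1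
  have hw := hX.sw_pr (tp D.p (Fin K) (Fin N)) q n (prp_pr hp) hq.le (by linarith)
  choose a ha g hg1 hg2 using fun (hist : List (ℝ × (Fin n → Option (Θ × (Fin K → Fin N)))))
    (l : Fin n0) => hA _ _ (Fin N) _ (pT D l) (WT D l) (sw (tp D.p (Fin K) (Fin N)) q n)
      (sh (sy D N) n) Δ (ms.drop hist.length) (Hof (sh (sy D N) n) H hist) (pT_pr hOp hD hK l)
      (hBU l) hw ((hX.chain Δ ms hch).2.2 _).1
      ((hnx ▸ h0).trans_le ((hX.chain Δ ms hch).2.2 _).2) (by simp [hlen])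
  obtain ⟨sl, hs1, hs2, hs3⟩ :
      ∃ sl : List (ℝ × (Fin n → Option (Θ × (Fin K → Fin N)))) → Fin N → ℕ,
        (∀ g hist, Meas (sl (g :: hist)) (sl hist)) ∧ (∀ hist l, Meas (sl hist) (a hist l)) ∧
        ∀ hist, hist.length ≤ r → Few ((L ^ n0 + 1) ^ (r + 1)) (sl hist) := by
    refine ⟨acc fun hist i => Encodable.encode fun l => a hist l i, acc_nest _,
      fun hist l i i' e => congrFun (Encodable.encode_injective (acc_meas _ hist i i' e)) l,
      fun hist hh => few_mono (acc_few _ (Q := L ^ n0 + 1) (fun hist =>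
        few_mono (few_code _ (ha hist)) (Nat.le_succ _)) hist) ?_⟩
    exact Nat.pow_le_pow_right (Nat.succ_pos _) (by omega)
  have k1 := hV _ _ _ (tp D.p (Fin K) (Fin N)) (sy D N) (fun g => tl (sl g)) ms H hp
    (fun ξ σ => (norm_le_pi_norm (D.θ ξ.1) _).trans (hB1 _)) hch hnx hlen.le
    (fun g hist => meas_tl (hs1 g hist)) (fun hist hh => few_tl (hs3 hist hh))
  have k2 : ∀ l ∈ range n0, PE (sw (tp D.p (Fin K) (Fin N)) q n) (sh (sy D N) n) ms [] H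
      (frz (tp (pT D l) (Fin l × Fin K) (Fin N)) (ty (WT D l)) fun g => tl (sl g)) ≤
      ups D N n q ms l H + ε / 4 := fun l hl => by
    rw [ups_eq]
    exact hU _ _ _ _ _ _ _ _ _ Δ ms H hw (hX.tp_pr _ _ _ (pT_pr hOp hD hK l))
      (fun ξ σ => (hBU ⟨l, mem_range.1 hl⟩ _ _).2) hΔ.le hch hnx (by rw [hlen]; linarith)
      (fun g hist => meas_tl (hs1 g hist)) fun hist =>
        ⟨g hist ⟨l, mem_range.1 hl⟩, fun ξ ξ' e => hg1 hist _ _ _ (meas_tl (hs2 hist _) ξ ξ' e),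
          hg2 hist ⟨l, mem_range.1 hl⟩⟩
  have k3 := hX.pe_mono (sw (tp D.p (Fin K) (Fin N)) q n) (sh (sy D N) n) ms [] H
    (fun _ _ => φ - ε / 4) (fun g σ => 1 * (∑ l ∈ range n0, poi (K * lam) l *
      frz (tp (pT D l) (Fin l × Fin K) (Fin N)) (ty (WT D l)) (fun g => tl (sl g)) g σ) +
      (-((K - 1) * lam)) * frz (tp D.p (Fin K) (Fin N)) (sy D N) (fun g => tl (sl g)) g σ)
    hw hpos fun hist σ hh => by
      rw [List.map_nil, List.reverse_nil, List.nil_append] at hh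
      have hM := hBr.2 (Fin N) _ sl hist σ (hh ▸ hpw) fun g hg => by
        have : g.1 ∈ ms := hh ▸ List.mem_reverse.2 (List.mem_map_of_mem hg)
        exact ⟨hpos _ this, hr ▸ (hmem _ this).2⟩
      have e1 := hφ _ _ hM
      have e2 := hn0 (uF D fun _ W => DT _ (msgOf sl hist σ) W) fun l => by
        rw [uF_eq]
        exact abs_ex (pT_pr hOp hD hK l) fun t =>
          (dt_bd hB _ hM (WT_bd hB D hB1 hB2 l t)).trans (hCl l)
      rw [trialF, vF_eq hPo hOp hB hD hM,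
        ← hBr.1 _ _ _ _ D.p _ sl hist σ hD.1 (fun _ _ => exp_pos _), sy_eq] at e1
      rw [sum_congr rfl fun l _ => by
        rw [uF_eq, ← hBr.1 _ _ _ _ _ _ sl hist σ (pT_pr hOp hD hK l)
          fun t s => (WT_bd hB D hB1 hB2 l t s).1]] at e2
      linarith [(abs_le.1 e2).2]
  rw [hX.pe_const _ _ _ _ _ _ hw hpos, hX.pe_lin, hX.pe_sum] at k3
  have k4 := sum_le_sum fun l hl => mul_le_mul_of_nonneg_left (k2 l hl) (hPo.nn _ l hc)
  simp only [mul_add, sum_add_distrib, ← sum_mul] at k4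
  have k5 := mul_le_mul_of_nonneg_right (poi_le hPo hc n0) (by positivity : 0 ≤ ε / 4)
  have k6 := hn0 (fun l => ups D N n q ms l H) fun l => by
    rw [ups_eq]
    exact abs_ex (hX.tp_pr _ _ _ (pT_pr hOp hD hK l)) fun ξ =>
      hX.yy_bd _ _ _ _ _ _ hw hpos fun σ => (WT_bd hB D hB1 hB2 l _ _).2.trans (hCl l)
  have k7 := mul_le_mul_of_nonneg_left k1 (by nlinarith : 0 ≤ ((K : ℝ) - 1) * lam)
  have k8 : ((K : ℝ) - 1) * lam * (ε / 4 / (K * lam)) ≤ ε / 4 := by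
    rw [mul_div_assoc', div_le_iff₀ (by positivity)]; nlinarith [mul_pos hlam hε]
  change ((K : ℝ) - 1) * lam * (phi1 D N n q ms H - _) ≤ _ at k7
  rw [mul_sub] at k7
  linarith [(abs_le.1 k6).1]

end

end Vale.Agent.P168
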