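import Vale.Agent.P168.Stm

/-! Module Low of P168: the cavity step and the Cesaro argument. -/

namespace Vale.Agent.P168

open Finset Real Filter Topology

noncomputable section

namespace Low

section
variable {A B : Type} [Fintype A] [Fintype B] {p : A → ℝ}

lemma prp (h : PrP p) : Pr p := ⟨fun a => (h.1 a).le, h.2⟩

lemma ex_mono (hp : Pr p) {f g : A → ℝ} (h : ∀ a, f a ≤ g a) : Ex p f ≤ Ex p g :=
  sum_le_sum fun a _ => mul_le_mul_of_nonneg_left (h a) (hp.1 a)

lemma ex_lin (hp : Pr p) (f g : A → ℝ) (c d : ℝ) :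
    Ex p (fun a => c + f a + d * g a) = c + Ex p f + d * Ex p g := by
  simp only [Ex, mul_add, sum_add_distrib, ← sum_mul, hp.2, one_mul, mul_left_comm _ d, ← mul_sum]

lemma ex_add (hp : Pr p) (f : A → ℝ) (c : ℝ) : Ex p (fun a => f a + c) = Ex p f + c := by
  simp only [Ex, mul_add, sum_add_distrib, ← sum_mul, hp.2, one_mul]

lemma ex_abs (hp : Pr p) {f : A → ℝ} {c : ℝ} (h : ∀ a, |f a| ≤ c) : |Ex p f| ≤ c := by
  refine (abs_sum_le_sum_abs _ _).trans ((sum_le_sum (g := fun a => p a * c) fun a _ => ?_).trans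
    (by rw [← sum_mul, hp.2, one_mul]))
  rw [abs_mul, abs_of_nonneg (hp.1 a)]
  exact mul_le_mul_of_nonneg_left (h a) (hp.1 a)

lemma ex_comm (p : A → ℝ) (p' : B → ℝ) (f : A → B → ℝ) :
    Ex p (fun a => Ex p' (f a)) = Ex p' fun b => Ex p fun a => f a b := by
  simp only [Ex, mul_sum]
  rw [sum_comm]
  simp only [mul_left_comm]

lemma ex_sum {ι : Type} (s : Finset ι) (c : ι → ℝ) (f : ι → A → ℝ) :
    Ex p (fun a => ∑ i ∈ s, c i * f i a) = ∑ i ∈ s, c i * Ex p (f i) := by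
  simp only [Ex, mul_sum]
  rw [sum_comm]
  simp only [mul_left_comm]

lemma ex_has (c : ℕ → ℝ) {f : ℕ → A → ℝ} {s : A → ℝ} (h : ∀ a, HasSum (fun l => c l * f l a) (s a)) :
    HasSum (fun l => c l * Ex p (f l)) (Ex p s) := by
  simpa only [Ex, mul_sum, mul_left_comm] using hasSum_sum (s := univ) fun a _ => (h a).mul_left (p a)

lemma unif_pr [Nonempty A] : Pr fun _ : A => (Fintype.card A : ℝ)⁻¹ :=
  ⟨fun _ => by positivity, by simp⟩

lemma prod_pr {p' : B → ℝ} (h : Pr p) (h' : Pr p') : Pr fun x : A × B => p x.1 * p' x.2 :=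
  ⟨fun x => mul_nonneg (h.1 _) (h'.1 _), by
    simp only [Fintype.sum_prod_type, ← mul_sum, h'.2, mul_one, h.2]⟩

lemma av_eq (f : A → ℝ) : av f = Ex (fun _ => (Fintype.card A : ℝ)⁻¹) f := by
  rw [av, Ex, ← mul_sum, div_eq_inv_mul]

lemma inj_le {J : A → B} (hJ : Function.Injective J) {F : B → ℝ} (hF : ∀ b, 0 ≤ F b) :
    ∑ a, F (J a) ≤ ∑ b, F b := by
  simpa using sum_le_univ_sum_of_nonneg (s := univ.map ⟨J, hJ⟩) hF

end

variable {K : ℕ} {Θ Η : Type} [Fintype Θ] [Fintype Η]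

/-- old and cavity clauses as clauses of the larger system -/
def emb (N : ℕ) : (Θ × (Fin K → Fin N)) ⊕ (Θ × Fin K × (Fin K → Fin N)) → Θ × (Fin K → Fin (N + 1))
  | .inl x => (x.1, fun j => (x.2 j).castSucc)
  | .inr x => (x.1, Function.update (fun j => (x.2.2 j).castSucc) x.2.1 (Fin.last N))

def pc (p : Θ → ℝ) (K N : ℕ) (x : Θ × Fin K × (Fin K → Fin N)) : ℝ :=
  p x.1 * ((Fintype.card (Fin K) : ℝ)⁻¹ * (Fintype.card (Fin K → Fin N) : ℝ)⁻¹)

def pm (p : Θ → ℝ) (K N : ℕ) : (Θ × (Fin K → Fin N)) ⊕ (Θ × Fin K × (Fin K → Fin N)) → ℝ :=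
  Sum.elim (fun a => (1 - K / (N + 1)) * tp p (Fin K) (Fin N) a)
    fun b => (1 - (1 - K / (N + 1))) * pc p K N b

lemma cnt (N : ℕ) (F : (Fin K → Fin (N + 1)) → ℝ) (hF : ∀ i, 0 ≤ F i) :
    N * ∑ i : Fin K → Fin N, F (fun j => (i j).castSucc) + ∑ x : Fin K × (Fin K → Fin N),
      F (Function.update (fun j => (x.2 j).castSucc) x.1 (Fin.last N)) ≤ N * ∑ i, F i := by
  have := inj_le (A := ((Fin K → Fin N) × Fin N) ⊕ (Fin K × (Fin K → Fin N)))
    (B := (Fin K → Fin (N + 1)) × Fin N) (J := Sum.elim (fun x => (fun j => (x.1 j).castSucc, x.2))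
      fun x => (Function.update (fun j => (x.2 j).castSucc) x.1 (Fin.last N), x.2 x.1))
    (F := fun y => F y.1) ?_ fun _ => hF _
  · simpa [Fintype.sum_sum_type, Fintype.sum_prod_type, mul_sum] using this
  rintro (⟨i, v⟩ | ⟨l, i⟩) (⟨i', v'⟩ | ⟨l', i'⟩) h <;> simp only [Sum.elim_inl, Sum.elim_inr,
    Prod.mk.injEq] at h
  · rw [h.2, show i = i' from funext fun j => Fin.castSucc_injective _ (congrFun h.1 j)]
  · simpa using congrFun h.1 l'
  · simpa [eq_comm] using congrFun h.1 l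
  · obtain rfl : l = l' := by
      by_contra k
      simpa [k, eq_comm (a := Fin.last N)] using congrFun h.1 l
    refine congrArg (fun i => Sum.inr (l, i)) (funext fun j => ?_)
    by_cases k : j = l
    · rw [k, h.2]
    · simpa [k] using congrFun h.1 j

lemma bern (K N : ℕ) : 1 - (K : ℝ) / (N + 1) ≤ ((N : ℝ) / (N + 1)) ^ K := by
  have := one_add_mul_le_pow (a := -(1 / (N + 1 : ℝ))) (by
    have : 1 / (N + 1 : ℝ) ≤ 1 := by rw [div_le_one (by positivity)]; simp
    linarith) K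
  rwa [show 1 + -(1 / (N + 1 : ℝ)) = N / (N + 1) by field_simp; ring, mul_neg, mul_one_div] at this

lemma pm_pr (hX : XApi) {p : Θ → ℝ} (hp : PrP p) {N : ℕ} (h1 : 1 ≤ K) (hK : K ≤ N) :
    Pr (pc p K N) ∧ Pr (pm p K N) := by
  have : Nonempty (Fin N) := ⟨⟨0, by omega⟩⟩
  have : Nonempty (Fin K) := ⟨⟨0, h1⟩⟩
  have a := prp (hX.tp_pr p (Fin K) (Fin N) hp)
  have b : Pr (pc p K N) := prod_pr (prp hp) (prod_pr unif_pr unif_pr)
  have c : (K : ℝ) / (N + 1) ≤ 1 := by
    rw [div_le_one (by positivity)]; exact_mod_cast Nat.le_succ_of_le hK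
  refine ⟨b, ?_, by simp [pm, Fintype.sum_sum_type, ← mul_sum, a.2, b.2]⟩
  rintro (x | x)
  · exact mul_nonneg (by linarith) (a.1 x)
  · exact mul_nonneg (by rw [sub_sub_cancel]; positivity) (b.1 x)

lemma one (hX : XApi) {p : Θ → ℝ} (hp : PrP p) {N : ℕ} (h1 : 1 ≤ K) (hK : K ≤ N)
    (F : Θ × (Fin K → Fin (N + 1)) → ℝ) (m B : ℝ) (hF : ∀ ξ, |F ξ - m| ≤ B) :
    Ex (pm p K N) (fun a => F (emb N a)) ≤
      Ex (tp p (Fin K) (Fin (N + 1))) F + 2 * B * (K / (N + 1)) ^ 2 := by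
  obtain ⟨G, rfl⟩ : ∃ G : Θ × (Fin K → Fin (N + 1)) → ℝ, F = fun ξ => G ξ + (m - B) :=
    ⟨fun ξ => F ξ - (m - B), by simp⟩
  have h0 : ∀ ξ, 0 ≤ G ξ := fun ξ => by linarith [(abs_le.1 (hF ξ)).1]
  have h2 : ∀ ξ, G ξ ≤ 2 * B := fun ξ => by linarith [(abs_le.1 (hF ξ)).2]
  rw [ex_add (pm_pr hX hp h1 hK).2, ex_add (prp (hX.tp_pr p _ _ hp)), add_right_comm,
    add_le_add_iff_right, show 2 * B * (K / (N + 1)) ^ 2 = ∑ t, p t * (2 * B * (K / (N + 1)) ^ 2) by
      rw [← sum_mul, hp.2, one_mul]]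
  simp only [Ex, pm, emb, Fintype.sum_sum_type, Sum.elim_inl, Sum.elim_inr, tp, pc]
  rw [Fintype.sum_prod_type, Fintype.sum_prod_type, Fintype.sum_prod_type, ← sum_add_distrib,
    ← sum_add_distrib]
  refine sum_le_sum fun t _ => ?_
  have c := cnt N (fun i => G (t, i)) fun _ => h0 _
  have b := bern K N
  have N0 : (0 : ℝ) < N := by exact_mod_cast h1.trans hK
  have K0 : (0 : ℝ) < K := by exact_mod_cast h1
  have d := sum_le_card_nsmul (univ : Finset (Fin K × (Fin K → Fin N))) _ _ fun x _ =>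
    h2 (t, Function.update (fun j => (x.2 j).castSucc) x.1 (Fin.last N))
  have o := sum_nonneg (s := (univ : Finset (Fin K → Fin N))) fun i _ =>
    h0 (t, fun j => (i j).castSucc)
  have o' := sum_nonneg (s := (univ : Finset (Fin K × (Fin K → Fin N)))) fun x _ =>
    h0 (t, Function.update (fun j => (x.2 j).castSucc) x.1 (Fin.last N))
  simp only [← mul_sum, card_univ, Fintype.card_prod, Fintype.card_fun, Fintype.card_fin,
    nsmul_eq_mul, sub_sub_cancel] at d ⊢
  push_cast at d ⊢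
  generalize ∑ i : Fin K → Fin N, G _ = O at *
  generalize ∑ i : Fin K × (Fin K → Fin N), G _ = C at *
  generalize ∑ i : Fin K → Fin (N + 1), G _ = T at *
  have e : ((N + 1 : ℝ))⁻¹ ^ K = (N / (N + 1)) ^ K * ((N : ℝ) ^ K)⁻¹ := by
    rw [div_pow, inv_pow]; field_simp
  rw [e, inv_pow]
  generalize ((N : ℝ) / (N + 1)) ^ K = α at *
  have u0 : (0 : ℝ) < (N : ℝ) ^ K := by positivity
  generalize (N : ℝ) ^ K = u at *
  have c0 : (K : ℝ) / (N + 1) ≤ 1 := by
    rw [div_le_one (by positivity)]; exact_mod_cast Nat.le_succ_of_le hK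
  have k : (1 - K / (N + 1)) * O + C / (N + 1) ≤ α * T + K / (N + 1) * (C / (N + 1)) := by
    have t1 : O + C / (N + 1) ≤ T := by
      have : C / (N + 1) ≤ C / N := by gcongr; linarith
      have : C / N ≤ T - O := by rw [div_le_iff₀ N0]; linarith
      linarith
    have : 0 ≤ C / (N + 1) := by positivity
    nlinarith [mul_le_mul_of_nonneg_left t1 (sub_nonneg.2 c0),
      mul_le_mul_of_nonneg_right b (by linarith : 0 ≤ T)]
  calc _ = p t / u * ((1 - K / (N + 1)) * O + C / (N + 1)) := by field_simp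
    _ ≤ p t / u * (α * T + K / (N + 1) * (K * u * (2 * B) / (N + 1))) := by
        exact mul_le_mul_of_nonneg_left (k.trans (by gcongr)) (div_pos (hp.1 t) u0).le
    _ = _ := by field_simp

abbrev Cf (N : ℕ) : Type := (Fin N → Bool) → ℝ

def he (D : FM K Θ Η) (N : ℕ) (e : Fin N → Η) : Cf N := fun σ => ∑ v, D.η (e v) * spin (σ v)

/-- expectation over fields and `k` clauses -/
def EE (D : FM K Θ Η) (N k : ℕ) (F : Cf N → ℝ) : ℝ :=
  EP D.q (Fin N) fun e => EP (tp D.p (Fin K) (Fin N)) (Fin k) fun a =>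
    F (he D N e + ∑ i, sy D N (a i))

/-- summing out the last spin -/
def mg {N : ℕ} (H : Cf (N + 1)) : Cf N := fun σ => log (∑ ε : Bool, exp (H (Fin.snoc σ ε)))

structure Hy (D : FM K Θ Η) (q : ℝ) (ms : List ℝ) (B μ0 : ℝ) : Prop where
  po : PoApi
  op : OpApi
  ba : BApi
  x : XApi
  ok : D.Ok
  k1 : 1 ≤ K
  b0 : 0 ≤ B
  th : ∀ t, ‖D.θ t‖ ≤ B
  et : ∀ e, |D.η e| ≤ B
  q0 : 0 < q
  q1 : q ≤ 1 / 2
  m0 : 0 < μ0
  ms : ∀ m ∈ ms, μ0 ≤ m

variable {D : FM K Θ Η} {q : ℝ} {ms : List ℝ} {B μ0 : ℝ} (h : Hy D q ms B μ0) (n : ℕ) {N : ℕ}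
include h

lemma tpr (hN : 1 ≤ N) : Pr (tp D.p (Fin K) (Fin N)) :=
  have : Nonempty (Fin N) := ⟨⟨0, hN⟩⟩
  prp (h.x.tp_pr _ _ _ h.ok.1)

lemma swr (hN : 1 ≤ N) : Pr (sw (tp D.p (Fin K) (Fin N)) q n) :=
  h.x.sw_pr _ _ _ (tpr h hN) h.q0.le (by linarith [h.q1])

lemma mp : ∀ m ∈ ms, 0 < m := fun m hm => h.m0.trans_le (h.ms m hm)

lemma sy_bd (ξ : Θ × (Fin K → Fin N)) (σ : Fin N → Bool) : |sy D N ξ σ| ≤ B :=
  (norm_le_pi_norm (D.θ ξ.1) _).trans (h.th _)

lemma xlip (hN : 1 ≤ N) (H : Cf N) {y : Cf N} {b : ℝ} (hy : ∀ σ, |y σ| ≤ b) :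
    |XN D N n q ms (H + y) - XN D N n q ms H| ≤ b :=
  h.x.yy_bd _ _ ms H y b (swr h n hN) (mp h) hy

lemma marg (H : Cf (N + 1)) : XN D N n q ms (mg H) = XX (sw (tp D.p (Fin K) (Fin N)) q n)
    (fun γ => sh (sy D (N + 1)) n fun k => (γ k).map fun x => emb N (.inl x)) ms H := by
  refine (h.x.marg _ (sh (sy D N) n) ((Equiv.prodComm _ _).trans (Fin.snocEquiv fun _ => Bool))
    ms H).symm.trans ?_
  congr 1
  funext γ σ
  exact sum_congr rfl fun k _ => by dsimp only; cases γ k <;> rfl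

lemma dom (hN : 1 ≤ N) (H : Cf (N + 1)) : XN D N n q ms (mg H) +
    ms.length * (log ((((N : ℝ) / (N + 1)) ^ K) ^ n) / μ0) ≤ XN D (N + 1) n q ms H := by
  have N0 : (0 : ℝ) < N := by exact_mod_cast hN
  have a1 : ((N : ℝ) / (N + 1)) ^ K ≤ 1 :=
    pow_le_one₀ (by positivity) (by rw [div_le_one (by positivity)]; linarith)
  rw [marg h]
  refine h.x.dom _ _ _ _ _ _ ms H (swr h n hN) (swr h n (by omega)) (by positivity)
    (pow_le_one₀ (by positivity) a1) h.m0 h.ms fun F hF => le_trans ?_ (inj_le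
      (J := fun (γ : Fin n → Option (Θ × (Fin K → Fin N))) k => (γ k).map fun x => emb N (.inl x))
      (fun γ γ' e => funext fun k => Option.map_injective (fun x y e => ?_) (congrFun e k))
      fun γ => mul_nonneg ((swr h n (N := N + 1) (by omega)).1 γ) (hF γ))
  · rw [mul_sum]
    refine sum_le_sum fun γ _ => ?_
    rw [← mul_assoc]
    refine mul_le_mul_of_nonneg_right ?_ (hF _)
    have := h.q1
    rw [← Fin.prod_const, sw, sw, ← prod_mul_distrib]
    refine prod_le_prod (fun k _ => mul_nonneg (by positivity) ?_) fun k _ => ?_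
    · cases γ k
      · simp; linarith
      · exact mul_nonneg h.q0.le ((tpr h hN).1 _)
    · cases γ k
      · exact mul_le_of_le_one_left (by simp; linarith) a1
      · refine le_of_eq ?_
        simp only [Option.elim_some, Option.map_some, tp, emb, Fintype.card_fin, div_pow, inv_pow]
        push_cast
        field_simp
  · simp only [emb, Prod.mk.injEq] at e
    exact Prod.ext e.1 (funext fun j => Fin.castSucc_injective _ (congrFun e.2 j))

lemma mlip (hN : 1 ≤ N) (H : Cf (N + 1)) {y : Cf (N + 1)} {b : ℝ} (hy : ∀ σ, |y σ| ≤ b) :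
    |XN D N n q ms (mg (H + y)) - XN D N n q ms (mg H)| ≤ b := by
  rw [marg h, marg h]
  exact h.x.yy_bd _ _ ms _ _ b (swr h n hN) (mp h) hy

lemma lind (hK : K ≤ N) (H : Cf (N + 1)) (j : ℕ) :
    EP (pm D.p K N) (Fin j) (fun c => XN D N n q ms (mg (H + ∑ k, sy D (N + 1) (emb N (c k))))) ≤
      EP (tp D.p (Fin K) (Fin (N + 1))) (Fin j)
        (fun c => XN D N n q ms (mg (H + ∑ k, sy D (N + 1) (c k)))) +
        j * (2 * B * (K / (N + 1)) ^ 2) := by
  refine h.op.lind _ _ (fun a => sy D (N + 1) (emb N a)) (sy D (N + 1)) _ j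
    (fun c => XN D N n q ms (mg (H + ∑ k, c k))) (pm_pr h.x h.ok.1 h.k1 hK).2 (tpr h (by omega))
    fun k c => ?_
  simp only [sum_update_of_mem (mem_univ k), add_comm (sy D _ _), ← add_assoc]
  generalize H + ∑ x ∈ univ \ {k}, c x = H1
  refine one h.x h.ok.1 h.k1 hK (fun ξ => XN D N n q ms (mg (H1 + sy D (N + 1) ξ)))
    (XN D N n q ms (mg H1)) B fun ξ => mlip h n (h.k1.trans hK) _ (sy_bd h ξ)

omit h [Fintype Θ] [Fintype Η] in
lemma mg_eq (e : Fin N → Η) (η : Η) {k l : ℕ} (a : Fin k → Θ × (Fin K → Fin N))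
    (b : Fin l → Θ × Fin K × (Fin K → Fin N)) :
    mg (he D (N + 1) (Fin.snoc e η) + (∑ i, sy D (N + 1) (emb N (.inl (a i))) +
      ∑ i, sy D (N + 1) (emb N (.inr (b i))))) = he D N e + ∑ i, sy D N (a i) + fun σ =>
      log (Uw (D.η η) (fun i => D.θ (b i).1) (fun i => (b i).2.1)
        fun kj => σ ((b kj.1).2.2 kj.2)) := by
  funext σ
  have : ∀ (ε : Bool) (x : Θ × Fin K × (Fin K → Fin N)), sy D (N + 1) (emb N (.inr x))
      (Fin.snoc σ ε) = D.θ x.1 (Function.update (fun j => σ (x.2.2 j)) x.2.1 ε) := fun ε x => by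
    refine congrArg (D.θ x.1) (funext fun j => ?_)
    by_cases k : j = x.2.1 <;> simp [emb, k]
  simp only [mg, Pi.add_apply, Finset.sum_apply, this]
  simp only [he, sy, emb, Fin.sum_univ_castSucc, Fin.snoc_castSucc, Fin.snoc_last, Uw]
  have : ∀ (c : ℝ) (f : Bool → ℝ), c + log (∑ ε, exp (f ε)) = log (∑ ε, exp (c + f ε)) :=
    fun c f => by simp only [exp_add, ← mul_sum]; rw [log_mul (exp_pos _).ne' (by positivity), log_exp]
  rw [this]
  congr 1
  exact sum_congr rfl fun ε _ => congrArg _ (by ring)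

lemma cav (hN : 1 ≤ N) (k l : ℕ) : (EP D.q (Fin (N + 1)) fun e =>
    EP (tp D.p (Fin K) (Fin N)) (Fin k) fun a => EP (pc D.p K N) (Fin l) fun b =>
      XN D N n q ms (mg (he D (N + 1) e + (∑ i, sy D (N + 1) (emb N (.inl (a i))) +
        ∑ i, sy D (N + 1) (emb N (.inr (b i))))))) =
    EE D N k fun H => ups D N n q ms l H + XN D N n q ms H := by
  have : Nonempty (Fin N) := ⟨⟨0, hN⟩⟩
  have : Nonempty (Fin K) := ⟨⟨0, h.k1⟩⟩
  rw [h.op.succ]
  refine congrArg _ (funext fun e => (ex_comm _ _ _).trans (congrArg _ (funext fun a => ?_)))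
  simp only [mg_eq]
  generalize he D N e + ∑ i, sy D N (a i) = H
  simp only [ups, sub_eq_add_neg, av_eq, ex_add unif_pr, ex_add (prp h.ok.2)]
  refine Eq.trans ?_ ((congrArg (· + _) (ex_add (h.op.pr _ _ (prp h.ok.1)) _ _)).trans
    (neg_add_cancel_right _ _)).symm
  refine Eq.trans ?_ (ex_comm _ _ _)
  refine congrArg _ (funext fun η => (h.op.prod (Fin l) D.p (fun x : Fin K × (Fin K → Fin N) =>
    (Fintype.card (Fin K) : ℝ)⁻¹ * (Fintype.card (Fin K → Fin N) : ℝ)⁻¹) _).trans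
    (congrArg (EP D.p (Fin l)) (funext fun t => ?_)))
  rw [h.op.prod (Fin l) (fun _ => (Fintype.card (Fin K) : ℝ)⁻¹)
    fun _ => (Fintype.card (Fin K → Fin N) : ℝ)⁻¹, ← h.op.unif, ← av_eq]
  refine congrArg _ (funext fun c => ?_)
  rw [← h.op.unif, ← av_eq, av, av, Fintype.card_congr (Equiv.curry (Fin l) (Fin K) (Fin N)),
    ← (Equiv.curry (Fin l) (Fin K) (Fin N)).sum_comp]
  rfl

lemma ee_mono (hN : 1 ≤ N) (k : ℕ) {F G : Cf N → ℝ} (e : ∀ H, F H ≤ G H) :
    EE D N k F ≤ EE D N k G :=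
  ex_mono (h.op.pr _ _ (prp h.ok.2)) fun _ => ex_mono (h.op.pr _ _ (tpr h hN)) fun _ => e _

lemma ee_abs (hN : 1 ≤ N) (k : ℕ) {F : Cf N → ℝ} {c : ℝ} (e : ∀ H, |F H| ≤ c) :
    |EE D N k F| ≤ c :=
  ex_abs (h.op.pr _ _ (prp h.ok.2)) fun _ => ex_abs (h.op.pr _ _ (tpr h hN)) fun _ => e _

lemma ee_lin (hN : 1 ≤ N) (k : ℕ) (F G : Cf N → ℝ) (c d : ℝ) :
    EE D N k (fun H => c + F H + d * G H) = c + EE D N k F + d * EE D N k G :=
  (congrArg (EP D.q (Fin N)) (funext fun _ => ex_lin (h.op.pr _ _ (tpr h hN)) _ _ c d)).trans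
    (ex_lin (h.op.pr _ _ (prp h.ok.2)) _ _ c d)

lemma ee_succ (hN : 1 ≤ N) (k : ℕ) : EE D N k (phi1 D N n q ms) =
    EE D N (k + 1) (XN D N n q ms) - EE D N k (XN D N n q ms) := by
  have := ee_lin h hN k (XN D N n q ms) (phi1 D N n q ms) 0 1
  rw [zero_add, one_mul] at this
  rw [eq_sub_iff_add_eq', ← this]
  refine congrArg (EP D.q (Fin N)) (funext fun e => ?_)
  rw [h.op.succ]
  refine congrArg _ (funext fun a => ?_)
  simp only [Fin.sum_univ_castSucc, Fin.snoc_castSucc, Fin.snoc_last, phi1, sub_eq_add_neg,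
    ex_add (tpr h hN), add_assoc]
  ring

lemma phi_bd (hN : 1 ≤ N) (H : Cf N) : |phi1 D N n q ms H| ≤ B :=
  ex_abs (tpr h hN) fun ξ => xlip h n hN H (sy_bd h ξ)

lemma ups_bd (hN : 1 ≤ N) (l : ℕ) (H : Cf N) : |ups D N n q ms l H| ≤ log 2 + B + B * l := by
  have : Nonempty (Fin N) := ⟨⟨0, hN⟩⟩
  have : Nonempty (Fin K) := ⟨⟨0, h.k1⟩⟩
  simp only [ups, av_eq]
  refine ex_abs (h.op.pr _ _ (prp h.ok.1)) fun t => ex_abs (prp h.ok.2) fun e =>
    ex_abs unif_pr fun c => ex_abs unif_pr fun v => xlip h n hN H fun σ =>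
      (h.ba.uw_bd K _ _ 0 _ 0 _ _).2.2.trans (add_le_add (add_le_add le_rfl (h.et e)) ?_)
  simpa [mul_comm] using sum_le_card_nsmul univ _ _ fun (k : Fin l) _ => h.th (t k)

/-- linear growth -/
def Lin (f : ℕ → ℝ) : Prop := ∃ a b : ℝ, ∀ j, |f j| ≤ a + b * j

omit h in
lemma Lin.add {f g : ℕ → ℝ} (hf : Lin f) (hg : Lin g) : Lin fun j => f j + g j := by
  obtain ⟨a, b, h⟩ := hf
  obtain ⟨a', b', h'⟩ := hg
  exact ⟨a + a', b + b', fun j => by linarith [abs_add_le (f j) (g j), h j, h' j]⟩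

omit h in
lemma lin_aff (a b : ℝ) : Lin fun j => a + b * j :=
  ⟨|a|, |b|, fun j => (abs_add_le _ _).trans (by simp [abs_mul])⟩

lemma Lin.summ {f : ℕ → ℝ} (hf : Lin f) {c : ℝ} (hc : 0 ≤ c) : Summable fun j => poi c j * f j := by
  obtain ⟨a, b, e⟩ := hf
  refine h.po.summ c (|a| + |b|) f hc fun j => (e j).trans ?_
  have : (0 : ℝ) ≤ j := by positivity
  nlinarith [le_abs_self a, le_abs_self b, abs_nonneg a, abs_nonneg b]

lemma has_aff {c : ℝ} (hc : 0 ≤ c) (a b : ℝ) :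
    HasSum (fun j => poi c j * (a + b * j)) (a + b * c) := by
  have h1 := ((lin_aff 1 0).summ h hc).hasSum
  have h2 := ((lin_aff 0 1).summ h hc).hasSum
  simp only [zero_mul, add_zero, mul_one, zero_add, one_mul, h.po.one, h.po.mean] at h1 h2
  simpa only [mul_add, mul_one, mul_comm (poi c _) a, mul_left_comm (poi c _) b] using
    (h1.mul_left a).add (h2.mul_left b)

lemma tle {f g : ℕ → ℝ} (hf : Lin f) (hg : Lin g) {c : ℝ} (hc : 0 ≤ c) (a b : ℝ)
    (e : ∀ j, f j + (a + b * j) ≤ g j) :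
    ∑' j, poi c j * f j + (a + b * c) ≤ ∑' j, poi c j * g j :=
  hasSum_le (fun j => by rw [← mul_add]; exact mul_le_mul_of_nonneg_left (e j) (h.po.nn c j hc))
    ((hf.summ h hc).hasSum.add (has_aff h hc a b)) (hg.summ h hc).hasSum

lemma g_step (hN : 1 ≤ N) (j : ℕ) :
    |EE D N (j + 1) (XN D N n q ms) - EE D N j (XN D N n q ms)| ≤ B :=
  ee_succ h n hN j ▸ ee_abs h hN j (phi_bd h n hN)

lemma g_lin (hN : 1 ≤ N) : Lin fun j => EE D N j (XN D N n q ms) :=
  ⟨|EE D N 0 (XN D N n q ms)|, B, fun j => by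
    induction j with
    | zero => simp
    | succ j ih =>
      push_cast
      linarith [g_step h n hN j, abs_sub_abs_le_abs_sub (EE D N (j + 1) (XN D N n q ms))
        (EE D N j (XN D N n q ms))]⟩

lemma step (hK : K ≤ N) {lam φ : ℝ} (l0 : 0 < lam) (key : ∀ H : Cf N,
    φ ≤ ∑' l : ℕ, poi (K * lam) l * ups D N n q ms l H - (K - 1) * lam * phi1 D N n q ms H) :
    ∑' j, poi (lam * N) j * EE D N j (XN D N n q ms) + φ -
      (B * ((K - 1) * lam) ^ 2 / √(lam * (N + 1 - K)) + 2 * B * K ^ 2 * lam / (N + 1) -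
        ms.length * (log ((((N : ℝ) / (N + 1)) ^ K) ^ n) / μ0)) ≤
      ∑' j, poi (lam * (N + 1 : ℕ)) j * EE D (N + 1) j (XN D (N + 1) n q ms) := by
  have hN := h.k1.trans hK
  have K1 : (1 : ℝ) ≤ K := by exact_mod_cast h.k1
  have KN : (K : ℝ) ≤ N := by exact_mod_cast hK
  have c0 : 0 < lam * (N + 1 - K) := mul_pos l0 (by linarith)
  have b0 := h.b0
  have pq := h.op.pr (Fin (N + 1)) _ (prp h.ok.2)
  obtain ⟨g, hg⟩ : ∃ g, g = fun j => EE D N j (XN D N n q ms) := ⟨_, rfl⟩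
  obtain ⟨γ, hγ⟩ : ∃ γ : ℕ → ℕ → ℝ,
    γ = fun k l => EE D N k fun H => ups D N n q ms l H + XN D N n q ms H := ⟨_, rfl⟩
  obtain ⟨S, hS⟩ : ∃ S : ℕ → ℝ, S = fun j => EP D.q (Fin (N + 1)) fun e => EP (pm D.p K N) (Fin j)
    fun c => XN D N n q ms (mg (he D (N + 1) e + ∑ k, sy D (N + 1) (emb N (c k)))) := ⟨_, rfl⟩
  have lg : Lin g := hg ▸ g_lin h n hN
  have lS : Lin S := by
    obtain ⟨C, hC⟩ := Finite.exists_le fun e => |XN D N n q ms (mg (he D (N + 1) e))|
    refine ⟨C, B, fun j => hS ▸ ex_abs pq fun e =>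
      ex_abs (h.op.pr _ _ (pm_pr h.x h.ok.1 h.k1 hK).2) fun c => ?_⟩
    have := mlip h n hN (he D (N + 1) e) (y := ∑ k, sy D (N + 1) (emb N (c k))) (b := B * j)
      fun σ => by
        rw [Finset.sum_apply]
        simpa [mul_comm] using (abs_sum_le_sum_abs _ _).trans
          (sum_le_card_nsmul univ _ _ fun (k : Fin j) _ => sy_bd h (emb N (c k)) σ)
    linarith [hC e, abs_sub_abs_le_abs_sub (XN D N n q ms (mg (he D (N + 1) e +
      ∑ k, sy D (N + 1) (emb N (c k))))) (XN D N n q ms (mg (he D (N + 1) e)))]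
  have bγ : ∀ k l : ℕ, |γ k l| ≤ |g k| + log 2 + B + B * l := fun k l => by
    have := ee_lin h hN k (XN D N n q ms) (ups D N n q ms l) 0 1
    simp only [zero_add, one_mul, add_comm (XN D N n q ms _)] at this
    simp only [hγ, hg, this]
    linarith [ee_abs h hN k (ups_bd h n hN l), abs_add_le (EE D N k (XN D N n q ms))
      (EE D N k (ups D N n q ms l))]
  have s1 := tle h lS (g_lin h n (N := N + 1) (by omega)) (c := lam * (N + 1 : ℕ)) (by positivity)
    (ms.length * (log ((((N : ℝ) / (N + 1)) ^ K) ^ n) / μ0)) (-(2 * B * (K / (N + 1)) ^ 2))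
    fun j => by
      rw [hS]
      refine (ex_add pq _ _).symm.trans_le (ex_mono pq fun e => ?_)
      have a1 := lind h n hK (he D (N + 1) e) j
      have a2 := ex_mono (h.op.pr (Fin j) _ (tpr h (N := N + 1) (by omega))) fun a =>
        dom h n hN (he D (N + 1) e + ∑ k, sy D (N + 1) (a k))
      rw [ex_add (h.op.pr _ _ (tpr h (by omega)))] at a2
      exact le_trans (by change _ ≤ EP _ _ _ + _; linarith) a2
  have s2 : ∑' j, poi (lam * (N + 1 : ℕ)) j * S j =
      ∑' k, poi (lam * (N + 1 - K)) k * ∑' l, poi (K * lam) l * γ k l := by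
    obtain ⟨a, b, e⟩ := lg
    have := h.po.thin (lam * (N + 1 : ℕ)) (1 - K / (N + 1)) (|a| + log 2 + B + |b|) γ
      (by positivity) (by rw [sub_nonneg, div_le_one (by positivity)]; linarith)
      (sub_le_self _ (by positivity)) fun k l => by
        have : (0 : ℝ) ≤ k := by positivity
        have : (0 : ℝ) ≤ l := by positivity
        have := log_nonneg one_le_two
        nlinarith [bγ k l, e k, le_abs_self a, le_abs_self b, abs_nonneg a, abs_nonneg b]
    rw [show lam * (N + 1 : ℕ) * (1 - K / (N + 1)) = lam * (N + 1 - K) by push_cast; field_simp,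
      show lam * (N + 1 : ℕ) * (1 - (1 - K / (N + 1))) = K * lam by push_cast; field_simp; ring]
      at this
    rw [← this]
    refine tsum_congr fun j => congrArg _ ?_
    simp only [hS, hγ, ← cav h n hN]
    refine Eq.trans (congrArg _ (funext fun e => ?_)) (ex_sum _ _ _)
    refine Eq.trans (congrArg _ (funext fun c => ?_)) (h.op.binom _ _
      (fun a => sy D (N + 1) (emb N (.inl a))) (fun a => sy D (N + 1) (emb N (.inr a))) _ j
      fun y => XN D N n q ms (mg (he D (N + 1) e + y)))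
    congr 4
    funext k
    cases c k <;> rfl
  have s3 := tle h (f := fun k => g k + (K - 1) * lam * (g (k + 1) - g k))
    (g := fun k => ∑' l, poi (K * lam) l * γ k l) (lg.add ⟨(K - 1) * lam * B, 0, fun k => by
      rw [abs_mul, abs_of_nonneg (by nlinarith), zero_mul, add_zero, hg]
      exact mul_le_mul_of_nonneg_left (g_step h n hN k) (by nlinarith)⟩) (by
      obtain ⟨a, b, e⟩ := lg
      exact ⟨a + log 2 + B + B * (K * lam), b, fun k => by
        linarith [h.po.bd (K * lam) _ _ _ (by positivity) (bγ k), e k]⟩) c0.le φ 0 fun k => by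
      have : HasSum (fun l => poi (K * lam) l * γ k l) (EE D N k fun H =>
          ∑' l : ℕ, poi (K * lam) l * ups D N n q ms l H + XN D N n q ms H) := by
        rw [hγ]
        refine ex_has _ fun e => ex_has _ fun a => ?_
        simpa [mul_add] using (Lin.summ h ⟨_, _, fun l => ups_bd h n hN l _⟩
          (by positivity : 0 ≤ K * lam)).hasSum.add
          (has_aff h (by positivity : 0 ≤ K * lam) (XN D N n q ms _) 0)
      rw [this.tsum_eq, hg, ← ee_succ h n hN]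
      refine le_trans (le_of_eq ?_) ((ee_lin h hN k (XN D N n q ms) (phi1 D N n q ms) φ
        ((K - 1) * lam)).symm.trans_le (ee_mono h hN k fun H => by linarith [key H]))
      ring
  have s4 := h.po.shift _ ((K - 1) * lam) B g c0 (by nlinarith) (hg ▸ g_step h n hN)
  rw [show lam * (N + 1 - K) + (K - 1) * lam = lam * N by ring] at s4
  rw [show -(2 * B * (K / (N + 1)) ^ 2) * (lam * (N + 1 : ℕ)) = -(2 * B * K ^ 2 * lam / (N + 1)) by
    push_cast; field_simp, s2] at s1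
  simp only [hg] at s4 s3
  linarith

lemma near (hN : 1 ≤ N) {lam : ℝ} (l0 : 0 < lam) :
    ∑' j, poi (lam * N) j * EE D N j (XN D N n q ms) - ms.length * (n * B) ≤
      N * pressF lam D N := by
  have N0 : (0 : ℝ) < N := by exact_mod_cast hN
  have nr : ∀ H, |XN D N n q ms H - log (∑ σ, exp (H σ))| ≤ ms.length * (n * B) := fun H =>
    h.x.near _ _ ms H _ (swr h n hN) (mp h) fun γ σ => by
      have : ∀ k, |(γ k).elim 0 fun ξ => sy D N ξ σ| ≤ B := fun k => by
        cases γ k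
        · simpa using h.b0
        · exact sy_bd h _ σ
      simpa [sh] using (abs_sum_le_sum_abs _ _).trans (sum_le_card_nsmul univ _ _ fun k _ => this k)
  have e : ∀ j, |EE D N j (XN D N n q ms) - EE D N j fun H => log (∑ σ, exp (H σ))| ≤
      ms.length * (n * B) := fun j => by
    have := ee_lin h hN j (XN D N n q ms) (fun H => log (∑ σ, exp (H σ))) 0 (-1)
    simp only [zero_add, neg_one_mul, ← sub_eq_add_neg] at this
    exact this ▸ ee_abs h hN j nr
  have := tle h (g_lin h n hN) (g := fun j => EE D N j fun H => log (∑ σ, exp (H σ))) (by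
    obtain ⟨a, b, e'⟩ := g_lin h n hN
    exact ⟨a + ms.length * (n * B), b, fun j => by
      have a1 := abs_le.1 (e j)
      have a2 := abs_le.1 (e' j)
      exact abs_le.2 ⟨by linarith, by linarith⟩⟩)
    (by positivity : 0 ≤ lam * N) (-(ms.length * (n * B))) 0 fun j => by
      linarith [(abs_le.1 (e j)).2]
  rw [pressF, ← mul_assoc (N : ℝ), mul_one_div_cancel N0.ne', one_mul]
  refine le_trans (by linarith) (this.trans_eq (tsum_congr fun j => congrArg _ ?_))
  refine Eq.trans (congrArg (EP D.q (Fin N)) (funext fun e => ?_)) (ex_comm _ _ _)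
  refine (h.op.prod (Fin j) D.p (fun _ => (Fintype.card (Fin N) : ℝ)⁻¹ ^ Fintype.card (Fin K))
    _).trans (congrArg _ (funext fun t => ?_))
  rw [h.op.unif]
  simp only [logZ, Pi.add_apply, Finset.sum_apply, he, sy, add_comm, Fintype.card_fun, Nat.cast_pow,
    inv_pow]

end Low

open Low in
theorem lowStmt (hPo : PoApi) (hOp : OpApi) (hB : BApi) (hX : XApi) (hK : KeyStmt) : LowStmt := by
  intro K Θ Η _ _ lam D φ ε K1 l0 ok e0 hφ
  obtain ⟨ms, n, q, μ0, q0, q1, m0, hm, key⟩ := hK K Θ Η lam D (ε / 3) K1 l0 ok (by positivity)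
  obtain ⟨B1, h1⟩ := Finite.exists_le fun t => ‖D.θ t‖
  obtain ⟨B2, h2⟩ := Finite.exists_le fun e => |D.η e|
  obtain ⟨B, hB⟩ : ∃ B, Hy D q ms B μ0 := ⟨max 0 (max B1 B2), hPo, hOp, hB, hX, ok, K1, by simp,
    fun t => by simp [h1 t], fun e => by simp [h2 e], q0, q1, m0, hm⟩
  have t1 : Tendsto (fun N : ℕ => (N : ℝ) + 1) atTop atTop :=
    tendsto_atTop_add_const_right _ _ tendsto_natCast_atTop_atTop
  have t2 : Tendsto (fun N : ℕ => B * ((K - 1) * lam) ^ 2 / √(lam * (N + 1 - K)) +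
      2 * B * K ^ 2 * lam / (N + 1) - ms.length * (log ((((N : ℝ) / (N + 1)) ^ K) ^ n) / μ0))
      atTop (𝓝 0) := by
    simpa [← sub_eq_add_neg] using ((tendsto_const_nhds (x := B * ((K - 1) * lam) ^ 2).div_atTop
      (tendsto_sqrt_atTop.comp ((tendsto_atTop_add_const_right _ (-(K : ℝ)) t1).const_mul_atTop
        l0))).add (tendsto_const_nhds (x := 2 * B * K ^ 2 * lam).div_atTop t1)).sub
      ((((((tendsto_natCast_div_add_atTop (1 : ℝ)).pow K).pow n).log (by simp)).div_const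
        μ0).const_mul (ms.length : ℝ))
  obtain ⟨M, hM⟩ := eventually_atTop.1 ((t2.eventually_le_const (by positivity : 0 < ε / 3)).and
    (eventually_ge_atTop K))
  obtain ⟨G, hG⟩ : ∃ G : ℕ → ℝ,
    G = fun N : ℕ => ∑' j, poi (lam * N) j * EE D N j (XN D N n q ms) := ⟨_, rfl⟩
  have ind : ∀ N, M ≤ N → G M + (N - M) * (φ - 2 * (ε / 3)) ≤ G N := fun N hN => by
    induction N, hN using Nat.le_induction with
    | base => simp
    | succ N hN ih =>
      have := step hB n (hM N hN).2 l0 (key φ hφ N (K1.trans (hM N hN).2))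
      simp only [hG] at ih ⊢
      push_cast at this ⊢
      linarith [(hM N hN).1]
  have t3 := (tendsto_const_nhds (x := -(G M - M * (φ - 2 * (ε / 3)) - ms.length * (n * B)))).div_atTop
    (tendsto_natCast_atTop_atTop (R := ℝ))
  filter_upwards [t3.eventually_le_const (by positivity : 0 < ε / 3), eventually_ge_atTop M,
    eventually_ge_atTop 1] with N a b c
  have N0 : (0 : ℝ) < N := by exact_mod_cast c
  have := near hB n c l0
  have i := ind N b
  simp only [hG] at i a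
  rw [div_le_iff₀ N0] at a
  exact le_of_mul_le_mul_left (by linarith) N0

end

end Vale.Agent.P168
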