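import Vale.Agent.P168.Step1

namespace Vale.Agent.P168.Mn

open MeasureTheory Finset Real Filter Topology St

noncomputable section

variable {K : ℕ} {Θ Η : Type} [Fintype Θ] [Fintype Η]

theorem trialF_congr (hB : BApi) (lam : ℝ) (D : FM K Θ Η) (T T' : MF K)
    (h : ∀ n W, (∀ s, 0 < W s) → T n W = T' n W) : trialF lam D T = trialF lam D T' := by
  have hu : ∀ n, uF D T n = uF D T' n := fun n => by
    unfold uF
    simp only [fun (t : Fin n → Θ) (e : Η) (l : Fin n → Fin K) =>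
      h n (Uw (D.η e) (fun k => D.θ (t k)) l) fun s =>
        (hB.uw_bd K (Fin n) (D.η e) 0 (fun k => D.θ (t k)) 0 l s).1]
  have hv : ∀ n, vF D T n = vF D T' n := fun n => by
    unfold vF
    simp only [fun (t : Fin n → Θ) => h n (Vw (fun k => D.θ (t k))) fun s =>
        (hB.vw_bd K (Fin n) (fun k => D.θ (t k)) 0 s).1]
  unfold trialF
  simp only [hu, hv]

theorem dt_bd (hB : BApi) {A ι : Type} [Fintype A] [Fintype ι] [DecidableEq ι] {M : Msg A}
    (hM : M.Ok) {W : (ι → Bool) → ℝ} {c : ℝ} (h0 : ∀ s, 0 < W s) (h : ∀ s, |log (W s)| ≤ c) :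
    |DT ι M W| ≤ c := by
  have h1 := hB.mono ι M W (fun _ => 1) c hM h0 fun s => by
    rw [mul_one]; exact (log_le_iff_le_exp (h0 s)).1 (abs_le.1 (h s)).2
  have h2 := hB.mono ι M (fun _ => 1) W c hM (fun _ => one_pos) fun s => by
    have := (le_log_iff_exp_le (h0 s)).1 (abs_le.1 (h s)).1
    have h3 := mul_le_mul_of_nonneg_left this (exp_pos c).le
    rwa [← exp_add, add_neg_cancel, exp_zero] at h3
  rw [hB.const ι M 1 hM one_pos, log_one] at h1 h2
  rw [abs_le]; constructor <;> linarith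

theorem av_abs {A : Type} [Fintype A] {f : A → ℝ} {c : ℝ} (hc : 0 ≤ c) (h : ∀ a, |f a| ≤ c) :
    |av f| ≤ c := by
  unfold av
  rcases Nat.eq_zero_or_pos (Fintype.card A) with h0 | h0
  · simp [h0, hc]
  · have h1 : (0 : ℝ) < Fintype.card A := by exact_mod_cast h0
    rw [abs_div, abs_of_pos h1, div_le_iff₀ h1]
    refine (Finset.abs_sum_le_sum_abs _ _).trans ?_
    refine (Finset.sum_le_sum fun a _ => h a).trans ?_
    simp [mul_comm]

theorem prp_pr {A : Type} [Fintype A] {p : A → ℝ} (h : PrP p) : Pr p := ⟨fun a => (h.1 a).le, h.2⟩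

theorem trialF_lim (hPo : PoApi) (hOp : OpApi) (hB : BApi) {lam : ℝ} (hK : 1 ≤ K) (hl : 0 < lam)
    {D : FM K Θ Η} (hD : D.Ok) (T : ℕ → MF K) (T0 : MF K)
    (hb : ∀ k n W c, (∀ s, 0 < W s) → (∀ s, |log (W s)| ≤ c) → |T k n W| ≤ c)
    (h : ∀ n W, (∀ s, 0 < W s) → Tendsto (fun k => T k n W) atTop (𝓝 (T0 n W))) :
    Tendsto (fun k => trialF lam D (T k)) atTop (𝓝 (trialF lam D T0)) := by
  obtain ⟨B1, hB1⟩ := (Set.finite_range fun t => ‖D.θ t‖).bddAbove
  obtain ⟨B2, hB2⟩ := (Set.finite_range fun e => |D.η e|).bddAbove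
  set C := log 2 + |B1| + |B2| with hC
  have hl2 : 0 ≤ log 2 := log_nonneg (by norm_num)
  have hC0 : 0 ≤ C := by positivity
  have hs : ∀ n (t : Fin n → Θ), ∑ k, ‖D.θ (t k)‖ ≤ n * |B1| := fun n t => by
    refine (Finset.sum_le_sum fun k _ => (hB1 ⟨t k, rfl⟩).trans (le_abs_self B1)).trans ?_
    simp
  have hK' : (1 : ℝ) ≤ K := by exact_mod_cast hK
  have hu : ∀ k n, |uF D (T k) n| ≤ C * (1 + n) := fun k n =>
    hOp.abs _ _ _ _ (prp_pr hD.1) fun t => ex_abs (prp_pr hD.2) fun e =>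
      av_abs (by positivity) fun l => hb k n _ _
        (fun s => (hB.uw_bd K (Fin n) (D.η e) 0 (fun k => D.θ (t k)) 0 l s).1) fun s => by
          refine (hB.uw_bd K (Fin n) (D.η e) 0 (fun k => D.θ (t k)) 0 l s).2.2.trans ?_
          have a := hs n t
          have b := (hB2 ⟨e, rfl⟩).trans (le_abs_self B2)
          have c : (0 : ℝ) ≤ n := Nat.cast_nonneg n
          nlinarith [abs_nonneg B1, abs_nonneg B2, mul_nonneg c hl2, mul_nonneg c (abs_nonneg B2)]
  have hv : ∀ k n, |vF D (T k) n| ≤ C * (1 + n) := fun k n =>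
    hOp.abs _ _ _ _ (prp_pr hD.1) fun t => hb k n _ _
        (fun s => (hB.vw_bd K (Fin n) (fun k => D.θ (t k)) 0 s).1) fun s => by
          refine (hB.vw_bd K (Fin n) (fun k => D.θ (t k)) 0 s).2.2.trans ?_
          have a := hs n t
          have c : (0 : ℝ) ≤ n := Nat.cast_nonneg n
          nlinarith [abs_nonneg B1, abs_nonneg B2, mul_nonneg c hl2, mul_nonneg c (abs_nonneg B2)]
  have key : ∀ (c : ℝ) (g : ℕ → ℕ → ℝ) (g0 : ℕ → ℝ), 0 ≤ c → (∀ k n, |g k n| ≤ C * (1 + n)) →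
      (∀ n, Tendsto (fun k => g k n) atTop (𝓝 (g0 n))) →
      Tendsto (fun k => ∑' n, poi c n * g k n) atTop (𝓝 (∑' n, poi c n * g0 n)) := by
    intro c g g0 hc hg hlim
    refine tendsto_tsum_of_dominated_convergence (bound := fun n => poi c n * (C * (1 + n)))
      (hPo.summ c C _ hc fun n => by rw [abs_of_nonneg (by positivity)])
      (fun n => (hlim n).const_mul _) (Eventually.of_forall fun k n => ?_)
    rw [Real.norm_eq_abs, abs_mul, abs_of_nonneg (hPo.nn c n hc)]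
    exact mul_le_mul_of_nonneg_left (hg k n) (hPo.nn c n hc)
  refine (key _ _ _ (by positivity) hu fun n => ?_).sub
    (key _ _ _ (mul_nonneg (by linarith) hl.le) hv fun n => ?_)
  · refine tendsto_finset_sum _ fun t _ => Tendsto.const_mul _ ?_
    refine tendsto_finset_sum _ fun e _ => Tendsto.const_mul _ ?_
    refine Tendsto.div_const (tendsto_finset_sum _ fun l _ => ?_) _
    exact h n _ fun s => (hB.uw_bd K (Fin n) (D.η e) 0 (fun k => D.θ (t k)) 0 l s).1
  · refine tendsto_finset_sum _ fun t _ => Tendsto.const_mul _ ?_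
    exact h n _ fun s => (hB.vw_bd K (Fin n) (fun k => D.θ (t k)) 0 s).1

theorem trial_ne (K : ℕ) (lam : ℝ) (μ : Measure (Clause K)) (ν : Measure ℝ) (r : ℕ) :
    (trial K lam μ ν r).Nonempty := by
  refine ⟨_, fun p => ((p : ℕ) + 1 : ℝ) / (r + 1), fun _ => 0, fun p q hpq => ?_, fun p => ?_,
    measurable_const, fun _ => by simp, rfl⟩
  · have : ((p : ℕ) : ℝ) < (q : ℕ) := by exact_mod_cast hpq
    have hr : (0 : ℝ) < r + 1 := by positivity
    exact div_lt_div_of_pos_right (by linarith) hr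
  · have : ((p : ℕ) : ℝ) < r := by exact_mod_cast p.2
    have hr : (0 : ℝ) < r + 1 := by positivity
    exact ⟨by positivity, (div_lt_one hr).2 (by linarith)⟩

theorem inf_le {lam : ℝ} {μ : Measure (Clause K)} {ν : Measure ℝ}
    (hb : BddBelow (⋃ r, trial K lam μ ν r)) {r : ℕ} {t : ℝ} (ht : t ∈ trial K lam μ ν r) :
    (⨅ r, Phi K lam μ ν r) ≤ t := by
  obtain ⟨c, hc⟩ := hb
  have h1 : ∀ r, ∀ t ∈ trial K lam μ ν r, c ≤ t := fun r t ht => hc (Set.mem_iUnion.2 ⟨r, ht⟩)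
  refine (ciInf_le ⟨c, ?_⟩ r).trans (csInf_le ⟨c, h1 r⟩ ht)
  rintro _ ⟨r', rfl⟩
  exact le_csInf (trial_ne K lam μ ν r') (h1 r')

theorem lower (hB : BApi) (hLow : LowStmt) (hExi : ExiStmt) (hCmp : CmpStmt) (lam : ℝ)
    (μ : Measure (Clause K)) (ν : Measure ℝ) [IsProbabilityMeasure μ] [IsProbabilityMeasure ν]
    (hK : 1 ≤ K) (hl : 0 < lam) (hμ : Integrable (fun θ => θ) μ) (hν : Integrable (fun h => h) ν)
    (ε : ℝ) (hε : 0 < ε) :
    ∀ᶠ N in atTop, (⨅ r, Phi K lam μ ν r) - ε ≤ pressure K lam μ ν N := by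
  obtain ⟨hb, hc⟩ := hCmp K lam μ ν hK hl hμ hν
  obtain ⟨n1, n2, D, hD, h1, h2, -⟩ := hc (ε / 3) (by positivity)
  have hL : LowB lam D ((⨅ r, Phi K lam μ ν r) - ε / 3) := by
    intro A _ M hM
    obtain ⟨r, m, x, hm, hm1, hx, hx1, he⟩ := hExi A M hM
    have a := inf_le hb (r := r) ⟨m, x, hm, hm1, hx, hx1, rfl⟩
    have b := (abs_le.1 (h2 r m x (fun p => (hm1 p).1) hx hx1)).2
    rw [trialF_congr hB lam D (fun _ W => TC r m x _ W) (fun _ W => DT _ M W)
      fun n W hW => he _ W hW] at b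
    linarith
  filter_upwards [hLow K _ _ lam D _ (ε / 3) hK hl hD (by positivity) hL, eventually_ge_atTop 1]
    with N hN hN1
  have := (abs_le.1 (h1 N hN1)).1
  linarith

theorem upper (hPo : PoApi) (hOp : OpApi) (hB : BApi) (hUp : UpStmt) (hPos : PosStmt)
    (hApx : ApxStmt) (hCmp : CmpStmt) (lam : ℝ) (μ : Measure (Clause K)) (ν : Measure ℝ)
    [IsProbabilityMeasure μ] [IsProbabilityMeasure ν] (hK : 1 ≤ K) (hl : 0 < lam)
    (hμ : Integrable (fun θ => θ) μ) (hν : Integrable (fun h => h) ν) (he : Even K)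
    (hcl : InClass K μ) (N : ℕ) (hN : 1 ≤ N) :
    pressure K lam μ ν N ≤ ⨅ r, Phi K lam μ ν r := by
  refine le_ciInf fun r => le_csInf (trial_ne K lam μ ν r) ?_
  rintro _ ⟨m, x, hm, hm1, hx, hx1, rfl⟩
  obtain ⟨-, hc⟩ := hCmp K lam μ ν hK hl hμ hν
  refine le_of_forall_pos_le_add fun ε hε => ?_
  have hd : 0 < ε / (2 + K * lam) := by positivity
  obtain ⟨n1, n2, D, hD, h1, h2, h3⟩ := hc _ hd
  set δ := ε / (2 + K * lam) with hδ
  have hS : StepOk K (fun f => Ex D.p (fun t => f (D.θ t))) δ := by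
    intro A ι V _ _ _ _ _ _ M G e hM hG
    have a := hPos K μ he hK hμ hcl A ι V M G e hM hG
    have b := (abs_le.1 (h3 (stepF M G e) (hB.step M G e hK hM hG).1)).1
    simp only at a ⊢
    linarith
  obtain ⟨a, M, hM, hlim⟩ := hApx r m x hm hm1 hx hx1
  have hT := trialF_lim hPo hOp hB hK hl hD (fun k _ W => DT _ (M k) W) (fun _ W => TC r m x _ W)
    (fun k n W c h0 hc => dt_bd hB (hM k) h0 hc) fun n W hW => hlim _ W hW
  have h4 : pressF lam D N - K * lam * δ ≤ trialF lam D (fun _ W => TC r m x _ W) :=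
    ge_of_tendsto' hT fun k => by
      have := hUp K _ _ _ lam δ D (M k) N hK hl hD (hM k) hN hS
      linarith
  have h5 := (abs_le.1 (h1 N hN)).2
  have h6 := (abs_le.1 (h2 r m x (fun p => (hm1 p).1) hx hx1)).1
  have h7 : (2 + K * lam) * δ = ε := by rw [hδ]; field_simp
  linarith

end

end Vale.Agent.P168.Mn
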