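import Vale.Agent.P168.Stm

/-! P168: module Mecke (approximate Mecke identities for the slot perturbation). -/

namespace Vale.Agent.P168

open Finset Real Function

noncomputable section

namespace Mecke

open Classical in
lemma sum_upd {Ξ : Type} [Fintype Ξ] {n : ℕ} (k : Fin n) (ξ : Ξ) (f : (Fin n → Option Ξ) → ℝ) :
    ∑ γ, (if γ k = some ξ then f γ else 0) =
      ∑ γ, if γ k = none then f (update γ k (some ξ)) else 0 := by
  rw [← sum_filter, ← sum_filter]
  refine sum_nbij' (fun γ => update γ k none) (fun γ => update γ k (some ξ)) (by simp) (by simp)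
    ?_ ?_ ?_
  · intro γ h; simp only [mem_filter, mem_univ, true_and] at h; simp [← h]
  · intro γ h; simp only [mem_filter, mem_univ, true_and] at h; simp [← h]
  · intro γ h; simp only [mem_filter, mem_univ, true_and] at h; simp [← h]

lemma sw_upd {Ξ : Type} (p : Ξ → ℝ) (q : ℝ) {n : ℕ} {γ : Fin n → Option Ξ} {k : Fin n}
    (h : γ k = none) (ξ : Ξ) :
    (1 - q) * sw p q n (update γ k (some ξ)) = q * p ξ * sw p q n γ := by
  unfold sw
  rw [← mul_prod_erase univ _ (mem_univ k), ← mul_prod_erase univ _ (mem_univ k),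
    prod_congr rfl fun j hj => by rw [update_of_ne (ne_of_mem_erase hj)]]
  simp only [update_self, h, Option.elim]; ring

lemma sh_upd {S Ξ : Type} (y : Ξ → S → ℝ) {n : ℕ} {γ : Fin n → Option Ξ} {k : Fin n}
    (h : γ k = none) (ξ : Ξ) : sh y n (update γ k (some ξ)) = sh y n γ + y ξ := by
  funext σ
  simp only [sh, Pi.add_apply]
  rw [← add_sum_erase univ _ (mem_univ k), ← add_sum_erase univ _ (mem_univ k),
    sum_congr rfl fun j hj => by rw [update_of_ne (ne_of_mem_erase hj)]]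
  simp only [update_self, h, Option.elim]; ring

open Classical in
lemma smu_upd {Ξ : Type} (q : ℝ) {n : ℕ} {γ : Fin n → Option Ξ} {k : Fin n}
    (h : γ k = none) (ξ : Ξ) : smu q n (update γ k (some ξ)) =
      fun ξ' => smu q n γ ξ' + if ξ' = ξ then (1 - q) / (q * n) else 0 := by
  funext ξ'
  simp only [smu]
  rw [← add_sum_erase univ _ (mem_univ k), ← add_sum_erase univ _ (mem_univ k),
    sum_congr rfl fun j hj => by rw [update_of_ne (ne_of_mem_erase hj)]]
  by_cases e : ξ' = ξ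
  · simp only [update_self, h, e, if_true, reduceCtorEq, if_false]; ring
  · simp [h, e, Ne.symm e]

variable {S Ξ : Type} [Fintype S] [Fintype Ξ]

lemma tau_upd (p : Ξ → ℝ) (y : Ξ → S → ℝ) (q m : ℝ) (ms : List ℝ) (H : S → ℝ) {n : ℕ}
    {γ : Fin n → Option Ξ} {k : Fin n} (h : γ k = none) (ξ : Ξ) :
    (1 - q) * tau (sw p q n) (sh y n) m ms H (update γ k (some ξ)) =
      q * p ξ * tau (sw p q n) (sh y n) m ms H γ *
        exp (m * YY (sw p q n) (sh y n) ms (H + sh y n γ) (y ξ)) := by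
  unfold tau YY
  rw [← mul_assoc, sw_upd p q h, sh_upd y h, ← add_assoc, mul_assoc (q * p ξ), mul_assoc (q * p ξ),
    mul_assoc (sw p q n γ), ← exp_add]
  congr 3; ring

open Classical in
lemma exact (p : Ξ → ℝ) (y : Ξ → S → ℝ) {q : ℝ} (hq : 0 < q) (m : ℝ) (ms : List ℝ) (H : S → ℝ)
    (n : ℕ) (Φ : (Fin n → Option Ξ) → Ξ → ℝ) :
    ∑ γ, tau (sw p q n) (sh y n) m ms H γ * ∑ ξ, smu q n γ ξ * Φ γ ξ =
      ∑ γ, tau (sw p q n) (sh y n) m ms H γ * ((n : ℝ)⁻¹ * ∑ k, if γ k = none then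
        Ex p (fun ξ => exp (m * YY (sw p q n) (sh y n) ms (H + sh y n γ) (y ξ)) *
          Φ (update γ k (some ξ)) ξ) else 0) := by
  calc _ = ∑ γ, ∑ k, ∑ ξ, if γ k = some ξ then
        (1 - q) / (q * n) * tau (sw p q n) (sh y n) m ms H γ * Φ γ ξ else 0 := by
        refine sum_congr rfl fun γ _ => ?_
        rw [sum_comm, mul_sum]
        refine sum_congr rfl fun ξ _ => ?_
        rw [smu, mul_sum, sum_mul, mul_sum]
        refine sum_congr rfl fun k _ => ?_
        split_ifs <;> ring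
    _ = ∑ k, ∑ ξ, ∑ γ : Fin n → Option Ξ, if γ k = none then
        (1 - q) / (q * n) * tau (sw p q n) (sh y n) m ms H (update γ k (some ξ)) *
          Φ (update γ k (some ξ)) ξ else 0 := by
        rw [sum_comm]
        refine sum_congr rfl fun k _ => ?_
        rw [sum_comm]
        exact sum_congr rfl fun ξ _ => sum_upd k ξ _
    _ = _ := by
        simp only [mul_sum]
        rw [eq_comm, sum_comm]
        refine sum_congr rfl fun k _ => ?_
        rw [eq_comm, sum_comm]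
        refine sum_congr rfl fun γ _ => ?_
        split_ifs with h
        · rw [Ex, mul_sum, mul_sum]
          refine sum_congr rfl fun ξ _ => ?_
          rw [div_mul_eq_mul_div, tau_upd p y q m ms H h]
          field_simp
        · simp

omit [Fintype S] in
lemma abs_ex {p f g : Ξ → ℝ} (hp : PrP p) (h : ∀ a, |f a| ≤ g a) : |Ex p f| ≤ Ex p g :=
  (abs_sum_le_sum_abs _ _).trans (sum_le_sum fun a _ => by
    rw [abs_mul, abs_of_pos (hp.1 a)]; exact mul_le_mul_of_nonneg_left (h a) (hp.1 a).le)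

omit [Fintype S] in
lemma ex_const {p : Ξ → ℝ} (hp : PrP p) (c : ℝ) : Ex p (fun _ => c) = c := by
  rw [Ex, ← sum_mul, hp.2, one_mul]

omit [Fintype S] in
lemma ne_of_prp {p : Ξ → ℝ} (hp : PrP p) : Nonempty Ξ := by
  by_contra h
  have := hp.2
  rw [not_nonempty_iff] at h
  simp at this

open Classical in
lemma sharp (hX : XApi) (hS : SApi) [Nonempty S] {Λ : Type} {p : Ξ → ℝ} {y : Ξ → S → ℝ}
    {B q : ℝ} {L n : ℕ} (hp : PrP p) (hy : ∀ ξ σ, |y ξ σ| ≤ B) (hq : 0 < q) (hq' : q ≤ 1 / 2)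
    (hn : 0 < n) {m : ℝ} {ms : List ℝ} (hm : 0 < m) (hm1 : m ≤ 1) (hB : 0 ≤ B)
    (hms : ∀ m' ∈ ms, 0 < m') (H : S → ℝ) {F : Ξ → Λ} (hF : Few L F) :
    AMP p y F (tau (sw p q n) (sh y n) m ms H) (sh y n) (smu q n)
      (fun γ ξ => exp (m * YY (sw p q n) (sh y n) ms (H + sh y n γ) (y ξ)))
      ((1 - q) / (q * n)) (L / (q * n) + 2 * exp B * q) := by
  intro Φ Φ' g h1 h2
  obtain ⟨ξ0⟩ := ne_of_prp hp
  have hg : 0 ≤ g := (abs_nonneg _).trans (h2 (fun _ => none) ξ0)
  have hn' : (0 : ℝ) < n := by exact_mod_cast hn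
  have hw := hX.sw_pr p q n ⟨fun a => (hp.1 a).le, hp.2⟩ hq.le (by linarith)
  have hτ := hX.tau_pr _ (sh y n) m ms H hw hm
  have hκ : 0 < (1 - q) / (q * n) := div_pos (by linarith) (by positivity)
  have hE : ∀ γ ξ, exp (m * YY (sw p q n) (sh y n) ms (H + sh y n γ) (y ξ)) ≤ exp B := fun γ ξ => by
    have := (abs_le.1 (hX.yy_bd _ (sh y n) ms (H + sh y n γ) (y ξ) B hw hms (hy ξ))).2
    exact exp_le_exp.2 (by nlinarith)
  have e1 := exact p y hq m ms H n fun _ _ => 1
  have e2 : ∀ γ : Fin n → Option Ξ, ∑ ξ, smu q n γ ξ * 1 =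
      (1 - q) / (q * n) * ∑ k, if γ k = none then (0 : ℝ) else 1 := fun γ => by
    simp only [smu, mul_one]
    rw [← mul_sum, sum_comm]
    congr 1
    refine sum_congr rfl fun k _ => ?_
    cases γ k <;> simp
  have e3 : (1 - q) / (q * n) * ∑ γ, tau (sw p q n) (sh y n) m ms H γ *
      (∑ k, if γ k = none then (0 : ℝ) else 1) ≤ exp B := by
    simp only [e2] at e1
    rw [mul_sum, sum_congr rfl fun γ _ => mul_left_comm _ _ _, e1]
    calc _ ≤ ∑ γ, tau (sw p q n) (sh y n) m ms H γ * exp B := sum_le_sum fun γ _ => by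
          refine mul_le_mul_of_nonneg_left ?_ (hτ.1 γ)
          rw [inv_mul_le_iff₀ hn']
          refine (sum_le_card_nsmul _ _ (exp B) fun k _ => ?_).trans (by simp)
          split_ifs
          · refine (le_abs_self _).trans ((abs_ex hp fun ξ => ?_).trans (ex_const hp _).le)
            rw [mul_one, abs_of_pos (exp_pos _)]; exact hE γ ξ
          · exact (exp_pos _).le
      _ = exp B := by rw [← sum_mul, hτ.2, one_mul]
  rw [exact p y hq m ms H n Φ, ← sum_sub_distrib]
  refine (abs_sum_le_sum_abs _ _).trans ?_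
  calc _ ≤ ∑ γ, tau (sw p q n) (sh y n) m ms H γ * (g * ((1 - q) / (q * n) * L) +
        g * (n : ℝ)⁻¹ * ∑ k, if γ k = none then (0 : ℝ) else 1) := sum_le_sum fun γ _ => by
        rw [← mul_sub, abs_mul, abs_of_nonneg (hτ.1 γ)]
        refine mul_le_mul_of_nonneg_left ?_ (hτ.1 γ)
        have e4 : Ex p (Φ' γ) = (n : ℝ)⁻¹ * ∑ _k : Fin n, Ex p (Φ' γ) := by
          simp; field_simp
        have e5 : g * ((1 - q) / (q * n) * L) =
            (n : ℝ)⁻¹ * ∑ _k : Fin n, g * ((1 - q) / (q * n) * L) := by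
          simp; field_simp
        rw [e4, ← mul_sub, ← sum_sub_distrib, abs_mul, abs_of_pos (inv_pos.2 hn'), e5,
          mul_comm g (n : ℝ)⁻¹, mul_assoc _ g, mul_sum _ _ g, ← mul_add, ← sum_add_distrib]
        refine mul_le_mul_of_nonneg_left ((abs_sum_le_sum_abs _ _).trans
          (sum_le_sum fun k _ => ?_)) (inv_pos.2 hn').le
        split_ifs with h
        · rw [Ex, Ex, ← sum_sub_distrib, sum_congr rfl fun ξ _ => (mul_sub _ _ _).symm, mul_zero,
            add_zero]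
          refine (abs_ex hp fun ξ => h1 γ _ ξ (sh_upd y h ξ) (smu_upd q h ξ)).trans ?_
          have := mul_le_mul_of_nonneg_left (hS.few p F L hp hF) (mul_nonneg hg hκ.le)
          rw [Ex, mul_sum] at this
          rw [← mul_assoc]
          exact le_trans (le_of_eq (sum_congr rfl fun ξ _ => by ring)) this
        · rw [zero_sub, abs_neg, mul_one]
          exact le_add_of_nonneg_of_le (by positivity)
            ((abs_ex hp (h2 γ)).trans (ex_const hp g).le)
    _ = g * ((1 - q) / (q * n) * L + (n : ℝ)⁻¹ * ∑ γ, tau (sw p q n) (sh y n) m ms H γ *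
        (∑ k, if γ k = none then (0 : ℝ) else 1)) := by
        simp only [mul_add, sum_add_distrib]
        rw [← sum_mul, hτ.2, one_mul, mul_sum, mul_sum]
        congr 1
        exact sum_congr rfl fun γ _ => by ring
    _ ≤ _ := by
        refine mul_le_mul_of_nonneg_left (add_le_add ?_ ?_) hg
        · rw [div_mul_eq_mul_div]
          gcongr
          exact mul_le_of_le_one_left (by positivity) (by linarith)
        · rw [div_mul_eq_mul_div, div_le_iff₀ (by positivity)] at e3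
          rw [inv_mul_le_iff₀ hn']
          have : 0 ≤ ∑ γ, tau (sw p q n) (sh y n) m ms H γ *
              (∑ k, if γ k = none then (0 : ℝ) else 1) := sum_nonneg fun γ _ =>
            mul_nonneg (hτ.1 γ) (sum_nonneg fun k _ => by split_ifs <;> norm_num)
          nlinarith

end Mecke

open Mecke in
theorem meckeStmt (hX : XApi) (hS : SApi) : MeckeStmt := by
  intro S Ξ Λ _ _ _ p y B q L n hp hB hy hq hq' hn
  obtain ⟨ξ0⟩ := ne_of_prp hp
  have hw := hX.sw_pr p q n ⟨fun a => (hp.1 a).le, hp.2⟩ hq.le (by linarith)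
  have hd : 0 ≤ L / (q * n) + 2 * exp B * q := by positivity
  refine ⟨fun m ms hm hm1 hms => ⟨⟨fun H => hX.tau_pr _ _ m ms H hw hm, fun γ ξ => ?_,
    fun H ξ => hX.yy_bd _ _ (m :: ms) H (y ξ) B hw (List.forall_mem_cons.2 ⟨hm, hms⟩) (hy ξ),
    fun H γ ξ => hX.yy_bd _ _ ms _ (y ξ) B hw hms (hy ξ),
    fun H ξ γ => hX.tilt _ _ m ms H (y ξ) γ, fun H F hF Ψ g h1 h2 => ?_⟩,
    fun H F hF Φ Φ' g h1 h2 => ?_⟩, ⟨fun H => hX.gib_pr H,
    fun σ ξ => (mul_pos (hp.1 ξ) (exp_pos _)).le,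
    fun H ξ => hX.yy_bd _ _ [] H (y ξ) B hw (by simp) (hy ξ), fun _ σ ξ => hy ξ σ,
    fun H ξ σ => by rw [one_mul]; exact hX.gtilt _ _ H (y ξ) σ, fun H F _ Ψ g _ h2 => ?_⟩⟩
  · exact mul_nonneg (div_nonneg (by linarith) (by positivity))
      (sum_nonneg fun k _ => by split_ifs <;> norm_num)
  · have hg : 0 ≤ g := (abs_nonneg _).trans (h2 0 ξ0)
    have hE : ∀ γ ξ, |exp (m * YY (sw p q n) (sh y n) ms (H + sh y n γ) (y ξ))| ≤ exp B :=
      fun γ ξ => by
        have := (abs_le.1 (hX.yy_bd _ (sh y n) ms (H + sh y n γ) (y ξ) B hw hms (hy ξ))).2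
        rw [abs_of_pos (exp_pos _)]
        exact exp_le_exp.2 (by nlinarith)
    refine (sharp hX hS hp hy hq hq' hn hm hm1 hB hms H hF
      (fun γ ξ => Ψ (den p F (smu q n γ) ξ) ξ)
      (fun γ ξ => exp (m * YY (sw p q n) (sh y n) ms (H + sh y n γ) (y ξ)) *
        Ψ (den p F (smu q n γ) ξ) ξ) (exp B * g) (fun γ γ' ξ _ e => ?_) fun γ ξ => ?_).trans
      (le_of_eq (by ring))
    · rw [← mul_sub, abs_mul, mul_assoc]
      refine mul_le_mul (hE γ ξ) ((h1 _ _ ξ).trans (mul_le_mul_of_nonneg_left ?_ hg))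
        (abs_nonneg _) (exp_pos _).le
      rw [e]
      exact @SApi.den_add hS Ξ Λ _ (Classical.decEq Ξ) p _ F _ ξ ξ hp
        (div_nonneg (by linarith) (by positivity))
    · rw [abs_mul]
      exact mul_le_mul (hE γ ξ) (h2 _ ξ) (abs_nonneg _) (exp_pos _).le
  · have hg : 0 ≤ g := (abs_nonneg _).trans (h2 (fun _ => none) ξ0)
    exact (sharp hX hS hp hy hq hq' hn hm hm1 hB hms H hF Φ Φ' g h1 h2).trans
      (mul_le_mul_of_nonneg_left (le_mul_of_one_le_left hd (one_le_exp hB)) hg)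
  · have hg : 0 ≤ g := (abs_nonneg _).trans (h2 0 ξ0)
    simp only [Ex, one_mul, mul_assoc, sub_self, abs_zero]
    positivity

end

end Vale.Agent.P168
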