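import Vale.Agent.P168.Base1

/-! Module Op: finite product weights. -/

namespace Vale.Agent.P168

open Finset Real

noncomputable section

namespace Op

open Bs

variable {A B C ι : Type} [Fintype A] [Fintype B] [Fintype ι] [DecidableEq ι]

lemma mono {p : A → ℝ} {f g : (ι → A) → ℝ} (hp : Pr p) (h : ∀ t, f t ≤ g t) :
    EP p ι f ≤ EP p ι g := pe_mono (q := fun _ => p) (fun _ => hp.1) h

lemma const {p : A → ℝ} (hp : Pr p) (c : ℝ) : EP p ι (fun _ => c) = c :=
  pe_const (q := fun _ => p) (fun _ => hp.2) c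

lemma prod (p : A → ℝ) (p' : B → ℝ) (f : (ι → A × B) → ℝ) :
    EP (fun ab : A × B => p ab.1 * p' ab.2) ι f =
      EP p ι (fun a => EP p' ι (fun b => f (fun i => (a i, b i)))) := by
  simp only [EP, mul_sum, ← mul_assoc]
  rw [← Fintype.sum_prod_type']
  refine Fintype.sum_equiv (Equiv.arrowProdEquivProdArrow ι (fun _ => A) fun _ => B) _ _
    fun t => ?_
  rw [prod_mul_distrib]; rfl

lemma unif (f : (ι → A) → ℝ) : av f = EP (fun _ : A => (Fintype.card A : ℝ)⁻¹) ι f := by
  simp only [av, EP, prod_const, card_univ, ← mul_sum, Fintype.card_fun, Nat.cast_pow, inv_pow]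
  rw [div_eq_inv_mul]

lemma succ (n : ℕ) (p : A → ℝ) (f : (Fin (n + 1) → A) → ℝ) :
    EP p (Fin (n + 1)) f = EP p (Fin n) (fun t => Ex p (fun a => f (Fin.snoc t a))) := by
  simp only [EP, Ex, mul_sum, ← mul_assoc]
  rw [sum_comm, ← Fintype.sum_prod_type']
  refine (Fintype.sum_equiv (Fin.snocEquiv fun _ => A) _ _ fun z => ?_).symm
  rw [Fin.prod_univ_castSucc]
  simp [Fin.snocEquiv]

lemma sum1 (p φ : A → ℝ) (hp : Pr p) :
    EP p ι (fun t => ∑ i, φ (t i)) = Fintype.card ι * Ex p φ := by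
  refine (pe_sum univ (fun _ => p) fun i t => φ (t i)).trans ?_
  rw [← card_univ, ← nsmul_eq_mul, ← sum_const]
  refine sum_congr rfl fun i _ => ?_
  rw [show (fun t : ι → A => φ (t i)) = fun t => ∏ j, if j = i then φ (t j) else 1 from
    funext fun t => by simp, pe_prod (fun _ => p) fun j a => if j = i then φ a else 1,
    prod_eq_single i (fun j _ hj => by simp [hj, hp.2]) (by simp)]
  simp [Ex]

variable {M : Type} [AddCommMonoid M]

/-- one averaging step -/
def T (p : A → ℝ) (g : A → M) : Module.End ℝ (M → ℝ) where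
  toFun Φ z := ∑ a, p a * Φ (z + g a)
  map_add' Φ Ψ := by funext z; simp [mul_add, sum_add_distrib]
  map_smul' c Φ := by funext z; simp [mul_sum, mul_left_comm]

lemma T_pow (p : A → ℝ) (g : A → M) (n : ℕ) (Φ : M → ℝ) (z : M) :
    EP p (Fin n) (fun c => Φ (z + ∑ k, g (c k))) = (T p g ^ n) Φ z := by
  induction n generalizing Φ with
  | zero => simp [EP]
  | succ n ih =>
    rw [succ, pow_succ, Module.End.mul_apply, ← ih]
    congr 1; funext t
    simp only [Fin.sum_univ_castSucc, Fin.snoc_castSucc, Fin.snoc_last, ← add_assoc]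
    rfl

lemma T_comm (p : A → ℝ) (g : A → M) (p' : B → ℝ) (g' : B → M) : Commute (T p g) (T p' g') := by
  refine LinearMap.ext fun Φ => funext fun z => ?_
  change ∑ a, p a * ∑ b, p' b * Φ (z + g a + g' b) = ∑ b, p' b * ∑ a, p a * Φ (z + g' b + g a)
  simp only [mul_sum]
  rw [sum_comm]
  exact sum_congr rfl fun b _ => sum_congr rfl fun a _ => by rw [add_right_comm, mul_left_comm]

lemma binom (pA : A → ℝ) (pB : B → ℝ) (gA : A → M) (gB : B → M) (q : ℝ) (n : ℕ) (Φ : M → ℝ) :
    EP (Sum.elim (fun a => q * pA a) (fun b => (1 - q) * pB b)) (Fin n)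
        (fun c => Φ (∑ k, Sum.elim gA gB (c k))) =
      ∑ kl ∈ antidiagonal n, (n.choose kl.1 : ℝ) * q ^ kl.1 * (1 - q) ^ kl.2 *
        EP pA (Fin kl.1) (fun a => EP pB (Fin kl.2)
          (fun b => Φ (∑ k, gA (a k) + ∑ k, gB (b k)))) := by
  have e : T (Sum.elim (fun a => q * pA a) (fun b => (1 - q) * pB b)) (Sum.elim gA gB) =
      q • T pA gA + (1 - q) • T pB gB := by
    refine LinearMap.ext fun Φ => funext fun z => ?_
    simp [T, mul_sum, mul_assoc]
  have h := T_pow (Sum.elim (fun a => q * pA a) (fun b => (1 - q) * pB b)) (Sum.elim gA gB) n Φ 0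
  simp only [zero_add] at h
  rw [h, e, (((T_comm pA gA pB gB).smul_left q).smul_right (1 - q)).add_pow', LinearMap.sum_apply,
    Finset.sum_apply]
  refine sum_congr rfl fun kl _ => ?_
  have h2 := T_pow pA gA kl.1 ((T pB gB ^ kl.2) Φ) 0
  simp only [zero_add] at h2
  rw [← Nat.cast_smul_eq_nsmul ℝ]
  simp only [T_pow, h2, smul_pow, smul_mul_smul_comm, LinearMap.smul_apply, Pi.smul_apply,
    Module.End.mul_apply, smul_eq_mul]
  ring

lemma Ex_le {p f g : A → ℝ} (hp : Pr p) {δ : ℝ} (h : ∀ a, f a ≤ g a + δ) :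
    Ex p f ≤ Ex p g + δ := by
  have h1 := sum_le_sum fun a (_ : a ∈ univ) => mul_le_mul_of_nonneg_left (h a) (hp.1 a)
  simp only [mul_add, sum_add_distrib, ← sum_mul, hp.2, one_mul] at h1
  exact h1

lemma Ex_comm (p : A → ℝ) (p' : B → ℝ) (F : A → B → ℝ) :
    Ex p (fun a => Ex p' fun b => F a b) = Ex p' fun b => Ex p fun a => F a b := by
  simp only [Ex, mul_sum]
  rw [sum_comm]
  exact sum_congr rfl fun b _ => sum_congr rfl fun a _ => mul_left_comm _ _ _

lemma lind (pA : A → ℝ) (pB : B → ℝ) (gA : A → C) (gB : B → C) (δ : ℝ) (n : ℕ)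
    (f : (Fin n → C) → ℝ) (hA : Pr pA) (hB : Pr pB)
    (h : ∀ k c, Ex pA (fun a => f (Function.update c k (gA a))) ≤
      Ex pB (fun b => f (Function.update c k (gB b))) + δ) :
    EP pA (Fin n) (fun a => f (fun k => gA (a k))) ≤
      EP pB (Fin n) (fun b => f (fun k => gB (b k))) + n * δ := by
  induction n with
  | zero =>
    simp only [EP, univ_unique, sum_singleton, univ_eq_empty, prod_empty, one_mul, Nat.cast_zero,
      zero_mul, add_zero]
    exact le_of_eq (congrArg f (Subsingleton.elim _ _))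
  | succ n ih =>
    obtain ⟨a0, -, -⟩ := exists_ne_zero_of_sum_ne_zero (hA.2.trans_ne one_ne_zero)
    have eA : ∀ (t : Fin n → A) (a : A), (fun k => gA ((Fin.snoc t a : Fin (n + 1) → A) k)) =
        Fin.snoc (fun k => gA (t k)) (gA a) := fun t a => Fin.comp_snoc gA t a
    have eB : ∀ (t : Fin n → B) (a : B), (fun k => gB ((Fin.snoc t a : Fin (n + 1) → B) k)) =
        Fin.snoc (fun k => gB (t k)) (gB a) := fun t a => Fin.comp_snoc gB t a
    have h1 := ih (fun c => Ex pB fun b => f (Fin.snoc c (gB b))) fun k c => by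
      rw [Ex_comm, Ex_comm pB pB]
      refine Ex_le hB fun b => ?_
      simpa only [Fin.snoc_update] using h k.castSucc (Fin.snoc c (gB b))
    have h2 : EP pA (Fin n) (fun t => Ex pA fun a => f (Fin.snoc (fun k => gA (t k)) (gA a))) ≤
        EP pA (Fin n) fun t => (Ex pB fun b => f (Fin.snoc (fun k => gA (t k)) (gB b))) + δ :=
      mono hA fun t => by
        simpa only [Fin.update_snoc_last] using
          h (Fin.last n) (Fin.snoc (fun k => gA (t k)) (gA a0))
    have h3 := pe_add (fun _ : Fin n => pA)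
      (fun t => Ex pB fun b => f (Fin.snoc (fun k => gA (t k)) (gB b))) fun _ => δ
    rw [pe_const fun _ => hA.2] at h3
    rw [succ, succ]
    simp only [eA, eB]
    push_cast
    have h4 := h2.trans_eq h3
    change _ ≤ EP pA (Fin n) _ + δ at h4
    linarith

end Op

open Op in
theorem opApi : OpApi where
  pr := fun _ _ _ p hp => ⟨fun _ => prod_nonneg fun _ _ => hp.1 _,
    Bs.w_one (q := fun _ => p) fun _ => hp.2⟩
  mono := fun _ _ _ _ _ _ hp h => mono hp h
  const := fun _ _ _ _ c hp => const hp c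
  abs := fun _ _ _ _ _ c hp h => abs_le.2
    ⟨(const hp (-c)).symm.trans_le (mono hp fun t => (abs_le.1 (h t)).1),
      (mono hp fun t => (abs_le.1 (h t)).2).trans_eq (const hp c)⟩
  marg := fun _ _ _ _ _ _ p _ f hp he => Bs.pe_emb (q := fun _ => p) (fun _ => hp.2) he f
  prod := fun _ _ _ => prod
  unif := fun _ _ _ => unif
  succ := succ
  sum1 := fun _ _ _ => sum1
  binom := binom
  lind := lind

end

end Vale.Agent.P168
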