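import Vale.Agent.P168.Stm

/-! P168, module Po: Poisson series. -/

namespace Vale.Agent.P168

open Finset Real Filter Topology

noncomputable section

namespace Po

lemma nn {c : ℝ} (n : ℕ) (hc : 0 ≤ c) : 0 ≤ poi c n := by
  unfold poi
  positivity

lemma hs0 (c : ℝ) : HasSum (poi c) 1 := by
  have h := (NormedSpace.expSeries_div_hasSum_exp c).mul_left (exp (-c))
  rw [← Real.exp_eq_exp_ℝ, ← exp_add, neg_add_cancel, exp_zero] at h
  have e : poi c = fun n => exp (-c) * (c ^ n / (n.factorial : ℝ)) := by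
    funext n
    rw [poi, mul_div_assoc]
  rw [e]
  exact h

lemma sb (c : ℝ) (n : ℕ) : poi c (n + 1) * ((n + 1 : ℕ) : ℝ) = c * poi c n := by
  unfold poi
  rw [Nat.factorial_succ]
  have h1 : (n.factorial : ℝ) ≠ 0 := by positivity
  have h2 : ((n + 1 : ℕ) : ℝ) ≠ 0 := by positivity
  rw [Nat.cast_mul, pow_succ]
  field_simp

lemma hs_sb {c s : ℝ} {f : ℕ → ℝ} (h : HasSum (fun n => poi c n * f (n + 1)) s) :
    HasSum (fun n => poi c n * ((n : ℝ) * f n)) (c * s) := by
  have h1 : HasSum (fun n => poi c (n + 1) * (((n + 1 : ℕ) : ℝ) * f (n + 1))) (c * s) := by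
    have e : (fun n => poi c (n + 1) * (((n + 1 : ℕ) : ℝ) * f (n + 1))) =
        fun n => c * (poi c n * f (n + 1)) := by
      funext n
      rw [← mul_assoc, sb, mul_assoc]
    rw [e]
    exact h.mul_left c
  have h2 := (hasSum_nat_add_iff (f := fun n => poi c n * ((n : ℝ) * f n)) 1).1 h1
  simpa using h2

lemma hs1 (c : ℝ) : HasSum (fun n => poi c n * (n : ℝ)) c := by
  have h := hs_sb (c := c) (s := 1) (f := fun _ => 1) (by simpa using hs0 c)
  simpa using h

lemma hs2 (c : ℝ) : HasSum (fun n => poi c n * ((n : ℝ) * ((n : ℝ) - 1))) (c * c) :=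
  hs_sb (c := c) (s := c) (f := fun n => (n : ℝ) - 1) (by simpa using hs1 c)

lemma hsv (c : ℝ) : HasSum (fun n => poi c n * ((n : ℝ) - c) ^ 2) c := by
  have h := ((hs2 c).add ((hs1 c).mul_left (1 - 2 * c))).add ((hs0 c).mul_left (c ^ 2))
  have e1 : c * c + (1 - 2 * c) * c + c ^ 2 * 1 = c := by ring
  rw [e1] at h
  have e : (fun n => poi c n * ((n : ℝ) - c) ^ 2) = fun n =>
      poi c n * ((n : ℝ) * ((n : ℝ) - 1)) + (1 - 2 * c) * (poi c n * (n : ℝ)) +
        c ^ 2 * poi c n := by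
    funext n
    ring
  rw [e]
  exact h

lemma hsl (c a b : ℝ) : HasSum (fun n => poi c n * (a + b * n)) (a + b * c) := by
  have h := ((hs0 c).mul_left a).add ((hs1 c).mul_left b)
  rw [mul_one] at h
  have e : (fun n => poi c n * (a + b * n)) = fun n => a * poi c n + b * (poi c n * (n : ℝ)) := by
    funext n
    ring
  rw [e]
  exact h

lemma nb {c : ℝ} (hc : 0 ≤ c) {n : ℕ} {x y : ℝ} (h : |x| ≤ y) : ‖poi c n * x‖ ≤ poi c n * y := by
  rw [Real.norm_eq_abs, abs_mul, abs_of_nonneg (nn n hc)]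
  exact mul_le_mul_of_nonneg_left h (nn n hc)

lemma summ' {c a b : ℝ} {g : ℕ → ℝ} (hc : 0 ≤ c) (hg : ∀ n, |g n| ≤ a + b * n) :
    Summable (fun n => poi c n * g n) :=
  Summable.of_norm_bounded (hsl c a b).summable (fun n => nb hc (hg n))

lemma summ (c C : ℝ) (g : ℕ → ℝ) (hc : 0 ≤ c) (hg : ∀ n, |g n| ≤ C * (1 + n)) :
    Summable (fun n => poi c n * g n) :=
  summ' (a := C) (b := C) hc (fun n => by linarith [hg n])

lemma bd (c a b : ℝ) (g : ℕ → ℝ) (hc : 0 ≤ c) (hg : ∀ n, |g n| ≤ a + b * n) :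
    |∑' n, poi c n * g n| ≤ a + b * c :=
  tsum_of_norm_bounded (hsl c a b) (fun n => nb hc (hg n))

lemma conv {a b C : ℝ} (g : ℕ → ℕ → ℝ) (ha : 0 ≤ a) (hb : 0 ≤ b)
    (hg : ∀ k l, |g k l| ≤ C * (1 + k + l)) :
    ∑' n, ∑ kl ∈ antidiagonal n, poi a kl.1 * (poi b kl.2 * g kl.1 kl.2) =
      ∑' k, poi a k * ∑' l, poi b l * g k l := by
  have hC : 0 ≤ C := by
    have := (abs_nonneg _).trans (hg 0 0)
    simpa using this
  have hs : Summable (fun kl : ℕ × ℕ => poi a kl.1 * (poi b kl.2 * g kl.1 kl.2)) := by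
    have h1 := (hsl a C C).summable.mul_of_nonneg (hsl b 1 1).summable
      (fun k => mul_nonneg (nn k ha) (by positivity)) (fun l => mul_nonneg (nn l hb) (by positivity))
    refine Summable.of_norm_bounded h1 (fun kl => ?_)
    have h2 : |g kl.1 kl.2| ≤ (C + C * kl.1) * (1 + 1 * kl.2) := by
      have h3 : 0 ≤ C * (kl.1 : ℝ) * kl.2 := by positivity
      nlinarith [hg kl.1 kl.2]
    calc _ ≤ poi a kl.1 * (poi b kl.2 * ((C + C * kl.1) * (1 + 1 * kl.2))) := nb ha (nb hb h2)
      _ = _ := by ring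
  have h3 := (Finset.HasAntidiagonal.sigmaAntidiagonalEquivProd.hasSum_iff.2 hs.hasSum).sigma
    (g := fun n => ∑ kl ∈ antidiagonal n, poi a kl.1 * (poi b kl.2 * g kl.1 kl.2))
    (fun n => Finset.hasSum (antidiagonal n)
      (fun kl : ℕ × ℕ => poi a kl.1 * (poi b kl.2 * g kl.1 kl.2)))
  rw [h3.tsum_eq, hs.tsum_prod]
  exact tsum_congr (fun k => tsum_mul_left (a := poi a k) (f := fun l => poi b l * g k l))

lemma split (c q : ℝ) (k l : ℕ) :
    poi c (k + l) * (((k + l).choose k : ℝ) * q ^ k * (1 - q) ^ l) =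
      poi (c * q) k * poi (c * (1 - q)) l := by
  have h1 : (((k + l).choose k : ℕ) : ℝ) * l.factorial * k.factorial = (k + l).factorial := by
    have := Nat.add_choose_mul_factorial_mul_factorial l k
    rw [add_comm l k] at this
    exact_mod_cast this
  have h2 : exp (-c) = exp (-(c * q)) * exp (-(c * (1 - q))) := by
    rw [← exp_add]
    congr 1
    ring
  have h3 : (k.factorial : ℝ) ≠ 0 := by positivity
  have h4 : (l.factorial : ℝ) ≠ 0 := by positivity
  have h5 : (((k + l).choose k : ℕ) : ℝ) ≠ 0 := by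
    have := Nat.choose_pos (Nat.le_add_right k l)
    positivity
  unfold poi
  rw [← h1, h2, mul_pow, mul_pow, pow_add]
  field_simp

lemma thin (c q C : ℝ) (g : ℕ → ℕ → ℝ) (hc : 0 ≤ c) (hq : 0 ≤ q) (hq1 : q ≤ 1)
    (hg : ∀ k l, |g k l| ≤ C * (1 + k + l)) :
    ∑' n, poi c n * ∑ kl ∈ antidiagonal n,
        (n.choose kl.1 : ℝ) * q ^ kl.1 * (1 - q) ^ kl.2 * g kl.1 kl.2 =
      ∑' k, poi (c * q) k * ∑' l, poi (c * (1 - q)) l * g k l := by
  rw [← conv g (mul_nonneg hc hq) (mul_nonneg hc (sub_nonneg.2 hq1)) hg]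
  refine tsum_congr (fun n => ?_)
  rw [Finset.mul_sum]
  refine Finset.sum_congr rfl (fun kl hkl => ?_)
  rw [← Finset.HasAntidiagonal.mem_antidiagonal.1 hkl, ← mul_assoc, split, mul_assoc]

lemma tail (c C ε : ℝ) (hc : 0 ≤ c) (hε : 0 < ε) : ∃ n0 : ℕ, ∀ g : ℕ → ℝ,
    (∀ n, |g n| ≤ C * (1 + n)) →
    |∑' n, poi c n * g n - ∑ n ∈ range n0, poi c n * g n| ≤ ε := by
  have h := tendsto_sum_nat_add (fun n => poi c n * (C + C * n))
  obtain ⟨n0, hn0⟩ := (h.eventually (ge_mem_nhds hε)).exists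
  refine ⟨n0, fun g hg => ?_⟩
  rw [← (summ c C g hc hg).sum_add_tsum_nat_add n0, add_sub_cancel_left]
  have hs := (summable_nat_add_iff n0).2 (hsl c C C).summable
  refine le_trans (tsum_of_norm_bounded hs.hasSum (fun n => nb hc ?_)) hn0
  linarith [hg (n + n0)]

lemma step1 {c B : ℝ} (hc : 0 < c) (ψ : ℕ → ℝ) (hψ : ∀ n, |ψ n| ≤ B) :
    ∑' n, poi c n * ψ (n + 1) ≤ ∑' n, poi c n * ψ n + B / √c := by
  have hB : 0 ≤ B := (abs_nonneg _).trans (hψ 0)
  have hs : 0 < √c := Real.sqrt_pos.2 hc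
  have hss : √c * √c = c := Real.mul_self_sqrt hc.le
  have h0 := (summ' (a := B) (b := 0) (g := ψ) hc.le (fun n => by simpa using hψ n)).hasSum
  have h1 := (summ' (a := B) (b := 0) (g := fun n => ψ (n + 1)) hc.le
    (fun n => by simpa using hψ (n + 1))).hasSum
  have h2 := (hs_sb h1).sub (h0.mul_left c)
  have h3 := ((hs0 c).mul_left (B * √c / 2)).add ((hsv c).mul_left (B / (2 * √c)))
  have h4 := hasSum_le (fun n => ?_) h2 h3
  · have e : B * √c / 2 * 1 + B / (2 * √c) * c = c * (B / √c) := by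
      field_simp
      nlinarith
    rw [e, ← mul_sub] at h4
    have := le_of_mul_le_mul_left h4 hc
    linarith
  · have h5 : ((n : ℝ) - c) * ψ n ≤ B * |(n : ℝ) - c| := by
      calc _ ≤ |((n : ℝ) - c) * ψ n| := le_abs_self _
        _ = |ψ n| * |(n : ℝ) - c| := by rw [abs_mul, mul_comm]
        _ ≤ _ := mul_le_mul_of_nonneg_right (hψ n) (abs_nonneg _)
    have h6 : |(n : ℝ) - c| ≤ √c / 2 + ((n : ℝ) - c) ^ 2 / (2 * √c) := by
      rw [← sq_abs, div_add_div _ _ (by norm_num) (by positivity), le_div_iff₀ (by positivity)]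
      nlinarith [sq_nonneg (|(n : ℝ) - c| - √c)]
    have h7 := mul_le_mul_of_nonneg_left (h5.trans (mul_le_mul_of_nonneg_left h6 hB)) (nn n hc.le)
    calc _ = poi c n * (((n : ℝ) - c) * ψ n) := by ring
      _ ≤ _ := h7
      _ = _ := by ring

lemma add_conv (a b : ℝ) (n : ℕ) :
    poi (a + b) n = ∑ kl ∈ antidiagonal n, poi a kl.1 * poi b kl.2 := by
  have h := (Commute.all a b).add_pow' n
  unfold poi
  rw [h, Finset.mul_sum, Finset.sum_div]
  refine Finset.sum_congr rfl (fun kl hkl => ?_)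
  rw [← Finset.HasAntidiagonal.mem_antidiagonal.1 hkl]
  have h1 : (((kl.1 + kl.2).choose kl.1 : ℕ) : ℝ) * kl.2.factorial * kl.1.factorial =
      (kl.1 + kl.2).factorial := by
    have := Nat.add_choose_mul_factorial_mul_factorial kl.2 kl.1
    rw [add_comm kl.2 kl.1] at this
    exact_mod_cast this
  have h3 : (kl.1.factorial : ℝ) ≠ 0 := by positivity
  have h4 : (kl.2.factorial : ℝ) ≠ 0 := by positivity
  have h5 : (((kl.1 + kl.2).choose kl.1 : ℕ) : ℝ) ≠ 0 := by
    have := Nat.choose_pos (Nat.le_add_right kl.1 kl.2)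
    positivity
  rw [← h1, neg_add, exp_add, nsmul_eq_mul]
  field_simp

lemma shift (c c2 B : ℝ) (g : ℕ → ℝ) (hc : 0 < c) (hc2 : 0 ≤ c2)
    (hg : ∀ j, |g (j + 1) - g j| ≤ B) :
    ∑' n, poi (c + c2) n * g n ≤
      ∑' n, poi c n * (g n + c2 * (g (n + 1) - g n)) + B * c2 ^ 2 / √c := by
  have hB : 0 ≤ B := (abs_nonneg _).trans (hg 0)
  have hs : 0 < √c := Real.sqrt_pos.2 hc
  have hgr : ∀ n : ℕ, |g n| ≤ |g 0| + B * n := by
    intro n
    induction n with
    | zero => simp
    | succ n ih =>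
      have h1 := abs_add_le (g (n + 1) - g n) (g n)
      rw [sub_add_cancel] at h1
      push_cast
      linarith [hg n]
  have hgr2 : ∀ k l : ℕ, |g (l + k)| ≤ |g 0| + B * k + B * l := by
    intro k l
    have := hgr (l + k)
    push_cast at this
    linarith
  set A : ℕ → ℝ := fun k => ∑' l, poi c l * g (l + k) with hA
  set D : ℕ → ℝ := fun k => ∑' l, poi c l * (g (l + k + 1) - g (l + k)) with hD
  have hsA : ∀ k, Summable (fun l => poi c l * g (l + k)) := fun k => summ' hc.le (hgr2 k)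
  have hAD : ∀ k, A (k + 1) = A k + D k := by
    intro k
    have h1 := (hsA (k + 1)).tsum_sub (hsA k)
    have h2 : D k = A (k + 1) - A k := by
      rw [hD, hA]
      simp only
      rw [← h1]
      exact tsum_congr (fun l => by rw [← add_assoc]; ring)
    linarith
  have hDD : ∀ k, D (k + 1) ≤ D k + B / √c := by
    intro k
    have h1 := step1 hc (fun l => g (l + k + 1) - g (l + k)) (fun l => hg _)
    refine le_trans (le_of_eq ?_) h1
    refine tsum_congr (fun l => ?_)
    rw [show l + (k + 1) = l + 1 + k by omega]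
  have hD0 : ∀ k : ℕ, D k ≤ D 0 + k * (B / √c) := by
    intro k
    induction k with
    | zero => simp
    | succ k ih =>
      push_cast
      linarith [hDD k]
  have hβ : 0 ≤ B / √c := div_nonneg hB hs.le
  have hA0 : ∀ k : ℕ, A k ≤ A 0 + k * D 0 + (k * (k - 1)) * (B / √c) := by
    intro k
    induction k with
    | zero => simp
    | succ k ih =>
      have h1 : 0 ≤ (k : ℝ) * (B / √c) := by positivity
      rw [hAD]
      push_cast
      nlinarith [hD0 k]
  have e1 : ∑' n, poi (c + c2) n * g n = ∑' k, poi c2 k * A k := by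
    rw [hA, ← conv (C := |g 0| + B) (fun k l => g (l + k)) hc2 hc.le]
    · refine tsum_congr (fun n => ?_)
      rw [add_comm c c2, add_conv, Finset.sum_mul]
      refine Finset.sum_congr rfl (fun kl hkl => ?_)
      rw [← Finset.HasAntidiagonal.mem_antidiagonal.1 hkl, add_comm kl.2 kl.1, mul_assoc]
    · intro k l
      have h1 : 0 ≤ |g 0| * ((k : ℝ) + l) := by positivity
      nlinarith [hgr2 k l]
  have e2 : ∑' n, poi c n * (g n + c2 * (g (n + 1) - g n)) = A 0 + c2 * D 0 := by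
    have h1 := (hsA 0).hasSum
    have h2 := (summ' (a := B) (b := 0) (g := fun l => g (l + 0 + 1) - g (l + 0)) hc.le
      (fun l => by simpa using hg l)).hasSum
    rw [← (h1.add (h2.mul_left c2)).tsum_eq]
    exact tsum_congr (fun l => by simp only [add_zero]; ring)
  have hsum := (((hs0 c2).mul_left (A 0)).add ((hs1 c2).mul_left (D 0))).add
    ((hs2 c2).mul_left (B / √c))
  have hAs : Summable (fun k => poi c2 k * A k) :=
    summ' (a := |g 0| + B * c) (b := B) hc2 (fun k => by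
      have := bd c _ _ _ hc.le (hgr2 k)
      linarith)
  have h3 := hasSum_le (fun k => ?_) hAs.hasSum hsum
  · rw [e1, e2]
    refine h3.trans (le_of_eq ?_)
    ring
  · calc _ ≤ poi c2 k * (A 0 + k * D 0 + (k * (k - 1)) * (B / √c)) :=
          mul_le_mul_of_nonneg_left (hA0 k) (nn k hc2)
      _ = _ := by ring

end Po

theorem poApi : PoApi where
  nn := fun _ n hc => Po.nn n hc
  summ := Po.summ
  one := fun c => (Po.hs0 c).tsum_eq
  mean := fun c => (Po.hs1 c).tsum_eq
  bd := Po.bd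
  thin := Po.thin
  shift := Po.shift
  tail := Po.tail

end

end Vale.Agent.P168
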