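import Vale.Agent.P168.Pos1a

/-! P168, module Pos1: the step inequality for clauses bounded away from degeneracy. -/

namespace Vale.Agent.P168

open MeasureTheory Finset Real Filter Topology

noncomputable section

namespace Pos1

variable {K : ℕ} {Ω V A ι0 : Type} {b : Ω → ℝ} {f : Fin K → Ω → Bool → ℝ} {s : ℝ}
  [Fintype ι0] [DecidableEq ι0]

lemma sum_split {B : Type} [Fintype B] (F : (Fin K ⊕ ι0 → B) → ℝ) :
    ∑ t, F t = ∑ a : ι0 → B, ∑ w : Fin K → B, F (Sum.elim w a) := by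
  rw [← (Equiv.sumArrowEquivProdArrow (Fin K) ι0 B).symm.sum_comp, Fintype.sum_prod_type_right]
  rfl

lemma pos_of_pr {α : Type} [Fintype α] {p u : α → ℝ} (hp : Pr p) (hu : ∀ x, 0 < u x) :
    0 < ∑ x, p x * u x := by
  obtain ⟨x, -, hx⟩ : ∃ x ∈ (univ : Finset α), p x ≠ 0 :=
    exists_ne_zero_of_sum_ne_zero (by rw [hp.2]; exact one_ne_zero)
  exact sum_pos' (fun y _ => mul_nonneg (hp.1 y) (hu y).le)
    ⟨x, mem_univ x, mul_pos ((hp.1 x).lt_of_ne' hx) (hu x)⟩

lemma pr_tilt {α : Type} [Fintype α] {p u : α → ℝ} (hp : Pr p) (hu : ∀ x, 0 < u x) :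
    Pr fun x => p x * u x / ∑ y, p y * u y :=
  ⟨fun x => div_nonneg (mul_nonneg (hp.1 x) (hu x).le) (pos_of_pr hp hu).le, by
    rw [← sum_div, div_self (pos_of_pr hp hu).ne']⟩

/-- in the closed cone and bounded by `s` -/
def Gd (b : Ω → ℝ) (f : Fin K → Ω → Bool → ℝ) (s : ℝ) (D : Fm K Ω V A) : Prop :=
  Cl b f D ∧ ∀ S ω i w, |D S ω i w| ≤ s

lemma Gd.congr {D D' : Fm K Ω V A} (h : Gd b f s D) (e : ∀ S ω i w, D' S ω i w = D S ω i w) :
    Gd b f s D' := by
  have : D' = D := by funext S ω i w; exact e S ω i w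
  rwa [this]

lemma Gd.rpow {D : Fm K Ω V A} (h : Gd b f s D) (hs0 : 0 ≤ s) (hs : s < 1) {θ : ℝ} (h0 : 0 ≤ θ)
    (h1 : θ ≤ 1) : Gd b f s fun S ω i w => 1 - (1 - D S ω i w) ^ θ := by
  obtain ⟨c, hc, hφ⟩ := binom h0 h1
  refine ⟨h.1.series hs0 hs h.2 hc (φ := fun z => 1 - (1 - z) ^ θ) hφ, fun S ω i w => ?_⟩
  have a1 := abs_le.1 (h.2 S ω i w)
  have a2 : 1 - s ≤ (1 - D S ω i w) ^ θ :=
    (Real.self_le_rpow_of_le_one (by linarith) (by linarith) h1).trans
      (Real.rpow_le_rpow (by linarith) (by linarith) h0)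
  have a3 : (1 - D S ω i w) ^ θ ≤ 1 + s :=
    (Real.rpow_le_rpow (by linarith) (by linarith) h0).trans
      (Real.rpow_le_self_of_one_le (by linarith) h1)
  exact abs_le.2 ⟨by linarith, by linarith⟩

variable [Fintype A]

lemma recur (hs0 : 0 ≤ s) (hs : s < 1) (ks : Ker A) (hk : ∀ k ∈ ks, ∀ a, Pr (k.2 a))
    (hp : (ks.map Prod.fst).Pairwise (· < ·)) (hm : ∀ k ∈ ks, 0 < k.1 ∧ k.1 < 1)
    (Zn : (Fin K → Bool) → Ω → (Fin K → V) → (Fin K ⊕ ι0 → A) → ℝ) (Z0 : (ι0 → A) → ℝ)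
    (hZ : ∀ a, Gd b f s fun S ω i w => 1 - exp (Zn S ω i (Sum.elim w a) - Z0 a)) (a : ι0 → A) :
    Gd b f s fun S ω i w => 1 - exp (nxt (ks.map Prod.fst) *
      (dc _ ks (Zn S ω i) (Sum.elim w a) - dc ι0 ks Z0 a)) := by
  induction ks generalizing a with
  | nil => exact (hZ a).congr (by simp [nxt, dc])
  | cons k ks ih =>
    have hk0 := hk k (by simp)
    obtain ⟨m0, m1⟩ := hm k (by simp)
    have hmu : k.1 ≤ nxt (ks.map Prod.fst) := by
      cases ks with
      | nil => exact m1.le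
      | cons k' ks => exact (List.rel_of_pairwise_cons hp (by simp [nxt])).le
    have hmu0 : 0 < nxt (ks.map Prod.fst) := m0.trans_le hmu
    have hE : ∀ a', Gd b f s fun S ω i w =>
        1 - exp (k.1 * (dc _ ks (Zn S ω i) (Sum.elim w a') - dc ι0 ks Z0 a')) := by
      intro a'
      refine ((ih (fun k' h => hk k' (by simp [h])) hp.of_cons (fun k' h => hm k' (by simp [h]))
        a').rpow hs0 hs (θ := k.1 / nxt (ks.map Prod.fst)) (by positivity)
        ((div_le_one hmu0).2 hmu)).congr fun S ω i w => ?_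
      rw [sub_sub_cancel, ← Real.exp_mul]
      congr 2
      field_simp
    have hpa : Pr fun a' : ι0 → A => ∏ j, k.2 (a j) (a' j) := pr_prod fun j => hk0 (a j)
    have hN := pos_of_pr hpa fun a' => exp_pos (k.1 * dc ι0 ks Z0 a')
    have ht := pr_tilt hpa fun a' => exp_pos (k.1 * dc ι0 ks Z0 a')
    have hG : Gd b f s fun S ω i w => ∑ a' : ι0 → A,
        ((∏ j, k.2 (a j) (a' j)) * exp (k.1 * dc ι0 ks Z0 a') /
          ∑ y : ι0 → A, (∏ j, k.2 (a j) (y j)) * exp (k.1 * dc ι0 ks Z0 y)) *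
        ∑ w' : Fin K → A, (∏ j, k.2 (w j) (w' j)) *
          (1 - exp (k.1 * (dc _ ks (Zn S ω i) (Sum.elim w' a') - dc ι0 ks Z0 a'))) :=
      ⟨Cl.avg ht fun a' => (hE a').1.ker hk0, fun S ω i w => avg_le ht fun a' =>
        avg_le (pr_prod fun j => hk0 (w j)) fun w' => (hE a').2 S ω i w'⟩
    refine hG.congr fun S ω i w => ?_
    have hX := pos_of_pr (pr_prod (ι := Fin K ⊕ ι0) fun j => hk0 (Sum.elim w a j))
      fun t => exp_pos (k.1 * dc _ ks (Zn S ω i) t)
    have hw := (pr_prod (ι := Fin K) fun j => hk0 (w j)).2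
    simp only [List.map_cons, nxt, List.headD_cons, dc]
    rw [← mul_sub, mul_inv_cancel_left₀ m0.ne', exp_sub, exp_log hX, exp_log hN]
    simp only [mul_sub (∏ j, k.2 (w j) _), sum_sub_distrib, mul_one, hw, mul_sub (_ / _), ht.2]
    rw [sum_split, sum_div]
    congr 1
    refine sum_congr rfl fun a' _ => ?_
    rw [sum_div, mul_sum]
    refine sum_congr rfl fun w' _ => ?_
    rw [Fintype.prod_sum_type, mul_sub, exp_sub]
    simp only [Sum.elim_inl, Sum.elim_inr]
    have := exp_pos (k.1 * dc ι0 ks Z0 a')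
    field_simp

lemma pr_spin {x : ℝ} (hx : |x| ≤ 1) : Pr fun t : Bool => (1 + x * spin t) / 2 := by
  have := abs_le.1 hx
  refine ⟨fun t => ?_, by simp [spin]; ring⟩
  cases t <;> simp only [spin, Bool.false_eq_true, if_false, if_true] <;> linarith

variable [Fintype V] [DecidableEq V]

/-- the weight after adding the clause in scenario `S` -/
def Wn (b : Ω → ℝ) (f : Fin K → Ω → Bool → ℝ) (G0 : (ι0 → Bool) → (V → Bool) → ℝ)
    (S : Fin K → Bool) (ω : Ω) (i : Fin K → V) (t : Fin K ⊕ ι0 → Bool) : ℝ :=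
  ∑ σ : V → Bool, G0 (fun j => t (Sum.inr j)) σ *
    (1 + b ω * ∏ j, f j ω (if S j then σ (i j) else t (Sum.inl j)))

omit [Fintype A] in
lemma base (hs : s < 1) (hbs : ∀ ω, |b ω| ≤ s) (hf1 : ∀ j ω t, |f j ω t| ≤ 1)
    {G0 : (ι0 → Bool) → (V → Bool) → ℝ} (hG : ∀ t σ, 0 < G0 t σ) {x : A → ℝ}
    (hx : ∀ a, |x a| ≤ 1) (a : ι0 → A) :
    Gd b f s fun S ω i w => 1 - exp (log (ext (Wn b f G0 S ω i) fun j => x (Sum.elim w a j)) -
      log (ext (fun t => ∑ σ, G0 t σ) fun j => x (a j))) := by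
  have hpa : Pr fun t : ι0 → Bool => ∏ j, (1 + x (a j) * spin (t j)) / 2 :=
    pr_prod fun j => pr_spin (hx (a j))
  set N := ext (fun t => ∑ σ, G0 t σ) fun j => x (a j) with hNd
  have hN : 0 < N := by
    have := pos_of_pr hpa (u := fun t => ∑ σ, G0 t σ) fun t =>
      sum_pos (fun σ _ => hG t σ) univ_nonempty
    simpa only [hNd, ext, mul_comm] using this
  have ht : Pr fun y : (ι0 → Bool) × (V → Bool) =>
      G0 y.1 y.2 * (∏ j, (1 + x (a j) * spin (y.1 j)) / 2) / N := by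
    refine ⟨fun y => div_nonneg (mul_nonneg (hG _ _).le (hpa.1 _)) hN.le, ?_⟩
    rw [← sum_div, Fintype.sum_prod_type, div_eq_one_iff_eq hN.ne', hNd, ext]
    simp only [sum_mul]
  have hG : Gd b f s fun S ω i w => ∑ y : (ι0 → Bool) × (V → Bool),
      G0 y.1 y.2 * (∏ j, (1 + x (a j) * spin (y.1 j)) / 2) / N *
        (1 * gen b f 0 (fun φ v => φ (y.2 v))
          (fun φ a' => ∑ t, (1 + x a' * spin t) / 2 * φ t) S ω i w) := by
    refine ⟨Cl.avg ht fun y => (Cn.gen 1 0 _ _ zero_le_one (fun v => by fun_prop)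
      (fun a' => by fun_prop)).cl, fun S ω i w => avg_le ht fun y => ?_⟩
    rw [one_mul, gen, zero_add, pow_one, abs_mul, abs_neg, abs_prod]
    refine (mul_le_of_le_one_right (abs_nonneg _) (prod_le_one (fun _ _ => abs_nonneg _)
      fun j _ => ?_)).trans (hbs ω)
    split_ifs
    · exact hf1 _ _ _
    · exact avg_le (pr_spin (hx _)) fun t => hf1 _ _ t
  refine hG.congr fun S ω i w => ?_
  have hD := abs_le.1 (hG.2 S ω i w)
  set D := ∑ y : (ι0 → Bool) × (V → Bool),
      G0 y.1 y.2 * (∏ j, (1 + x (a j) * spin (y.1 j)) / 2) / N *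
        (1 * gen b f 0 (fun φ v => φ (y.2 v))
          (fun φ a' => ∑ t, (1 + x a' * spin t) / 2 * φ t) S ω i w) with hDd
  have key : (ext (Wn b f G0 S ω i) fun j => x (Sum.elim w a j)) = N * (1 - D) := by
    rw [← ht.2, hDd, ← sum_sub_distrib, mul_sum, Fintype.sum_prod_type, ext, sum_split]
    refine sum_congr rfl fun t0 _ => ?_
    simp only [Wn, sum_mul]
    rw [sum_comm]
    refine sum_congr rfl fun σ _ => ?_
    have hw := (pr_prod (ι := Fin K) fun j => pr_spin (hx (w j))).2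
    have e : (∏ j, if S j then f j ω (σ (i j)) else ∑ t, (1 + x (w j) * spin t) / 2 * f j ω t) =
        ∑ t1 : Fin K → Bool, (∏ j, (1 + x (w j) * spin (t1 j)) / 2) *
          ∏ j, f j ω (if S j then σ (i j) else t1 j) := by
      simp only [← prod_mul_distrib]
      rw [← Fintype.prod_sum fun j t => (1 + x (w j) * spin t) / 2 *
        f j ω (if S j then σ (i j) else t)]
      refine prod_congr rfl fun j _ => ?_
      split_ifs
      · rw [← sum_mul, (pr_spin (hx (w j))).2, one_mul]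
      · rfl
    simp only [gen, e, Fintype.prod_sum_type, Sum.elim_inl, Sum.elim_inr]
    have e2 : ∀ t1 : Fin K → Bool, G0 t0 σ * (1 + b ω * ∏ j, f j ω (if S j then σ (i j) else t1 j)) *
        ((∏ j, (1 + x (w j) * spin (t1 j)) / 2) * ∏ j, (1 + x (a j) * spin (t0 j)) / 2) =
        G0 t0 σ * (∏ j, (1 + x (a j) * spin (t0 j)) / 2) *
          ((∏ j, (1 + x (w j) * spin (t1 j)) / 2) + b ω * ((∏ j, (1 + x (w j) * spin (t1 j)) / 2) *
            ∏ j, f j ω (if S j then σ (i j) else t1 j))) := fun t1 => by ring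
    simp only [e2]
    rw [← mul_sum, sum_add_distrib, hw, ← mul_sum]
    field_simp
    ring
  rw [exp_sub, key, exp_log (mul_pos hN (by linarith)), exp_log hN]
  field_simp
  ring

lemma core [Nonempty V] (hs0 : 0 ≤ s) (hs : s < 1) (hbs : ∀ ω, |b ω| ≤ s)
    (hf1 : ∀ j ω t, |f j ω t| ≤ 1) {G0 : (ι0 → Bool) → (V → Bool) → ℝ} (hG : ∀ t σ, 0 < G0 t σ)
    {M : Msg A} (hM : M.Ok) : ∃ (D : Fm K Ω V A) (c : ℝ), Cl b f D ∧ ∀ S ω,
      red M.ini D S ω = c - av fun i => DT (Fin K ⊕ ι0) M (Wn b f G0 S ω i) := by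
  obtain ⟨h1, h2, h3, h4, h5⟩ := hM
  have hR := recur hs0 hs M.ks h2 h4 h5
    (fun S ω i t => log (ext (Wn b f G0 S ω i) fun j => M.x (t j)))
    (fun a => log (ext (fun t => ∑ σ, G0 t σ) fun j => M.x (a j))) (base hs hbs hf1 hG h3)
  have hmu : 0 < nxt (M.ks.map Prod.fst) := by
    cases hks : M.ks with
    | nil => simp [nxt]
    | cons k ks => exact (h5 k (by simp [hks])).1
  have hpa : Pr fun a : ι0 → A => ∏ j, M.ini (a j) := pr_prod fun _ => h1
  refine ⟨_, DT ι0 M fun t => ∑ σ, G0 t σ, Cl.avg hpa fun a => (hR a).1.series hs0 hs (hR a).2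
    (c := fun n => (nxt (M.ks.map Prod.fst))⁻¹ * (1 / (n + 1))) (fun n => by positivity)
    (φ := fun z => (nxt (M.ks.map Prod.fst))⁻¹ * -log (1 - z)) (fun z hz => ?_), fun S ω => ?_⟩
  · have := (Real.hasSum_pow_div_log_of_abs_lt_one hz).mul_left (nxt (M.ks.map Prod.fst))⁻¹
    simpa only [mul_assoc, one_div_mul_eq_div] using this
  · have hw := (pr_prod (ι := Fin K) fun _ => h1).2
    simp only [sub_sub_cancel, log_exp, ← mul_neg, inv_mul_cancel_left₀ hmu.ne', neg_sub, red,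
      av_eq]
    rw [← one_mul (DT ι0 M _), ← (pr_unif (Fin K → V)).2, sum_mul, ← sum_sub_distrib]
    refine sum_congr rfl fun i _ => ?_
    rw [← mul_sub]
    congr 1
    simp only [mul_sub, sum_sub_distrib, ← sum_mul, hw, one_mul, DT, EP]
    rw [sum_split (ι0 := ι0), sum_comm]
    congr 1
    refine sum_congr rfl fun w _ => ?_
    rw [mul_sum]
    refine sum_congr rfl fun a _ => ?_
    rw [Fintype.prod_sum_type]
    simp only [Sum.elim_inl, Sum.elim_inr, mul_assoc]

omit [DecidableEq V] in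
lemma av_coord [Nonempty V] (F : V → ℝ) (l : Fin K) :
    av (fun i : Fin K → V => F (i l)) = av F := by
  have h := av_pi (K := K) fun j v => if j = l then F v else 1
  simp only [prod_ite_eq', mem_univ, if_true] at h
  rw [h, prod_eq_single l (fun j _ hj => ?_) (by simp)]
  · simp
  · simp [hj, av]

end Pos1

open Pos1 in
theorem ps1Stmt (hB : BApi) : Ps1Stmt := by
  intro K Ω _ P _ b f s hK h1 hs hb hf hbs hf1 hI hid hbI hm A ι V _ _ _ _ _ _ M G e hM hG
  classical
  obtain ⟨ω0⟩ : Nonempty Ω := nonempty_of_isProbabilityMeasure P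
  have hs0 : 0 ≤ s := (abs_nonneg _).trans (hbs ω0)
  let φ : Fin K ⊕ ((Set.range e)ᶜ : Set ι) ≃ ι :=
    (Equiv.sumCongr (Equiv.ofInjective e hG.1) (Equiv.refl _)).trans (Equiv.Set.sumCompl _)
  have φ1 : ∀ j, φ.symm (e j) = Sum.inl j := fun j => φ.symm_apply_eq.2 rfl
  have φ2 : ∀ j (h : j ∉ Set.range e), φ.symm j = Sum.inr ⟨j, h⟩ := fun j h =>
    φ.symm_apply_eq.2 rfl
  obtain ⟨D, c, hD, hred⟩ := core (K := K) (b := b) (f := f) hs0 hs hbs hf1
    (G0 := fun t => G fun k => Sum.elim (fun _ => true) t (φ.symm k)) (fun t σ => hG.2.1 _ _) hM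
  have hpos : ∀ ω (σ : Fin K → Bool), 0 < 1 + b ω * ∏ j, f j ω (σ j) := by
    intro ω σ
    have h2 : |b ω * ∏ j, f j ω (σ j)| ≤ s := by
      rw [abs_mul, abs_prod]
      exact (mul_le_of_le_one_right (abs_nonneg _) (prod_le_one (fun _ _ => abs_nonneg _)
        fun j _ => hf1 _ _ _)).trans (hbs ω)
    linarith [(abs_le.1 h2).1]
  have hW : ∀ S ω (i : Fin K → V), DT _ M (Wn b f
      (fun t => G fun k => Sum.elim (fun _ => true) t (φ.symm k)) S ω i) =
      DT ι M fun t => ∑ σ : V → Bool, G t σ *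
        exp (log (1 + b ω * ∏ j, f j ω (if S j then σ (i j) else t (e j)))) := by
    intro S ω i
    rw [← hB.emb ι _ M φ.symm _ hM φ.symm.injective fun t =>
      sum_pos (fun σ _ => mul_pos (hG.2.1 t σ) (exp_pos _)) univ_nonempty]
    congr 1
    funext t
    refine sum_congr rfl fun σ _ => ?_
    rw [exp_log (hpos ω _), hG.2.2 (fun k => t (φ.symm k)) (fun k => Sum.elim (fun _ => true)
      (fun j => t (Sum.inr j)) (φ.symm k)) fun j hj => by rw [φ2 j hj]; rfl]
    simp only [φ1]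
  have hL : ∀ ω, stepF M G e (fun σ => log (1 + b ω * ∏ j, f j ω (σ j))) = -Lam M.ini D ω := by
    intro ω
    have : Nonempty (Fin K) := ⟨⟨0, h1⟩⟩
    have hK0 : (K : ℝ) ≠ 0 := by positivity
    have a1 : ∀ (α : Type) [Fintype α] [Nonempty α] (u : ℝ), av (fun _ : α => u) = u := by
      intro α _ _ u
      rw [av_eq, ← sum_mul, (pr_unif α).2, one_mul]
    have a2 : ∀ u : Fin K → ℝ, av (fun l => c - u l) = c - av u := by
      intro u
      rw [← a1 (Fin K) c]
      simp only [av, sum_sub_distrib, sub_div]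
      rw [← av, ← av, a1, a1]
    have a3 : ∀ l : Fin K, av (fun v : V => DT ι M (Wcav G e
        (fun σ => log (1 + b ω * ∏ j, f j ω (σ j))) l v)) = av fun i : Fin K → V =>
        DT ι M fun t => ∑ σ : V → Bool, G t σ *
          exp (log (1 + b ω * ∏ j, f j ω (if decide (j = l) then σ (i j) else t (e j)))) := by
      intro l
      rw [← av_coord _ l]
      congr 1
      funext i
      congr 1
      funext t
      refine sum_congr rfl fun σ _ => ?_
      congr 5
      funext j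
      by_cases h : j = l
      · subst h; simp
      · simp [h]
    simp only [Lam, hred, hW, a2, stepF, a3, if_true, Bool.false_eq_true, if_false, a1]
    unfold Wsite Wmsg
    field_simp
    ring
  change ∫ ω, stepF M G e (fun σ => log (1 + b ω * ∏ j, f j ω (σ j))) ∂P ≤ 0
  simp only [hL]
  rw [integral_neg, neg_nonpos]
  by_cases hi : Integrable (Lam M.ini D) P
  swap
  · rw [integral_undef hi]
  refine le_of_forall_pos_le_add fun ε hε => ?_
  obtain ⟨D', h2, h3⟩ := hD (ε / 2) (by linarith)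
  obtain ⟨h4, h5⟩ := h2.pos hK h1 hb hf (fun ω => (hbs ω).trans hs.le) hf1 hI hid hbI hm hM.1
  refine h5.trans ((integral_mono h4 (hi.add (integrable_const (2 * (ε / 2))))
    fun ω => Lam_sub h1 hM.1 h3 ω).trans (le_of_eq ?_))
  rw [integral_add' hi (integrable_const _)]
  simp
  ring

end

end Vale.Agent.P168
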