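import Vale.Agent.P168.Stm

/-! P168, module Pos1, first part: the positive cone of replica expansions. -/

namespace Vale.Agent.P168.Pos1

open MeasureTheory Finset Real Filter Topology

noncomputable section

/-- families indexed by scenario, sample, sites and message states -/
abbrev Fm (K : ℕ) (Ω V A : Type) : Type :=
  (Fin K → Bool) → Ω → (Fin K → V) → (Fin K → A) → ℝ

variable {K : ℕ} {Ω V A : Type} {b : Ω → ℝ} {f : Fin K → Ω → Bool → ℝ}

def gen (b : Ω → ℝ) (f : Fin K → Ω → Bool → ℝ) (n : ℕ) (g : (Bool → ℝ) → V → ℝ)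
    (g' : (Bool → ℝ) → A → ℝ) : Fm K Ω V A := fun S ω i w =>
  (-b ω) ^ (n + 1) * ∏ j, if S j then g (f j ω) (i j) else g' (f j ω) (w j)

inductive Cn (b : Ω → ℝ) (f : Fin K → Ω → Bool → ℝ) : Fm K Ω V A → Prop
  | zero : Cn b f fun _ _ _ _ => 0
  | gen (c : ℝ) (n : ℕ) (g : (Bool → ℝ) → V → ℝ) (g' : (Bool → ℝ) → A → ℝ) : 0 ≤ c →
      (∀ v, Continuous fun φ => g φ v) → (∀ a, Continuous fun φ => g' φ a) →
      Cn b f fun S ω i w => c * gen b f n g g' S ω i w
  | add {D D' : Fm K Ω V A} : Cn b f D → Cn b f D' →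
      Cn b f fun S ω i w => D S ω i w + D' S ω i w

lemma Cn.congr {D D' : Fm K Ω V A} (h : Cn b f D) (e : ∀ S ω i w, D' S ω i w = D S ω i w) :
    Cn b f D' := by
  have : D' = D := by funext S ω i w; exact e S ω i w
  rwa [this]

lemma Cn.smul {D : Fm K Ω V A} (h : Cn b f D) {c : ℝ} (hc : 0 ≤ c) :
    Cn b f fun S ω i w => c * D S ω i w := by
  induction h with
  | zero => exact Cn.zero.congr (by simp)
  | gen c' n g g' h1 h2 h3 =>
    exact (Cn.gen (c * c') n g g' (mul_nonneg hc h1) h2 h3).congr (by intros; ring)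
  | add _ _ h1 h2 => exact (h1.add h2).congr (by intros; ring)

lemma Cn.sum {α : Type} (s : Finset α) {D : α → Fm K Ω V A} (h : ∀ x ∈ s, Cn b f (D x)) :
    Cn b f fun S ω i w => ∑ x ∈ s, D x S ω i w := by
  classical
  induction s using Finset.induction_on with
  | empty => exact Cn.zero.congr (by simp)
  | insert a s ha ih =>
    exact ((h a (mem_insert_self _ _)).add (ih fun x hx => h x (mem_insert_of_mem hx))).congr
      (by intros; rw [sum_insert ha])

lemma Cn.mul {D D' : Fm K Ω V A} (h : Cn b f D) (h' : Cn b f D') :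
    Cn b f fun S ω i w => D S ω i w * D' S ω i w := by
  induction h with
  | zero => exact Cn.zero.congr (by simp)
  | add _ _ h1 h2 => exact (h1.add h2).congr (by intros; ring)
  | gen c n g g' h1 h2 h3 =>
    induction h' with
    | zero => exact Cn.zero.congr (by simp)
    | add _ _ h4 h5 => exact (h4.add h5).congr (by intros; ring)
    | gen c2 n2 g2 g2' h4 h5 h6 =>
      refine (Cn.gen (c * c2) (n + n2 + 1) (fun φ v => g φ v * g2 φ v)
        (fun φ a => g' φ a * g2' φ a) (mul_nonneg h1 h4) (fun v => (h2 v).mul (h5 v))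
        (fun a => (h3 a).mul (h6 a))).congr fun S ω i w => ?_
      unfold Pos1.gen
      have e : (∏ j, if S j then g (f j ω) (i j) * g2 (f j ω) (i j)
          else g' (f j ω) (w j) * g2' (f j ω) (w j)) =
          (∏ j, if S j then g (f j ω) (i j) else g' (f j ω) (w j)) *
            ∏ j, if S j then g2 (f j ω) (i j) else g2' (f j ω) (w j) := by
        rw [← prod_mul_distrib]
        exact prod_congr rfl fun j _ => by split_ifs <;> rfl
      rw [e]; ring

lemma Cn.pow {D : Fm K Ω V A} (h : Cn b f D) (n : ℕ) :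
    Cn b f fun S ω i w => D S ω i w ^ (n + 1) := by
  induction n with
  | zero => exact h.congr (by simp)
  | succ n ih => exact (ih.mul h).congr (by intros; ring)

variable [Fintype A]

lemma Cn.ker {D : Fm K Ω V A} (h : Cn b f D) {k : A → A → ℝ} (hk : ∀ a, Pr (k a)) :
    Cn b f fun S ω i w => ∑ w' : Fin K → A, (∏ j, k (w j) (w' j)) * D S ω i w' := by
  induction h with
  | zero => exact Cn.zero.congr (by simp)
  | add _ _ h1 h2 => exact (h1.add h2).congr (by intros; simp [mul_add, sum_add_distrib])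
  | gen c n g g' h1 h2 h3 =>
    refine (Cn.gen c n g (fun φ a => ∑ a', k a a' * g' φ a') h1 h2
      (fun a => by fun_prop)).congr fun S ω i w => ?_
    unfold Pos1.gen
    have e : (∏ j, if S j then g (f j ω) (i j) else ∑ a', k (w j) a' * g' (f j ω) a') =
        ∏ j, ∑ a', k (w j) a' * if S j then g (f j ω) (i j) else g' (f j ω) a' := by
      refine prod_congr rfl fun j _ => ?_
      split_ifs
      · rw [← sum_mul, (hk (w j)).2, one_mul]
      · rfl
    rw [e, Fintype.prod_sum, mul_sum, mul_sum]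
    refine sum_congr rfl fun w' _ => ?_
    rw [prod_mul_distrib]; ring

omit [Fintype A] in
/-- uniform limits of the cone -/
def Cl (b : Ω → ℝ) (f : Fin K → Ω → Bool → ℝ) (D : Fm K Ω V A) : Prop :=
  ∀ ε : ℝ, 0 < ε → ∃ D' : Fm K Ω V A, Cn b f D' ∧ ∀ S ω i w, |D S ω i w - D' S ω i w| ≤ ε

omit [Fintype A] in
lemma Cn.cl {D : Fm K Ω V A} (h : Cn b f D) : Cl b f D :=
  fun _ hε => ⟨D, h, by simp [hε.le]⟩

omit [Fintype A] in
lemma Cl.congr {D D' : Fm K Ω V A} (h : Cl b f D) (e : ∀ S ω i w, D' S ω i w = D S ω i w) :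
    Cl b f D' := by
  have : D' = D := by funext S ω i w; exact e S ω i w
  rwa [this]

omit [Fintype A] in
lemma avg_le {α : Type} [Fintype α] {t : α → ℝ} (ht : Pr t) {u : α → ℝ} {ε : ℝ}
    (h : ∀ x, |u x| ≤ ε) : |∑ x, t x * u x| ≤ ε := by
  refine (abs_sum_le_sum_abs _ _).trans ?_
  calc _ ≤ ∑ x, t x * ε := sum_le_sum fun x _ => by
        rw [abs_mul, abs_of_nonneg (ht.1 x)]; exact mul_le_mul_of_nonneg_left (h x) (ht.1 x)
    _ = ε := by rw [← sum_mul, ht.2, one_mul]

omit [Fintype A] in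
lemma Cl.avg {α : Type} [Fintype α] {t : α → ℝ} (ht : Pr t) {D : α → Fm K Ω V A}
    (h : ∀ x, Cl b f (D x)) : Cl b f fun S ω i w => ∑ x, t x * D x S ω i w := by
  intro ε hε
  choose D' h1 h2 using fun x => h x ε hε
  refine ⟨_, Cn.sum univ fun x _ => (h1 x).smul (ht.1 x), fun S ω i w => ?_⟩
  rw [← sum_sub_distrib]
  simp only [← mul_sub]
  exact avg_le ht fun x => h2 x S ω i w

lemma pr_prod {ι : Type} [Fintype ι] [DecidableEq ι] {p : ι → A → ℝ} (h : ∀ j, Pr (p j)) :
    Pr fun w : ι → A => ∏ j, p j (w j) :=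
  ⟨fun w => prod_nonneg fun j _ => (h j).1 _, by
    rw [← Fintype.prod_sum]; exact prod_eq_one fun j _ => (h j).2⟩

lemma Cl.ker {D : Fm K Ω V A} (h : Cl b f D) {k : A → A → ℝ} (hk : ∀ a, Pr (k a)) :
    Cl b f fun S ω i w => ∑ w' : Fin K → A, (∏ j, k (w j) (w' j)) * D S ω i w' := by
  intro ε hε
  obtain ⟨D', h1, h2⟩ := h ε hε
  refine ⟨_, h1.ker hk, fun S ω i w => ?_⟩
  rw [← sum_sub_distrib]
  simp only [← mul_sub]
  exact avg_le (pr_prod fun j => hk (w j)) fun w' => h2 S ω i w'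

omit [Fintype A] in
lemma Cl.series {D : Fm K Ω V A} (h : Cl b f D) {s : ℝ} (hs0 : 0 ≤ s) (hs : s < 1)
    (hD : ∀ S ω i w, |D S ω i w| ≤ s) {c : ℕ → ℝ} (hc : ∀ n, 0 ≤ c n) {φ : ℝ → ℝ}
    (hφ : ∀ z, |z| < 1 → HasSum (fun n => c n * z ^ (n + 1)) (φ z)) :
    Cl b f fun S ω i w => φ (D S ω i w) := by
  intro ε hε
  have h1 := hφ s (by rwa [abs_of_nonneg hs0])
  obtain ⟨N, hN⟩ : ∃ N, φ s - ∑ n ∈ range N, c n * s ^ (n + 1) ≤ ε / 2 := by
    obtain ⟨N, hN⟩ := (h1.tendsto_sum_nat.eventually (lt_mem_nhds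
      (show φ s - ε / 2 < φ s by linarith))).exists
    exact ⟨N, by linarith⟩
  have hu : UniformContinuousOn (fun z : ℝ => ∑ n ∈ range N, c n * z ^ (n + 1))
      (Set.Icc (-2) 2) := isCompact_Icc.uniformContinuousOn_of_continuous (by fun_prop)
  obtain ⟨δ, hδ, hδ2⟩ := Metric.uniformContinuousOn_iff_le.1 hu (ε / 2) (by linarith)
  obtain ⟨D', h2, h3⟩ := h (min δ 1) (by positivity)
  refine ⟨_, Cn.sum (range N) fun n _ => (h2.pow n).smul (hc n), fun S ω i w => ?_⟩
  have a1 := abs_le.1 (hD S ω i w)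
  have a2 := abs_le.1 ((h3 S ω i w).trans (min_le_right _ _))
  have a3 := hδ2 (D S ω i w) ⟨by linarith, by linarith⟩ (D' S ω i w) ⟨by linarith, by linarith⟩
    ((h3 S ω i w).trans (min_le_left _ _))
  have a4 : ‖φ (D S ω i w) - ∑ n ∈ range N, c n * D S ω i w ^ (n + 1)‖ ≤
      φ s - ∑ n ∈ range N, c n * s ^ (n + 1) := by
    refine ((hasSum_nat_add_iff' N).2 (hφ _ ((hD S ω i w).trans_lt hs))).norm_le_of_bounded
      ((hasSum_nat_add_iff' N).2 h1) fun n => ?_
    rw [Real.norm_eq_abs, abs_mul, abs_of_nonneg (hc _), abs_pow]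
    exact mul_le_mul_of_nonneg_left (pow_le_pow_left₀ (abs_nonneg _) (hD S ω i w) _) (hc _)
  rw [Real.dist_eq] at a3
  rw [Real.norm_eq_abs] at a4
  linarith [abs_sub_le (φ (D S ω i w)) (∑ n ∈ range N, c n * D S ω i w ^ (n + 1))
    (∑ n ∈ range N, c n * D' S ω i w ^ (n + 1))]

lemma choose_succ' (a : ℝ) (n : ℕ) :
    Ring.choose a (n + 1) = Ring.choose a n * ((a - n) / (n + 1)) := by
  rw [Ring.choose_eq_smul, Ring.choose_eq_smul, descPochhammer_succ_right, Polynomial.smeval_mul,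
    Polynomial.smeval_sub, Polynomial.smeval_X, Polynomial.smeval_natCast, Nat.factorial_succ]
  have : (n.factorial : ℝ) ≠ 0 := by exact_mod_cast n.factorial_ne_zero
  simp only [smul_eq_mul, pow_one, pow_zero, nsmul_eq_mul, mul_one]
  push_cast
  field_simp

lemma binom {θ : ℝ} (h0 : 0 ≤ θ) (h1 : θ ≤ 1) : ∃ c : ℕ → ℝ, (∀ n, 0 ≤ c n) ∧
    ∀ z : ℝ, |z| < 1 → HasSum (fun n => c n * z ^ (n + 1)) (1 - (1 - z) ^ θ) := by
  have key : ∀ n : ℕ, 0 ≤ (-1) ^ n * Ring.choose θ (n + 1) := by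
    intro n
    induction n with
    | zero => simpa using h0
    | succ n ih =>
      rw [choose_succ', pow_succ]
      have h2 : 0 ≤ -((θ - (n + 1 : ℕ)) / ((n + 1 : ℕ) + 1)) := by
        rw [← neg_div]
        refine div_nonneg ?_ (by positivity)
        push_cast
        linarith [Nat.cast_nonneg (α := ℝ) n]
      nlinarith [mul_nonneg ih h2]
  refine ⟨fun n => (-1) ^ n * Ring.choose θ (n + 1), key, fun z hz => ?_⟩
  have h2 := (one_add_rpow_hasFPowerSeriesOnBall_zero (a := θ)).hasSum (y := -z)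
    (by simpa [enorm_eq_nnnorm, ← NNReal.coe_lt_coe] using hz)
  simp only [binomialSeries_apply, List.ofFn_const, List.prod_replicate, smul_eq_mul,
    zero_add] at h2
  have h4 := ((hasSum_nat_add_iff' 1).2 h2).neg
  simp only [range_one, sum_singleton, Ring.choose_zero_right, pow_zero, mul_one, neg_sub] at h4
  rw [← sub_eq_add_neg] at h4
  have e : (fun n : ℕ => (-1) ^ n * Ring.choose θ (n + 1) * z ^ (n + 1)) =
      fun n : ℕ => -(Ring.choose θ (n + 1) * (-z) ^ (n + 1)) := by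
    funext n; rw [neg_pow z]; ring
  rwa [e]

variable [Fintype V]

/-- average over sites and initial message states -/
def red (ini : A → ℝ) (D : Fm K Ω V A) (S : Fin K → Bool) (ω : Ω) : ℝ :=
  av fun i : Fin K → V => ∑ w : Fin K → A, (∏ j, ini (w j)) * D S ω i w

/-- the linear functional -/
def Lam (ini : A → ℝ) (D : Fm K Ω V A) (ω : Ω) : ℝ :=
  (K : ℝ)⁻¹ * red ini D (fun _ => true) ω + ((K : ℝ) - 1) / K * red ini D (fun _ => false) ω -
    av fun l : Fin K => red ini D (fun j => decide (j = l)) ω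

lemma av_eq {α : Type} [Fintype α] (F : α → ℝ) :
    av F = ∑ x, (Fintype.card α : ℝ)⁻¹ * F x := by
  rw [av, ← mul_sum, div_eq_inv_mul]

lemma pr_unif (α : Type) [Fintype α] [Nonempty α] : Pr fun _ : α => (Fintype.card α : ℝ)⁻¹ :=
  ⟨fun _ => by positivity, by simp⟩

lemma av_pi (F : Fin K → V → ℝ) : av (fun i : Fin K → V => ∏ j, F j (i j)) = ∏ j, av (F j) := by
  simp only [av]
  rw [prod_div_distrib, Fintype.prod_sum]
  simp

lemma red_gen [Nonempty V] {ini : A → ℝ} (hi : Pr ini) (c : ℝ) (n : ℕ) (g : (Bool → ℝ) → V → ℝ)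
    (g' : (Bool → ℝ) → A → ℝ) (S : Fin K → Bool) (ω : Ω) :
    red ini (fun S ω i w => c * gen b f n g g' S ω i w) S ω =
      c * ((-b ω) ^ (n + 1) * ∏ j, if S j then av (g (f j ω)) else ∑ a, ini a * g' (f j ω) a) := by
  have e1 : ∀ i : Fin K → V, ∑ w : Fin K → A, (∏ j, ini (w j)) * (c * gen b f n g g' S ω i w) =
      c * (-b ω) ^ (n + 1) *
        ∏ j, if S j then g (f j ω) (i j) else ∑ a, ini a * g' (f j ω) a := by
    intro i
    have e : (∏ j, if S j then g (f j ω) (i j) else ∑ a, ini a * g' (f j ω) a) =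
        ∏ j, ∑ a, ini a * if S j then g (f j ω) (i j) else g' (f j ω) a := by
      refine prod_congr rfl fun j _ => ?_
      split_ifs
      · rw [← sum_mul, hi.2, one_mul]
      · rfl
    rw [e, Fintype.prod_sum, mul_sum]
    refine sum_congr rfl fun w _ => ?_
    unfold Pos1.gen
    rw [prod_mul_distrib]; ring
  have e2 : (∏ j, if S j then av (g (f j ω)) else ∑ a, ini a * g' (f j ω) a) =
      ∏ j, av fun v => if S j then g (f j ω) v else ∑ a, ini a * g' (f j ω) a := by
    refine prod_congr rfl fun j _ => ?_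
    split_ifs
    · rfl
    · rw [av_eq, ← sum_mul, (pr_unif V).2, one_mul]
  unfold red
  simp only [e1]
  rw [e2, ← av_pi, av_eq, av_eq, mul_sum, mul_sum]
  exact sum_congr rfl fun i _ => by ring

lemma red_add (ini : A → ℝ) (D D' : Fm K Ω V A) (S : Fin K → Bool) (ω : Ω) :
    red ini (fun S ω i w => D S ω i w + D' S ω i w) S ω = red ini D S ω + red ini D' S ω := by
  simp only [red, av, mul_add, sum_add_distrib, add_div]

lemma red_sub [Nonempty V] {ini : A → ℝ} (hi : Pr ini) {D D' : Fm K Ω V A} {ε : ℝ}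
    (h : ∀ S ω i w, |D S ω i w - D' S ω i w| ≤ ε) (S : Fin K → Bool) (ω : Ω) :
    |red ini D S ω - red ini D' S ω| ≤ ε := by
  simp only [red, av_eq, ← sum_sub_distrib, ← mul_sub]
  exact avg_le (pr_unif _) fun i => avg_le (pr_prod fun _ => hi) fun w => h S ω i w

lemma Lam_sub [Nonempty V] (hK : 1 ≤ K) {ini : A → ℝ} (hi : Pr ini) {D D' : Fm K Ω V A} {ε : ℝ}
    (h : ∀ S ω i w, |D S ω i w - D' S ω i w| ≤ ε) (ω : Ω) :
    Lam ini D' ω ≤ Lam ini D ω + 2 * ε := by
  have : Nonempty (Fin K) := ⟨⟨0, hK⟩⟩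
  have hK1 : (1 : ℝ) ≤ K := by exact_mod_cast hK
  have h1 := (abs_le.1 (red_sub hi h (fun _ => true) ω)).1
  have h2 := (abs_le.1 (red_sub hi h (fun _ => false) ω)).1
  have h3 := (abs_le.1 (avg_le (pr_unif (Fin K)) fun l =>
    red_sub hi h (fun j => decide (j = l)) ω)).2
  simp only [mul_sub, sum_sub_distrib, ← av_eq] at h3
  have h4 : (0 : ℝ) ≤ (K : ℝ)⁻¹ := by positivity
  have h5 : (0 : ℝ) ≤ ((K : ℝ) - 1) / K := div_nonneg (by linarith) (by linarith)
  have h6 : (K : ℝ)⁻¹ + ((K : ℝ) - 1) / K = 1 := by field_simp; ring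
  have h7 := mul_le_mul_of_nonneg_left h1 h4
  have h8 := mul_le_mul_of_nonneg_left h2 h5
  have h9 : (K : ℝ)⁻¹ * ε + ((K : ℝ) - 1) / K * ε = ε := by rw [← add_mul, h6, one_mul]
  unfold Lam
  linarith

lemma conv {K : ℕ} (hK : Even K) (h1 : 1 ≤ K) (α γ : ℝ) :
    0 ≤ (K : ℝ)⁻¹ * α ^ K + ((K : ℝ) - 1) / K * γ ^ K - α * γ ^ (K - 1) := by
  have hK1 : (1 : ℝ) ≤ K := by exact_mod_cast h1
  have h2 := pow_add_mul_le_add_pow (a := |γ|) (b := |α| - |γ|) (abs_nonneg _)
    (by linarith [abs_nonneg α, abs_nonneg γ]) K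
  rw [add_sub_cancel, hK.pow_abs, hK.pow_abs] at h2
  have h3 : |γ| ^ (K - 1) * |γ| = γ ^ K := by
    rw [← pow_succ, Nat.sub_add_cancel h1, hK.pow_abs]
  have h4 : α * γ ^ (K - 1) ≤ |γ| ^ (K - 1) * |α| := by
    rw [← abs_pow, ← abs_mul, mul_comm]; exact le_abs_self _
  have e : (K : ℝ)⁻¹ * α ^ K + ((K : ℝ) - 1) / K * γ ^ K - α * γ ^ (K - 1) =
      (α ^ K + (K - 1) * γ ^ K - K * (α * γ ^ (K - 1))) / K := by field_simp
  rw [e]
  refine div_nonneg ?_ (by linarith)
  nlinarith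

section Prob

variable [MeasurableSpace Ω] {P : Measure Ω} [IsProbabilityMeasure P] {s : ℝ}

omit [Fintype A] [Fintype V] in
lemma term_int (hb : Measurable b) (hf : ∀ j, Measurable (f j)) (hbs : ∀ ω, |b ω| ≤ 1)
    (hf1 : ∀ j ω t, |f j ω t| ≤ 1) (hI : ProbabilityTheory.iIndepFun f P)
    (hbI : ProbabilityTheory.IndepFun b (fun ω j => f j ω) P) (n : ℕ)
    {h : Fin K → (Bool → ℝ) → ℝ} (hh : ∀ j, Continuous (h j)) :
    Integrable (fun ω => (-b ω) ^ n * ∏ j, h j (f j ω)) P ∧
      ∫ ω, (-b ω) ^ n * ∏ j, h j (f j ω) ∂P = (∫ ω, (-b ω) ^ n ∂P) * ∏ j, ∫ ω, h j (f j ω) ∂P := by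
  have hm : ∀ j, Measurable (h j) := fun j => (hh j).measurable
  constructor
  · choose C hC using fun j => (isCompact_closedBall (0 : Bool → ℝ) 1).exists_bound_of_continuousOn
      (hh j).continuousOn
    refine Integrable.of_bound (C := ∏ j, C j) (Measurable.aestronglyMeasurable (by fun_prop))
      (Eventually.of_forall fun ω => ?_)
    rw [norm_mul, norm_pow, norm_neg, norm_prod]
    refine (mul_le_of_le_one_left (by positivity) (pow_le_one₀ (norm_nonneg _) (hbs ω))).trans ?_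
    refine prod_le_prod (fun j _ => norm_nonneg _) fun j _ => hC j _ ?_
    rw [mem_closedBall_zero_iff, pi_norm_le_iff_of_nonneg zero_le_one]
    exact hf1 j ω
  · rw [← hI.integral_fun_prod_comp (fun j => (hf j).aemeasurable)
      (fun j => (hm j).aestronglyMeasurable)]
    exact hbI.integral_fun_comp_mul_comp (f := fun x : ℝ => (-x) ^ n)
      (g := fun F : Fin K → Bool → ℝ => ∏ j, h j (F j)) hb.aemeasurable
      (measurable_pi_lambda _ hf).aemeasurable (Measurable.aestronglyMeasurable (by fun_prop))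
      (Measurable.aestronglyMeasurable (by fun_prop))

lemma Cn.pos [Nonempty V] (hK : Even K) (h1 : 1 ≤ K) (hb : Measurable b)
    (hf : ∀ j, Measurable (f j)) (hbs : ∀ ω, |b ω| ≤ 1)
    (hf1 : ∀ j ω t, |f j ω t| ≤ 1) (hI : ProbabilityTheory.iIndepFun f P)
    (hid : ∀ j j', ProbabilityTheory.IdentDistrib (f j) (f j') P P)
    (hbI : ProbabilityTheory.IndepFun b (fun ω j => f j ω) P)
    (hm : ∀ n : ℕ, 1 ≤ n → 0 ≤ ∫ ω, (-b ω) ^ n ∂P) {ini : A → ℝ} (hi : Pr ini)
    {D : Fm K Ω V A} (h : Cn b f D) : Integrable (Lam ini D) P ∧ 0 ≤ ∫ ω, Lam ini D ω ∂P := by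
  induction h with
  | zero =>
    have e : Lam ini (fun _ _ _ _ => 0 : Fm K Ω V A) = fun _ => 0 := by
      funext ω; simp [Lam, red, av]
    rw [e]; simp
  | @add D D' _ _ h2 h3 =>
    have e : Lam ini (fun S ω i w => D S ω i w + D' S ω i w) =
        fun ω => Lam ini D ω + Lam ini D' ω := by
      funext ω
      simp only [Lam, red_add, av, sum_add_distrib, add_div]; ring
    rw [e, integral_add h2.1 h3.1]
    exact ⟨h2.1.add h3.1, add_nonneg h2.2 h3.2⟩
  | gen c n g g' h2 h3 h4 =>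
    have j0 : Fin K := ⟨0, h1⟩
    set al := ∫ ω, av (g (f j0 ω)) ∂P with hal
    set ga := ∫ ω, ∑ a, ini a * g' (f j0 ω) a ∂P with hga
    have c1 : Continuous fun φ => av (g φ) := by unfold av; fun_prop
    have c2 : Continuous fun φ => ∑ a, ini a * g' φ a := by fun_prop
    have key : ∀ S : Fin K → Bool,
        Integrable (red ini (fun S ω i w => c * Pos1.gen b f n g g' S ω i w) S) P ∧
        ∫ ω, red ini (fun S ω i w => c * Pos1.gen b f n g g' S ω i w) S ω ∂P =
          c * ((∫ ω, (-b ω) ^ (n + 1) ∂P) * ∏ j, if S j then al else ga) := by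
      intro S
      obtain ⟨i1, i2⟩ := term_int hb hf hbs hf1 hI hbI (n + 1)
        (h := fun j φ => if S j then av (g φ) else ∑ a, ini a * g' φ a)
        (fun j => by split_ifs <;> assumption)
      rw [funext (red_gen hi c n g g' S)]
      refine ⟨i1.const_mul c, ?_⟩
      rw [integral_const_mul, i2]
      congr 2
      refine prod_congr rfl fun j _ => ?_
      split_ifs
      · exact ((hid j j0).comp c1.measurable).integral_eq
      · exact ((hid j j0).comp c2.measurable).integral_eq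
    have i3 : Integrable (fun ω => av fun l : Fin K => red ini
        (fun S ω i w => c * Pos1.gen b f n g g' S ω i w) (fun j => decide (j = l)) ω) P :=
      (integrable_finsetSum _ fun l _ => (key _).1).div_const _
    have i1 := (key fun _ => true).1.const_mul (K : ℝ)⁻¹
    have i2 := (key fun _ => false).1.const_mul (((K : ℝ) - 1) / K)
    refine ⟨(i1.add i2).sub i3, ?_⟩
    unfold Lam
    rw [integral_sub (by exact i1.add i2) i3, integral_add i1 i2, integral_const_mul, integral_const_mul,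
      (key _).2, (key _).2]
    unfold av
    rw [integral_div, integral_finsetSum _ fun l _ => (key _).1]
    have e3 : ∀ l : Fin K, (∏ j : Fin K, if decide (j = l) then al else ga) = al * ga ^ (K - 1) := by
      intro l
      rw [← mul_prod_erase univ _ (mem_univ l), prod_congr rfl
        (g := fun _ => ga) fun j hj => by simp [ne_of_mem_erase hj]]
      simp
    simp only [(key _).2, e3]
    have hK0 : (K : ℝ) ≠ 0 := by positivity
    have h5 := mul_nonneg h2 (mul_nonneg (hm (n + 1) (by omega)) (conv hK h1 al ga))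
    refine h5.trans (le_of_eq ?_)
    simp only [if_true, Bool.false_eq_true, if_false, prod_const, card_univ, Fintype.card_fin,
      sum_const, nsmul_eq_mul]
    field_simp

end Prob

end

end Vale.Agent.P168.Pos1
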