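import Vale.Agent.P168.Stm

namespace Vale.Agent.P168

open MeasureTheory Finset Real Filter Topology

theorem P2.logmono {z z0 s : ℝ} (hz : |z| < 1) (hz0 : |z0| < 1) (hs0 : 0 ≤ s) (hs : s ≤ 1) :
    |log (1 + s * z) - log (1 + s * z0)| ≤ |log (1 + z) - log (1 + z0)| := by
  have key : ∀ u v : ℝ, |u| < 1 → |v| < 1 → v ≤ u →
      |log (1 + s * u) - log (1 + s * v)| ≤ |log (1 + u) - log (1 + v)| := by
    intro u v hu hv huv
    obtain ⟨u1, u2⟩ := abs_lt.1 hu
    obtain ⟨v1, v2⟩ := abs_lt.1 hv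
    have a1 : 0 < 1 + s * u := by nlinarith
    have a2 : 0 < 1 + s * v := by nlinarith
    have a3 : 0 < 1 + u := by linarith
    have a4 : 0 < 1 + v := by linarith
    have b1 : log (1 + s * v) ≤ log (1 + s * u) := log_le_log a2 (by nlinarith)
    have b2 : log ((1 + s * u) * (1 + v)) ≤ log ((1 + u) * (1 + s * v)) :=
      log_le_log (mul_pos a1 a4) (by nlinarith)
    rw [log_mul a1.ne' a4.ne', log_mul a3.ne' a2.ne'] at b2
    rw [abs_of_nonneg (by linarith)]
    exact le_trans (by linarith) (le_abs_self _)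
  rcases le_total z0 z with h | h
  · exact key z z0 hz hz0 h
  · rw [abs_sub_comm, abs_sub_comm (log (1 + z))]; exact key z0 z hz0 hz h

theorem posStmt (hB : BApi) (h1 : Ps1Stmt) : PosStmt := by
  intro K μ he hK hμ hcl A ι V _ _ _ _ _ _ M G e hM hG
  obtain ⟨Ω, _, P, _, θ, a, b, f, hθ, -, hb, hf, rfl, hexp, ha0, hb1, hf1, hind, hid, hbf, hpos⟩ :=
    hcl
  obtain ⟨hlip, hshift, hzero⟩ := hB.step M G e hK hM hG
  set F := stepF M G e with hF
  have hFc : Continuous F := by
    refine (LipschitzWith.of_dist_le_mul (K := 2) fun x y => ?_).continuous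
    rw [Real.dist_eq, dist_eq_norm]; exact_mod_cast hlip x y
  show ∫ θ', F θ' ∂(P.map θ) ≤ 0
  rw [integral_map hθ.aemeasurable hFc.aestronglyMeasurable]
  have hz : ∀ ω (σ : Fin K → Bool), |b ω * ∏ j, f j ω (σ j)| < 1 := fun ω σ => by
    rw [abs_mul, Finset.abs_prod]
    have : ∏ j, |f j ω (σ j)| ≤ 1 := Finset.prod_le_one (fun _ _ => abs_nonneg _) fun j _ => hf1 j ω _
    calc _ ≤ |b ω| * 1 := mul_le_mul_of_nonneg_left this (abs_nonneg _)
      _ < 1 := by rw [mul_one]; exact hb1 ω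
  have hpz : ∀ ω (σ : Fin K → Bool), 0 < 1 + b ω * ∏ j, f j ω (σ j) := fun ω σ => by
    have := (abs_lt.1 (hz ω σ)).1; linarith
  have hθe : ∀ ω σ, θ ω σ = log (1 + b ω * ∏ j, f j ω (σ j)) + log (a ω) := fun ω σ => by
    rw [← log_mul (hpz ω σ).ne' (ha0 ω).ne', mul_comm, ← hexp, log_exp]
  set s : ℕ → ℝ := fun n => 1 - 1 / ((n : ℝ) + 1) with hs
  have hs0 : ∀ n, 0 ≤ s n := fun n => by
    have : 1 / ((n : ℝ) + 1) ≤ 1 := by
      rw [div_le_one (by positivity)]; linarith [Nat.cast_nonneg (α := ℝ) n]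
    simp only [hs]; linarith
  have hs1 : ∀ n, s n < 1 := fun n => by
    have : 0 < 1 / ((n : ℝ) + 1) := by positivity
    simp only [hs]; linarith
  have hsl : Tendsto s atTop (𝓝 1) := by
    have := (tendsto_const_nhds (x := (1 : ℝ))).sub tendsto_one_div_add_atTop_nhds_zero_nat
    rwa [sub_zero] at this
  have hle : ∀ n, ∫ ω, F (fun σ => log (1 + s n * b ω * ∏ j, f j ω (σ j))) ∂P ≤ 0 := fun n =>
    h1 K Ω P (fun ω => s n * b ω) f (s n) he hK (hs1 n) (hb.const_mul _) hf
      (fun ω => by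
        rw [abs_mul, abs_of_nonneg (hs0 n)]
        exact mul_le_of_le_one_right (hs0 n) (hb1 ω).le) hf1 hind hid
      (hbf.comp (measurable_const_mul (s n)) measurable_id)
      (fun k hk => by
        have : ∀ ω, (-(s n * b ω)) ^ k = s n ^ k * (-b ω) ^ k := fun ω => by
          rw [← mul_pow]; congr 1; ring
        simp only [this, integral_const_mul]
        exact mul_nonneg (pow_nonneg (hs0 n) k) (hpos k hk)) A ι V M G e hM hG
  have hint : Integrable (fun ω => 4 * ‖θ ω‖) P :=
    (((integrable_map_measure aestronglyMeasurable_id hθ.aemeasurable).1 hμ).norm).const_mul 4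
  have hlim : Tendsto (fun n => ∫ ω, F (fun σ => log (1 + s n * b ω * ∏ j, f j ω (σ j))) ∂P)
      atTop (𝓝 (∫ ω, F (θ ω) ∂P)) := by
    refine tendsto_integral_of_dominated_convergence _ (fun n => ?_) hint
      (fun n => Eventually.of_forall fun ω => ?_) (Eventually.of_forall fun ω => ?_)
    · refine (hFc.measurable.comp (measurable_pi_lambda _ fun σ => ?_)).aestronglyMeasurable
      refine Measurable.log (measurable_const.add ((hb.const_mul _).mul ?_))
      exact Finset.measurable_prod _ fun j _ => (measurable_pi_apply _).comp (hf j)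
    · set σ0 : Fin K → Bool := fun _ => true
      rw [← hshift _ (-log (1 + s n * b ω * ∏ j, f j ω (σ0 j))), Real.norm_eq_abs]
      have h2 := hlip (fun σ => log (1 + s n * b ω * ∏ j, f j ω (σ j)) +
        -log (1 + s n * b ω * ∏ j, f j ω (σ0 j))) 0
      rw [hzero, sub_zero, sub_zero] at h2
      refine h2.trans ?_
      have h3 : ‖(fun σ => log (1 + s n * b ω * ∏ j, f j ω (σ j)) +
          -log (1 + s n * b ω * ∏ j, f j ω (σ0 j)) : Clause K)‖ ≤ 2 * ‖θ ω‖ := by
        refine (pi_norm_le_iff_of_nonneg (by positivity)).2 fun σ => ?_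
        rw [Real.norm_eq_abs, ← sub_eq_add_neg, mul_assoc, mul_assoc]
        refine (P2.logmono (hz ω σ) (hz ω σ0) (hs0 n) (hs1 n).le).trans ?_
        have e1 : log (1 + b ω * ∏ j, f j ω (σ j)) - log (1 + b ω * ∏ j, f j ω (σ0 j)) =
            θ ω σ - θ ω σ0 := by rw [hθe, hθe]; ring
        rw [e1]
        have n1 := norm_le_pi_norm (θ ω) σ
        have n2 := norm_le_pi_norm (θ ω) σ0
        rw [Real.norm_eq_abs] at n1 n2
        exact (abs_sub _ _).trans (by linarith)
      linarith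
    · have e2 : F (θ ω) = F (fun σ => log (1 + 1 * b ω * ∏ j, f j ω (σ j))) := by
        rw [← hshift (fun σ => log (1 + 1 * b ω * ∏ j, f j ω (σ j))) (log (a ω))]
        congr 1; funext σ; rw [hθe, one_mul]
      rw [e2]
      refine (hFc.tendsto _).comp (tendsto_pi_nhds.2 fun σ => ?_)
      refine Tendsto.log (tendsto_const_nhds.add ((hsl.mul_const _).mul_const _)) ?_
      rw [one_mul]; exact (hpz ω σ).ne'
  exact le_of_tendsto' hlim hle

end Vale.Agent.P168
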