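import Vale.Agent.P168.Defs

/-! P168: internal definitions and module statements (proofs in notes/P168.md). -/

namespace Vale.Agent.P168

open MeasureTheory Finset Real

noncomputable section

/-! ### Finite weights -/

def Pr {A : Type} [Fintype A] (p : A → ℝ) : Prop := (∀ a, 0 ≤ p a) ∧ ∑ a, p a = 1

def PrP {A : Type} [Fintype A] (p : A → ℝ) : Prop := (∀ a, 0 < p a) ∧ ∑ a, p a = 1

def Ex {A : Type} [Fintype A] (p f : A → ℝ) : ℝ := ∑ a, p a * f a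

def EP {A : Type} [Fintype A] (p : A → ℝ) (ι : Type) [Fintype ι] [DecidableEq ι]
    (f : (ι → A) → ℝ) : ℝ := ∑ t : ι → A, (∏ i, p (t i)) * f t

/-! ### Discrete (Markov) messages -/

/-- multi-affine extension -/
def ext {ι : Type} [Fintype ι] [DecidableEq ι] (W : (ι → Bool) → ℝ) (x : ι → ℝ) : ℝ :=
  ∑ s : ι → Bool, W s * ∏ j, (1 + x j * spin (s j)) / 2

def Uw {K : ℕ} {κ : Type} [Fintype κ] (h : ℝ) (θ : κ → Clause K) (l : κ → Fin K)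
    (s : κ × Fin K → Bool) : ℝ :=
  ∑ e : Bool, exp (h * spin e + ∑ k, θ k (Function.update (fun j => s (k, j)) (l k) e))

def Vw {K : ℕ} {κ : Type} [Fintype κ] (θ : κ → Clause K) (s : κ × Fin K → Bool) : ℝ :=
  exp (∑ k, θ k (fun j => s (k, j)))

abbrev Ker (A : Type) : Type := List (ℝ × (A → A → ℝ))

/-- discrete recursion, outermost level first -/
def dc {A : Type} [Fintype A] (ι : Type) [Fintype ι] [DecidableEq ι] :
    Ker A → ((ι → A) → ℝ) → (ι → A) → ℝ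
  | [], Z, a => Z a
  | k :: ks, Z, a =>
      k.1⁻¹ * log (∑ a' : ι → A, (∏ j, k.2 (a j) (a' j)) * exp (k.1 * dc ι ks Z a'))

structure Msg (A : Type) where
  ini : A → ℝ
  ks : Ker A
  x : A → ℝ

def Msg.Ok {A : Type} [Fintype A] (M : Msg A) : Prop :=
  Pr M.ini ∧ (∀ k ∈ M.ks, ∀ a, Pr (k.2 a)) ∧ (∀ a, |M.x a| ≤ 1) ∧
    (M.ks.map Prod.fst).Pairwise (· < ·) ∧ ∀ k ∈ M.ks, 0 < k.1 ∧ k.1 < 1

def DT {A : Type} [Fintype A] (ι : Type) [Fintype ι] [DecidableEq ι] (M : Msg A)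
    (W : (ι → Bool) → ℝ) : ℝ :=
  EP M.ini ι (dc ι M.ks (fun a => log (ext W (fun j => M.x (a j)))))

/-! ### Finite models -/

structure FM (K : ℕ) (Θ Η : Type) where
  p : Θ → ℝ
  θ : Θ → Clause K
  q : Η → ℝ
  η : Η → ℝ

def FM.Ok {K : ℕ} {Θ Η : Type} [Fintype Θ] [Fintype Η] (D : FM K Θ Η) : Prop :=
  PrP D.p ∧ PrP D.q

abbrev MF (K : ℕ) : Type := (n : ℕ) → ((Fin n × Fin K → Bool) → ℝ) → ℝ

section
variable {K : ℕ} {Θ Η : Type} [Fintype Θ] [Fintype Η]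

def pressF (lam : ℝ) (D : FM K Θ Η) (N : ℕ) : ℝ :=
  (1 / (N : ℝ)) * ∑' n : ℕ, poi (lam * N) n *
    EP D.p (Fin n) fun t => EP D.q (Fin N) fun e =>
      av (fun i : Fin n → Fin K → Fin N => logZ (fun k => D.θ (t k)) i (fun v => D.η (e v)))

def uF (D : FM K Θ Η) (T : MF K) (n : ℕ) : ℝ :=
  EP D.p (Fin n) fun t => Ex D.q fun e =>
    av (fun l : Fin n → Fin K => T n (Uw (D.η e) (fun k => D.θ (t k)) l))

def vF (D : FM K Θ Η) (T : MF K) (n : ℕ) : ℝ :=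
  EP D.p (Fin n) fun t => T n (Vw (fun k => D.θ (t k)))

def trialF (lam : ℝ) (D : FM K Θ Η) (T : MF K) : ℝ :=
  ∑' n : ℕ, poi (K * lam) n * uF D T n - ∑' n : ℕ, poi ((K - 1) * lam) n * vF D T n

/-- `φ` is below every discrete trial value -/
def LowB (lam : ℝ) (D : FM K Θ Η) (φ : ℝ) : Prop :=
  ∀ (A : Type) [Fintype A] (M : Msg A), M.Ok → φ ≤ trialF lam D (fun _ W => DT _ M W)

end

/-- continuous message functional on spin weights -/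
def TC (r : ℕ) (m : Fin r → ℝ) (x : (Fin (r + 1) → unitInterval) → ℝ)
    (ι : Type) [Fintype ι] [DecidableEq ι] (W : (ι → Bool) → ℝ) : ℝ :=
  Tmsg ι r m x (ext W)

/-! ### Frozen functional on a finite test space -/

section
variable {Ξ Λ : Type} [Fintype Ξ]

open Classical in
/-- mass of the `F`-cell of `ξ` under `μ` -/
def cell (F : Ξ → Λ) (μ : Ξ → ℝ) (ξ : Ξ) : ℝ := ∑ ξ', if F ξ' = F ξ then μ ξ' else 0

def den (p : Ξ → ℝ) (F : Ξ → Λ) (μ : Ξ → ℝ) (ξ : Ξ) : ℝ := cell F μ ξ / cell F p ξ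

def cE (p : Ξ → ℝ) (F : Ξ → Λ) (f : Ξ → ℝ) : Ξ → ℝ := den p F (fun ξ' => p ξ' * f ξ')

def lse (p : Ξ → ℝ) (m : ℝ) (F : Ξ → Λ) (Z : Ξ → ℝ) (ξ : Ξ) : ℝ :=
  m⁻¹ * log (cE p F (fun ξ' => exp (m * Z ξ')) ξ)

/-- frozen functional, innermost level first -/
def SS (p : Ξ → ℝ) : List (ℝ × (Ξ → Λ)) → (Ξ → ℝ) → ℝ
  | [], Z => Ex p Z
  | k :: c, Z => SS p c (lse p k.1 k.2 Z)

def WW (p : Ξ → ℝ) : List (ℝ × (Ξ → Λ)) → (Ξ → ℝ) → Ξ → ℝ
  | [], _, _ => 1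
  | k :: c, Z, ξ => exp (k.1 * (Z ξ - lse p k.1 k.2 Z ξ)) * WW p c (lse p k.1 k.2 Z) ξ

end

def Meas {Ξ Λ α : Type} (F : Ξ → Λ) (f : Ξ → α) : Prop := ∀ ξ ξ', F ξ = F ξ' → f ξ = f ξ'

def CtxOk {Ξ Λ : Type} : ℝ → (Ξ → Λ) → List (ℝ × (Ξ → Λ)) → Prop
  | _, _, [] => True
  | M, F, k :: c => 0 < k.1 ∧ k.1 ≤ M ∧ Meas F k.2 ∧ CtxOk k.1 k.2 c

def Few {Ξ Λ : Type} (L : ℕ) (F : Ξ → Λ) : Prop := ∃ s : Finset Λ, s.card ≤ L ∧ ∀ ξ, F ξ ∈ s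

/-- clamp to `[e^{-B}, e^B]` -/
def cl (B t : ℝ) : ℝ := max (exp (-B)) (min (exp B) t)

/-! ### Cascade of perturbations -/

section
variable {S Γ : Type} [Fintype S] [Fintype Γ]

def XX (w : Γ → ℝ) (h : Γ → S → ℝ) : List ℝ → (S → ℝ) → ℝ
  | [], H => log (∑ σ, exp (H σ))
  | m :: ms, H => m⁻¹ * log (∑ γ, w γ * exp (m * XX w h ms (H + h γ)))

def gib (H : S → ℝ) (σ : S) : ℝ := exp (H σ) / ∑ σ', exp (H σ')

def tau (w : Γ → ℝ) (h : Γ → S → ℝ) (m : ℝ) (ms : List ℝ) (H : S → ℝ) (γ : Γ) : ℝ :=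
  w γ * exp (m * (XX w h ms (H + h γ) - XX w h (m :: ms) H))

/-- increment of the cascade value under the test `y` -/
def YY (w : Γ → ℝ) (h : Γ → S → ℝ) (ms : List ℝ) (H y : S → ℝ) : ℝ :=
  XX w h ms (H + y) - XX w h ms H

/-- expectation along a tilted path; the history lists the latest level first -/
def PE (w : Γ → ℝ) (h : Γ → S → ℝ) :
    List ℝ → List (ℝ × Γ) → (S → ℝ) → (List (ℝ × Γ) → S → ℝ) → ℝ
  | [], hist, H, Φ => ∑ σ, gib H σ * Φ hist σ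
  | m :: ms, hist, H, Φ => ∑ γ, tau w h m ms H γ * PE w h ms ((m, γ) :: hist) (H + h γ) Φ

end

def Hof {S Γ : Type} (h : Γ → S → ℝ) (H0 : S → ℝ) : List (ℝ × Γ) → S → ℝ
  | [] => H0
  | g :: hist => Hof h H0 hist + h g.2

def ctxOf {Γ Ξ Λ : Type} (lab : List (ℝ × Γ) → Ξ → Λ) : List (ℝ × Γ) → List (ℝ × (Ξ → Λ))
  | [] => []
  | g :: hist => (g.1, lab hist) :: ctxOf lab hist

/-- frozen value of the test family `(p, y)` along a path -/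
def frz {S Γ Ξ Λ : Type} [Fintype Ξ] (p : Ξ → ℝ) (y : Ξ → S → ℝ)
    (lab : List (ℝ × Γ) → Ξ → Λ) (hist : List (ℝ × Γ)) (σ : S) : ℝ :=
  SS p (ctxOf lab hist) (fun ξ => log (cE p (lab hist) (fun ξ' => exp (y ξ' σ)) ξ))

def nxt (ms : List ℝ) : ℝ := ms.headD 1

def Chain (Δ : ℝ) : List ℝ → Prop
  | [] => True
  | m :: ms => m ≤ nxt ms ∧ nxt ms ≤ m + Δ ∧ Chain Δ ms

def Nested {Γ Ξ Λ : Type} (lab : List (ℝ × Γ) → Ξ → Λ) : Prop :=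
  ∀ g hist, Meas (lab (g :: hist)) (lab hist)

/-! ### Slots -/

def sw {Ξ : Type} (p : Ξ → ℝ) (q : ℝ) (n : ℕ) (γ : Fin n → Option Ξ) : ℝ :=
  ∏ k, (γ k).elim (1 - q) (fun ξ => q * p ξ)

def sh {S Ξ : Type} (y : Ξ → S → ℝ) (n : ℕ) (γ : Fin n → Option Ξ) : S → ℝ :=
  fun σ => ∑ k, (γ k).elim 0 (fun ξ => y ξ σ)

open Classical in
def smu {Ξ : Type} (q : ℝ) (n : ℕ) (γ : Fin n → Option Ξ) (ξ : Ξ) : ℝ :=
  (1 - q) / (q * n) * ∑ k, if γ k = some ξ then (1 : ℝ) else 0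

/-- approximate Mecke identity for tests depending on the density at the cell -/
def AM {Ξ Λ C : Type} [Fintype Ξ] [Fintype C] (p : Ξ → ℝ) (F : Ξ → Λ) (τ : C → ℝ)
    (μ E : C → Ξ → ℝ) (δ : ℝ) : Prop :=
  ∀ (Ψ : ℝ → Ξ → ℝ) (g : ℝ), (∀ t t' ξ, |Ψ t ξ - Ψ t' ξ| ≤ g * |t - t'|) →
    (∀ t ξ, |Ψ t ξ| ≤ g) →
    |∑ c, τ c * ∑ ξ, μ c ξ * Ψ (den p F (μ c) ξ) ξ -
      ∑ c, τ c * Ex p (fun ξ => E c ξ * Ψ (den p F (μ c) ξ) ξ)| ≤ g * δ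

open Classical in
/-- approximate Mecke identity, general form (adding the test `ξ` to the mark `γ`) -/
def AMP {S Ξ Λ Γ : Type} [Fintype Ξ] [Fintype Γ] (p : Ξ → ℝ) (y : Ξ → S → ℝ) (F : Ξ → Λ)
    (τ : Γ → ℝ) (h : Γ → S → ℝ) (μ E : Γ → Ξ → ℝ) (κ δ : ℝ) : Prop :=
  ∀ (Φ Φ' : Γ → Ξ → ℝ) (g : ℝ),
    (∀ γ γ' ξ, h γ' = h γ + y ξ → (μ γ' = fun ξ' => μ γ ξ' + if ξ' = ξ then κ else 0) →
      |E γ ξ * Φ γ' ξ - Φ' γ ξ| ≤ g * (κ / cell F p ξ)) →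
    (∀ γ ξ, |Φ' γ ξ| ≤ g) →
    |∑ γ, τ γ * ∑ ξ, μ γ ξ * Φ γ ξ - ∑ γ, τ γ * Ex p (Φ' γ)| ≤ g * δ

/-- interface of one level (children `C`, exponent `m`, value `X`) -/
structure Lev {S Ξ C : Type} [Fintype Ξ] [Fintype C] (Λ : Type) (p : Ξ → ℝ) (y : Ξ → S → ℝ)
    (B δ : ℝ) (L : ℕ) (m : ℝ) (X : (S → ℝ) → ℝ) (τ : (S → ℝ) → C → ℝ) (μ : C → Ξ → ℝ)
    (Yc : (S → ℝ) → C → Ξ → ℝ) : Prop where
  pr : ∀ H, Pr (τ H)
  mu0 : ∀ c ξ, 0 ≤ μ c ξ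
  bY : ∀ H ξ, |X (H + y ξ) - X H| ≤ B
  bYc : ∀ H c ξ, |Yc H c ξ| ≤ B
  tilt : ∀ H ξ c, τ (H + y ξ) c = τ H c * exp (m * (Yc H c ξ - (X (H + y ξ) - X H)))
  am : ∀ H (F : Ξ → Λ), Few L F → AM p F (τ H) μ (fun c ξ => exp (m * Yc H c ξ)) δ

/-! ### Site labelings -/

open Classical in
def ck {V : Type} [Fintype V] (l : V → ℕ) (i i' : V) : ℝ :=
  if l i' = l i then (((univ.filter fun i'' => l i'' = l i).card : ℕ) : ℝ)⁻¹ else 0

def kerOf {V Γ : Type} [Fintype V] (sl : List (ℝ × Γ) → V → ℕ) : List (ℝ × Γ) → Ker V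
  | [] => []
  | g :: hist => kerOf sl hist ++ [(g.1, ck (sl hist))]

def msgOf {V Γ : Type} [Fintype V] (sl : List (ℝ × Γ) → V → ℕ) (hist : List (ℝ × Γ))
    (σ : V → Bool) : Msg V :=
  ⟨fun _ => (Fintype.card V : ℝ)⁻¹, kerOf sl hist, fun i => ∑ i', ck (sl hist) i i' * spin (σ i')⟩

/-- product test family: type `t`, sites `v` -/
def tp {T : Type} (pT : T → ℝ) (J V : Type) [Fintype J] [Fintype V] (ξ : T × (J → V)) : ℝ :=
  pT ξ.1 * ((Fintype.card V : ℝ)⁻¹) ^ Fintype.card J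

def ty {T J V : Type} (W : T → (J → Bool) → ℝ) (ξ : T × (J → V)) (σ : V → Bool) : ℝ :=
  log (W ξ.1 (fun j => σ (ξ.2 j)))

def tl {T J V : Type} (l : V → ℕ) (ξ : T × (J → V)) : T × (J → ℕ) := (ξ.1, fun j => l (ξ.2 j))

/-! ### The perturbed system on `N` sites -/

section
variable {K : ℕ} {Θ Η : Type} [Fintype Θ] [Fintype Η]

/-- energy of a clause of type `ξ.1` on the sites `ξ.2` -/
def sy (D : FM K Θ Η) (N : ℕ) (ξ : Θ × (Fin K → Fin N)) (σ : Fin N → Bool) : ℝ :=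
  D.θ ξ.1 (fun j => σ (ξ.2 j))

def XN (D : FM K Θ Η) (N n : ℕ) (q : ℝ) (ms : List ℝ) (H : (Fin N → Bool) → ℝ) : ℝ :=
  XX (sw (tp D.p (Fin K) (Fin N)) q n) (sh (sy D N) n) ms H

/-- mean increment when a cavity spin with `l` clauses is attached -/
def ups (D : FM K Θ Η) (N n : ℕ) (q : ℝ) (ms : List ℝ) (l : ℕ) (H : (Fin N → Bool) → ℝ) : ℝ :=
  EP D.p (Fin l) fun t => Ex D.q fun e => av fun c : Fin l → Fin K =>
    av fun v : Fin l × Fin K → Fin N =>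
      XN D N n q ms (H + fun σ => log (Uw (D.η e) (fun k => D.θ (t k)) c (fun kj => σ (v kj)))) -
        XN D N n q ms H

/-- mean increment when one clause is added -/
def phi1 (D : FM K Θ Η) (N n : ℕ) (q : ℝ) (ms : List ℝ) (H : (Fin N → Bool) → ℝ) : ℝ :=
  Ex (tp D.p (Fin K) (Fin N)) fun ξ => XN D N n q ms (H + sy D N ξ) - XN D N n q ms H

end

/-- the three ways of attaching a clause, `e` = message coordinates of the new clause -/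
def Wsite {K : ℕ} {ι V : Type} [Fintype V] [DecidableEq V] (G : (ι → Bool) → (V → Bool) → ℝ)
    (θ : Clause K) (i : Fin K → V) (s : ι → Bool) : ℝ :=
  ∑ σ : V → Bool, G s σ * exp (θ (fun j => σ (i j)))

def Wmsg {K : ℕ} {ι V : Type} [Fintype V] [DecidableEq V] (G : (ι → Bool) → (V → Bool) → ℝ)
    (e : Fin K → ι) (θ : Clause K) (s : ι → Bool) : ℝ :=
  ∑ σ : V → Bool, G s σ * exp (θ (fun j => s (e j)))

def Wcav {K : ℕ} {ι V : Type} [Fintype V] [DecidableEq V] (G : (ι → Bool) → (V → Bool) → ℝ)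
    (e : Fin K → ι) (θ : Clause K) (l : Fin K) (v : V) (s : ι → Bool) : ℝ :=
  ∑ σ : V → Bool, G s σ * exp (θ (Function.update (fun j => s (e j)) l (σ v)))

/-- interpolation step functional of one clause `θ` -/
def stepF {K : ℕ} {A ι V : Type} [Fintype A] [Fintype ι] [DecidableEq ι] [Fintype V]
    [DecidableEq V] (M : Msg A) (G : (ι → Bool) → (V → Bool) → ℝ) (e : Fin K → ι)
    (θ : Clause K) : ℝ :=
  (K : ℝ)⁻¹ * av (fun i : Fin K → V => DT ι M (Wsite G θ i)) +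
    ((K : ℝ) - 1) / K * DT ι M (Wmsg G e θ) -
      av (fun l : Fin K => av fun v : V => DT ι M (Wcav G e θ l v))

/-- admissible background for the step functional -/
def Bg {K : ℕ} {ι V : Type} (G : (ι → Bool) → (V → Bool) → ℝ) (e : Fin K → ι) : Prop :=
  Function.Injective e ∧ (∀ s σ, 0 < G s σ) ∧
    ∀ s s', (∀ j, j ∉ Set.range e → s j = s' j) → G s = G s'

/-- the step inequality for the linear functional `I` (expectation over the clause) -/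
def StepOk (K : ℕ) (I : (Clause K → ℝ) → ℝ) (δ : ℝ) : Prop :=
  ∀ (A ι V : Type) [Fintype A] [Fintype ι] [DecidableEq ι] [Fintype V] [DecidableEq V]
    [Nonempty V] (M : Msg A) (G : (ι → Bool) → (V → Bool) → ℝ) (e : Fin K → ι),
    M.Ok → Bg G e → I (stepF M G e) ≤ δ

end

end Vale.Agent.P168
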