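import Vale.Agent.P168.Step3

namespace Vale.Agent.P168

open Finset Real St

theorem St.arith {b KW C0 B μ0 mi η Δ δ r D u v w : ℝ} (hb : 0 ≤ b) (hK : 0 ≤ KW) (hC : 0 ≤ C0)
    (hB : 0 ≤ B) (h0 : 0 < μ0) (hmi0 : 0 ≤ mi) (hmi : mi ≤ μ0⁻¹) (hη : η = Δ / μ0) (hΔ0 : 0 ≤ Δ)
    (hΔ1 : Δ ≤ 1) (hδ0 : 0 ≤ δ) (hr : δ ≤ r) (hD : 0 ≤ D)
    (h1 : v - KW * b * b * (C0 * r) - KW * b * η * b ^ 2 * (D + C0 * δ) ≤ u)
    (h2 : w ≤ 3 * (b ^ 2 * (η * B)) ^ 2 + 3 * b * (C0 * r) +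
      3 * ((b ^ 2 * (Δ * B)) ^ 2 + 2 * (b + b ^ 2) * δ)) {z : ℝ}
    (h3 : z ≤ v + KW * b * (C0 * r) + KW * b * b * (3 * (b / μ0) + 1) * δ) :
    -(μ0⁻¹ * (KW * b ^ 3 / μ0 + 3 * KW * b ^ 6 * B ^ 2 * (μ0⁻¹ ^ 2 + 1) +
      (KW * b * b * C0 + KW * b ^ 3 / μ0 * C0 + KW * b * C0 + KW * b * b * (3 * (b / μ0) + 1) +
        KW * b ^ 2 * (3 * b * C0 + 6 * (b + b ^ 2)))) * (Δ * D + Δ ^ 2 + r)) ≤
      mi * (u - z - KW * b ^ 2 * w) := by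
  have hr0 : 0 ≤ r := hδ0.trans hr
  set c1 := KW * b ^ 3 / μ0 with hc1
  set c2 := 3 * KW * b ^ 6 * B ^ 2 * (μ0⁻¹ ^ 2 + 1) with hc2
  set c3 := KW * b * b * C0 + c1 * C0 + KW * b * C0 + KW * b * b * (3 * (b / μ0) + 1) +
    KW * b ^ 2 * (3 * b * C0 + 6 * (b + b ^ 2)) with hc3
  have p1 : 0 ≤ c1 := by positivity
  have p2 : 0 ≤ c2 := by positivity
  have p3 : 0 ≤ c3 := by positivity
  have a1 : KW * b * η * b ^ 2 * (D + C0 * δ) ≤ c1 * (Δ * D) + c1 * C0 * r := by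
    have e : KW * b * η * b ^ 2 * (D + C0 * δ) = c1 * (Δ * D) + c1 * C0 * (Δ * δ) := by
      rw [hη, hc1]; ring
    have : Δ * δ ≤ r := by nlinarith
    rw [e]; gcongr
  have a2 : KW * b ^ 2 * w ≤ c2 * Δ ^ 2 + KW * b ^ 2 * (3 * b * C0 + 6 * (b + b ^ 2)) * r := by
    have e : KW * b ^ 2 * (3 * (b ^ 2 * (η * B)) ^ 2 + 3 * b * (C0 * r) +
        3 * ((b ^ 2 * (Δ * B)) ^ 2 + 2 * (b + b ^ 2) * δ)) =
        c2 * Δ ^ 2 + KW * b ^ 2 * (3 * b * C0) * r + KW * b ^ 2 * (6 * (b + b ^ 2)) * δ := by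
      rw [hη, hc2, div_eq_mul_inv]; ring
    have h4 := mul_le_mul_of_nonneg_left h2 (show 0 ≤ KW * b ^ 2 by positivity)
    have h5 : KW * b ^ 2 * (6 * (b + b ^ 2)) * δ ≤ KW * b ^ 2 * (6 * (b + b ^ 2)) * r := by gcongr
    rw [e] at h4; linarith
  have a3 : KW * b * b * (3 * (b / μ0) + 1) * δ ≤ KW * b * b * (3 * (b / μ0) + 1) * r := by gcongr
  have a4 : -(c1 * (Δ * D) + c2 * Δ ^ 2 + c3 * r) ≤ u - z - KW * b ^ 2 * w := by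
    rw [hc3]; linarith
  have a5 : c1 * (Δ * D) + c2 * Δ ^ 2 + c3 * r ≤ (c1 + c2 + c3) * (Δ * D + Δ ^ 2 + r) := by
    have q1 : 0 ≤ Δ * D := by positivity
    have q2 : 0 ≤ Δ ^ 2 := by positivity
    nlinarith [mul_nonneg p1 q2, mul_nonneg p1 hr0, mul_nonneg p2 q1, mul_nonneg p2 hr0,
      mul_nonneg p3 q1, mul_nonneg p3 q2]
  have a6 : 0 ≤ (c1 + c2 + c3) * (Δ * D + Δ ^ 2 + r) := by positivity
  have a7 := mul_le_mul_of_nonneg_left (a4.trans' (neg_le_neg a5)) hmi0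
  have a8 := mul_le_mul_of_nonneg_right hmi a6
  linarith

theorem stepStmt (hS : SApi) (hC : ConsStmt) : StepStmt := by
  intro B μ0 hB h0
  obtain ⟨C0, hC0, hcons⟩ := hC B hB
  refine ⟨μ0⁻¹ * (exp (2 * (B / μ0)) * exp B ^ 3 / μ0 +
    3 * exp (2 * (B / μ0)) * exp B ^ 6 * B ^ 2 * (μ0⁻¹ ^ 2 + 1) +
      (exp (2 * (B / μ0)) * exp B * exp B * C0 + exp (2 * (B / μ0)) * exp B ^ 3 / μ0 * C0 +
        exp (2 * (B / μ0)) * exp B * C0 +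
        exp (2 * (B / μ0)) * exp B * exp B * (3 * (exp B / μ0) + 1) +
        exp (2 * (B / μ0)) * exp B ^ 2 * (3 * exp B * C0 + 6 * (exp B + exp B ^ 2)))),
    by positivity, ?_⟩
  intro S Ξ Λ Γ A _ _ _ p y δ Δ m m' κ L ctx F F' X τ' μ' Yc H τ h μ hp hδ0 hδ1 hΔ0 hΔ1 hm hmm
    hΔ hm1 hκ hc hF hF' hFF hL hτ hμ hAM hA
  have hm0 : 0 < m := h0.trans_le hm
  have hm0' : 0 < m' := hm0.trans_le hmm
  have hθ0 : 0 ≤ m * m'⁻¹ := by positivity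
  have hθ1 : m * m'⁻¹ ≤ 1 := by rw [← div_eq_mul_inv]; exact div_le_one_of_le₀ hmm hm0'.le
  have hη : 1 - m * m'⁻¹ ≤ Δ / μ0 := by
    rw [show 1 - m * m'⁻¹ = (m' - m) / m' by field_simp]
    exact div_le_div₀ hΔ0 (by linarith) h0 (hm.trans hmm)
  have hmix : ∀ γ ξ, ∑ c, τ' (H + h γ) c * exp (m' * Yc (H + h γ) c ξ) =
      exp (m' * (X (H + h γ + y ξ) - X (H + h γ))) := fun γ ξ => by
    have a := (hL.pr (H + h γ + y ξ)).2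
    simp only [hL.tilt (H + h γ) ξ] at a
    rw [← one_mul (exp (m' * (X (H + h γ + y ξ) - X (H + h γ)))), ← a, Finset.sum_mul]
    refine Finset.sum_congr rfl fun c _ => ?_
    rw [mul_assoc, ← exp_add]; congr 2; ring
  have hch := fun γ => hcons Ξ Λ A p (F' γ) (τ' (H + h γ)) μ'
    (fun c ξ => exp (m' * Yc (H + h γ) c ξ)) δ hp (hL.pr _) hL.mu0
    (fun c ξ => exp_mem hm0'.le hm1 (hL.bYc _ c ξ)) hδ0 hδ1 (hL.am _ _ (hF' γ))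
  simp only [hmix] at hch
  have hEm : ∀ γ ξ, exp (-B) ≤ exp (m * (X (H + h γ + y ξ) - X (H + h γ))) ∧
      exp (m * (X (H + h γ + y ξ) - X (H + h γ))) ≤ exp B := fun γ ξ =>
    exp_mem hm0.le (hmm.trans hm1) (hL.bY _ ξ)
  have hpar := (hcons Ξ Λ Γ p F τ μ _ δ hp hτ hμ hEm hδ0 hδ1 hAM).1
  set d2 : Γ → ℝ := fun γ => ∑ c, τ' (H + h γ) c *
      Ex p (fun ξ => exp (2 * m' * Yc (H + h γ) c ξ)) -
    Ex p (fun ξ => exp (2 * m' * (X (H + h γ + y ξ) - X (H + h γ)))) with hd2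
  have hsq : ∀ t : ℝ, exp (m' * t) ^ 2 = exp (2 * m' * t) := fun t => by
    rw [sq, ← exp_add]; congr 1; ring
  have hd2nn : ∀ γ, 0 ≤ d2 γ := fun γ => by
    have a : Ex p (fun ξ => exp (2 * m' * (X (H + h γ + y ξ) - X (H + h γ)))) ≤
        Ex p (fun ξ => Ex (τ' (H + h γ)) (fun c => exp (2 * m' * Yc (H + h γ) c ξ))) :=
      ex_mono (prp_nn hp) fun ξ => by
        have := var_nn (hL.pr (H + h γ)) (fun c => exp (m' * Yc (H + h γ) c ξ))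
        rw [show Ex (τ' (H + h γ)) (fun c => exp (m' * Yc (H + h γ) c ξ)) = _ from hmix γ ξ] at this
        simpa only [hsq] using this
    rw [← ex_comm] at a
    exact sub_nonneg.2 a
  have hsδ : δ ≤ √δ := by
    have := Real.sqrt_le_sqrt hδ1
    rw [sqrt_one] at this
    nlinarith [Real.mul_self_sqrt hδ0.le, Real.sqrt_nonneg δ]
  set KW := exp (2 * (B / μ0)) with hKW
  have t2 : ∀ γ, Ex p (fun ξ => Gf p F B m ctx (μ γ) ξ *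
      exp (m * (X (H + h γ + y ξ) - X (H + h γ)))) - KW * exp B * exp B * (C0 * √δ) -
        KW * exp B * (Δ / μ0) * exp B ^ 2 * (d2 γ + C0 * δ) ≤
      Ex (τ' (H + h γ)) (fun c => Ex p (fun ξ => Gf p F B m ctx (μ γ) ξ *
        exp (m * m'⁻¹ * log (cl B (den p (F' γ) (μ' c) ξ))))) := fun γ =>
    s2 hS hp hm0 hmm hm1 hη (hL.pr _) (fun c ξ => cl B (den p (F' γ) (μ' c) ξ))
      (fun c ξ => ⟨cl_lo _ _, cl_hi hB _⟩) _ _ (hL.bY _)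
      (fun ξ => ⟨(G_pos hS _ _ _ _ _ _ _).le, G_le hS hp hc hB h0 hm (hmm.trans hm1) _ _⟩)
      (fun ξ ξ' e => G_meas hS hc (μ γ) ξ ξ' (hFF γ ξ ξ' e)) (by positivity)
      (hch γ).2.1 (by have := (hch γ).2.2; simp only [hsq] at this; exact this)
  have t2' := ex_mono hτ.1 t2
  simp only [ex_sub, ex_mul, ex_add, ex_const hτ.2] at t2'
  have t3 := s3 hS hp hc hB h0 hm (hmm.trans hm1) hκ hτ
    (fun γ ξ => ⟨(exp_pos _).le, (hEm γ ξ).2⟩) hA hpar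
  have t4 := s4a hS hp hB hm0 hmm hΔ hΔ1 hm1 hκ hF hL hτ hA
  have t5 := ex_mono hτ.1 fun γ => ex_mono (hL.pr (H + h γ)).1 fun c =>
    s4b hS hp hB hθ0 hθ1 hη (hFF γ) (μ' c) (fun ξ => cl B (den p F (μ γ) ξ))
  simp only [ex_add, ex_mul, ex_const (hL.pr _).2, ex_const hτ.2] at t5
  have t6 := ex_mono hτ.1 fun γ => (hch γ).1
  rw [ex_const hτ.2] at t6
  have t1 := ex_mono hτ.1 fun γ => ex_mono (hL.pr (H + h γ)).1 fun c =>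
    s1 hS hp hc hB h0 hm hmm hm1 (μ γ) (fun ξ => cl B (den p (F' γ) (μ' c) ξ))
      (fun ξ => ⟨cl_lo _ _, cl_hi hB _⟩)
  simp only [ex_add, ex_sub, ex_mul, ex_const (hL.pr _).2] at t1
  have t7 := mul_le_mul_of_nonneg_left t6 (show 0 ≤ 3 * exp B by positivity)
  have fin := arith (exp_pos B).le (exp_pos (2 * (B / μ0))).le hC0 hB h0 (inv_pos.2 hm0).le
    (inv_anti₀ h0 hm) rfl hΔ0 hΔ1 hδ0.le hsδ (ex_nn hτ.1 hd2nn) t2'
    (t5.trans (add_le_add (add_le_add le_rfl t7) (mul_le_mul_of_nonneg_left t4 (by norm_num)))) t3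
  exact le_trans (by exact sub_le_iff_le_add.2 (by
    have e : ∑ γ, τ γ * SS p ctx (fun ξ => m⁻¹ * log (cl B (den p F (μ γ) ξ))) =
      Ex τ (fun γ => SS p ctx (Zf p F B m (μ γ))) := rfl
    rw [e]
    have e2 : ∑ γ, τ γ * d2 γ = Ex τ d2 := rfl
    rw [e2]
    linarith)) t1

end Vale.Agent.P168
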