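import Vale.Agent.P168.Stm

namespace Vale.Agent.P168.St

open Finset Real

theorem ex_mono {A : Type} [Fintype A] {p f g : A → ℝ} (hp : ∀ a, 0 ≤ p a) (h : ∀ a, f a ≤ g a) :
    Ex p f ≤ Ex p g :=
  Finset.sum_le_sum fun a _ => mul_le_mul_of_nonneg_left (h a) (hp a)

theorem ex_add {A : Type} [Fintype A] (p f g : A → ℝ) :
    Ex p (fun a => f a + g a) = Ex p f + Ex p g := by
  simp only [Ex, mul_add, Finset.sum_add_distrib]

theorem ex_sub {A : Type} [Fintype A] (p f g : A → ℝ) :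
    Ex p (fun a => f a - g a) = Ex p f - Ex p g := by
  simp only [Ex, mul_sub, Finset.sum_sub_distrib]

theorem ex_mul {A : Type} [Fintype A] (p f : A → ℝ) (c : ℝ) :
    Ex p (fun a => c * f a) = c * Ex p f := by
  simp only [Ex, Finset.mul_sum]; exact Finset.sum_congr rfl fun a _ => by ring

theorem ex_const {A : Type} [Fintype A] {p : A → ℝ} (hp : ∑ a, p a = 1) (c : ℝ) :
    Ex p (fun _ => c) = c := by
  simp only [Ex, ← Finset.sum_mul, hp, one_mul]

theorem ex_comm {A C : Type} [Fintype A] [Fintype C] (p : A → ℝ) (τ : C → ℝ) (f : C → A → ℝ) :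
    Ex τ (fun c => Ex p (f c)) = Ex p (fun a => Ex τ (fun c => f c a)) := by
  simp only [Ex, Finset.mul_sum]
  rw [Finset.sum_comm]
  exact Finset.sum_congr rfl fun a _ => Finset.sum_congr rfl fun c _ => by ring

theorem ex_nn {A : Type} [Fintype A] {p f : A → ℝ} (hp : ∀ a, 0 ≤ p a) (h : ∀ a, 0 ≤ f a) :
    0 ≤ Ex p f :=
  Finset.sum_nonneg fun a _ => mul_nonneg (hp a) (h a)

theorem ex_abs {A : Type} [Fintype A] {p f : A → ℝ} (hp : Pr p) {c : ℝ} (h : ∀ a, |f a| ≤ c) :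
    |Ex p f| ≤ c := by
  rw [abs_le]
  constructor
  · have := ex_mono (p := p) (f := fun _ => -c) (g := f) hp.1 fun a => (abs_le.1 (h a)).1
    rwa [ex_const hp.2] at this
  · have := ex_mono (p := p) (f := f) (g := fun _ => c) hp.1 fun a => (abs_le.1 (h a)).2
    rwa [ex_const hp.2] at this

theorem ex_congr {A : Type} [Fintype A] (p : A → ℝ) {f g : A → ℝ} (h : ∀ a, f a = g a) :
    Ex p f = Ex p g := by
  rw [show f = g from funext h]

theorem var_nn {A : Type} [Fintype A] {τ : A → ℝ} (hτ : Pr τ) (E : A → ℝ) :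
    (Ex τ E) ^ 2 ≤ Ex τ (fun c => E c ^ 2) := by
  have h := ex_nn (p := τ) (f := fun c => (E c - Ex τ E) ^ 2) hτ.1 fun c => sq_nonneg _
  have e : Ex τ (fun c => (E c - Ex τ E) ^ 2) =
      Ex τ (fun c => E c ^ 2) - 2 * Ex τ E * Ex τ E + (Ex τ E) ^ 2 := by
    rw [← ex_mul, ← ex_sub, ← ex_const hτ.2 ((Ex τ E) ^ 2), ← ex_add]
    refine ex_congr _ fun c => ?_
    ring
  rw [e] at h; nlinarith

theorem lo_le_hi {B : ℝ} (hB : 0 ≤ B) : exp (-B) ≤ exp B := exp_le_exp.2 (by linarith)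

theorem cl_lo (B t : ℝ) : exp (-B) ≤ cl B t := le_max_left _ _

theorem cl_hi {B : ℝ} (hB : 0 ≤ B) (t : ℝ) : cl B t ≤ exp B :=
  max_le (lo_le_hi hB) (min_le_left _ _)

theorem cl_pos (B t : ℝ) : 0 < cl B t := (exp_pos _).trans_le (cl_lo B t)

theorem cl_sq {B : ℝ} (hB : 0 ≤ B) (u v : ℝ) :
    (cl B u - cl B v) ^ 2 ≤ (u - v) * (cl B u - cl B v) := by
  have := lo_le_hi hB
  unfold cl
  generalize exp (-B) = l at *
  generalize exp B = k at *
  simp only [max_def, min_def]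
  split_ifs <;> nlinarith

theorem cl_lip {B : ℝ} (hB : 0 ≤ B) (u v : ℝ) : |cl B u - cl B v| ≤ |u - v| := by
  have := lo_le_hi hB
  unfold cl
  generalize exp (-B) = l at *
  generalize exp B = k at *
  rw [abs_le]
  have h1 := le_abs_self (u - v)
  have h2 := neg_abs_le (u - v)
  have h3 := abs_nonneg (u - v)
  simp only [max_def, min_def]
  constructor <;> split_ifs <;> linarith

theorem cl_of_mem {B t : ℝ} (h1 : exp (-B) ≤ t) (h2 : t ≤ exp B) : cl B t = t := by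
  unfold cl; rw [min_eq_right h2, max_eq_right h1]

theorem cl_diff {B : ℝ} (hB : 0 ≤ B) (u v : ℝ) : |cl B u - cl B v| ≤ exp B := by
  have := cl_pos B u; have := cl_pos B v; have := cl_hi hB u; have := cl_hi hB v
  rw [abs_le]; constructor <;> linarith

theorem inv_le {B x : ℝ} (h : exp (-B) ≤ x) : x⁻¹ ≤ exp B := by
  have := inv_anti₀ (exp_pos _) h
  rwa [← exp_neg, neg_neg] at this

theorem log_bd {B x : ℝ} (h1 : exp (-B) ≤ x) (h2 : x ≤ exp B) : |log x| ≤ B := by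
  have hx : 0 < x := (exp_pos _).trans_le h1
  rw [abs_le]
  exact ⟨(le_log_iff_exp_le hx).2 h1, (log_le_iff_le_exp hx).2 h2⟩

theorem log_sub_le {x y : ℝ} (hx : 0 < x) (hy : 0 < y) : log x - log y ≤ (x - y) / y := by
  rw [← log_div hx.ne' hy.ne']
  have := log_le_sub_one_of_pos (div_pos hx hy)
  rwa [div_sub_one hy.ne'] at this

theorem log_lip {B x y : ℝ} (hx : exp (-B) ≤ x) (hy : exp (-B) ≤ y) :
    |log x - log y| ≤ exp B * |x - y| := by
  have hx0 : 0 < x := (exp_pos _).trans_le hx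
  have hy0 : 0 < y := (exp_pos _).trans_le hy
  have key : ∀ u v : ℝ, 0 < u → exp (-B) ≤ v → log u - log v ≤ exp B * |u - v| := by
    intro u v hu hv
    have hv0 : 0 < v := (exp_pos _).trans_le hv
    refine (log_sub_le hu hv0).trans ?_
    rw [div_eq_inv_mul]
    calc v⁻¹ * (u - v) ≤ v⁻¹ * |u - v| := by gcongr; exact le_abs_self _
      _ ≤ exp B * |u - v| := by gcongr; exact inv_le hv
  rw [abs_le]
  constructor
  · have := key y x hy0 hx; rw [abs_sub_comm] at this; linarith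
  · exact key x y hx0 hy

theorem log_ratio {B a b : ℝ} (ha : exp (-B) ≤ a) (hb : exp (-B) ≤ b) :
    (a - b) / b - exp B ^ 2 * (a - b) ^ 2 ≤ log a - log b := by
  have ha0 : 0 < a := (exp_pos _).trans_le ha
  have hb0 : 0 < b := (exp_pos _).trans_le hb
  have h1 := log_sub_le hb0 ha0
  have h2 : (a - b) / b - a⁻¹ * b⁻¹ * (a - b) ^ 2 = -((b - a) / a) := by field_simp; ring
  have h3 : a⁻¹ * b⁻¹ ≤ exp B ^ 2 := by
    rw [sq]; exact mul_le_mul (inv_le ha) (inv_le hb) (by positivity) (by positivity)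
  have h4 := mul_le_mul_of_nonneg_right h3 (sq_nonneg (a - b))
  linarith

theorem exp_sub_one {u c : ℝ} (h : |u| ≤ c) : |exp u - 1| ≤ c * exp c := by
  have hc : 0 ≤ c := (abs_nonneg _).trans h
  obtain ⟨h1, h2⟩ := abs_le.1 h
  have e1 : 1 ≤ exp c := one_le_exp hc
  rw [abs_le]
  constructor
  · have := add_one_le_exp u; nlinarith
  · have h3 := add_one_le_exp (-c)
    have h4 : exp u ≤ exp c := exp_le_exp.2 h2
    have h5 : exp (-c) * exp c = 1 := by rw [← exp_add]; simp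
    nlinarith [exp_pos c]

theorem exp_mem {B m Y : ℝ} (hm0 : 0 ≤ m) (hm : m ≤ 1) (hY : |Y| ≤ B) :
    exp (-B) ≤ exp (m * Y) ∧ exp (m * Y) ≤ exp B := by
  have hB : 0 ≤ B := (abs_nonneg _).trans hY
  obtain ⟨h1, h2⟩ := abs_le.1 hY
  constructor <;> apply exp_le_exp.2 <;> nlinarith

theorem q_le {B y θ : ℝ} (h1 : exp (-B) ≤ y) (h2 : y ≤ exp B) (h0 : 0 ≤ θ) (hθ : θ ≤ 1) :
    exp ((θ - 1) * log y) ≤ exp B := by
  have := (exp_mem (m := 1 - θ) (Y := -log y) (B := B) (by linarith) (by linarith)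
    (by rw [abs_neg]; exact log_bd h1 h2)).2
  rwa [show (1 - θ) * -log y = (θ - 1) * log y by ring] at this

theorem pow_eq {y θ : ℝ} (hy : 0 < y) : exp (θ * log y) = y * exp ((θ - 1) * log y) := by
  rw [show θ * log y = log y + (θ - 1) * log y by ring, exp_add, exp_log hy]

theorem pow_low {B x y θ : ℝ} (hx : exp (-B) ≤ x) (hy : exp (-B) ≤ y) (hy2 : y ≤ exp B)
    (h0 : 0 ≤ θ) (hθ : θ ≤ 1) :
    exp (θ * log y) + θ * exp ((θ - 1) * log y) * (x - y) - (1 - θ) * exp B ^ 2 * (x - y) ^ 2 ≤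
      exp (θ * log x) := by
  have hx0 : 0 < x := (exp_pos _).trans_le hx
  have hy0 : 0 < y := (exp_pos _).trans_le hy
  set Q := exp ((θ - 1) * log y) with hQ
  have hQ0 : 0 < Q := exp_pos _
  have hQb : Q ≤ exp B := q_le hy hy2 h0 hθ
  have e1 : exp (θ * log x) = x * Q * exp ((θ - 1) * (log x - log y)) := by
    rw [pow_eq hx0, hQ, mul_assoc, ← exp_add]; congr 2; ring
  have e2 : 1 - (1 - θ) * ((x - y) / y) ≤ exp ((θ - 1) * (log x - log y)) := by
    have := add_one_le_exp ((θ - 1) * (log x - log y))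
    have h3 := mul_le_mul_of_nonneg_left (log_sub_le hx0 hy0) (show 0 ≤ 1 - θ by linarith)
    linarith
  have e3 := mul_le_mul_of_nonneg_left e2 (mul_pos hx0 hQ0).le
  have e4 : x * Q * (1 - (1 - θ) * ((x - y) / y)) =
      y * Q + θ * Q * (x - y) - (1 - θ) * (Q * y⁻¹) * (x - y) ^ 2 := by field_simp; ring
  have e5 : Q * y⁻¹ ≤ exp B ^ 2 := by
    rw [sq]; exact mul_le_mul hQb (inv_le hy) (by positivity) (by positivity)
  have e6 : (1 - θ) * (Q * y⁻¹) * (x - y) ^ 2 ≤ (1 - θ) * exp B ^ 2 * (x - y) ^ 2 := by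
    have : 0 ≤ 1 - θ := by linarith
    gcongr
  rw [e1, pow_eq hy0, ← hQ]
  linarith

theorem pow_up {u y θ : ℝ} (hy : 0 < y) (h0 : 0 ≤ θ) (hθ : θ ≤ 1) :
    exp (θ * u) ≤ exp (θ * log y) + θ * exp ((θ - 1) * log y) * (exp u - y) := by
  have h := convexOn_exp.2 (Set.mem_univ (u - log y)) (Set.mem_univ 0) h0
    (show 0 ≤ 1 - θ by linarith) (by ring)
  simp only [smul_eq_mul, mul_zero, add_zero, exp_zero, mul_one] at h
  have e1 : exp (θ * u) = exp (θ * log y) * exp (θ * (u - log y)) := by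
    rw [← exp_add]; congr 1; ring
  have e2 : exp (u - log y) = exp u / y := by rw [exp_sub, exp_log hy]
  rw [e2] at h
  have h3 := mul_le_mul_of_nonneg_left h (exp_pos (θ * log y)).le
  rw [e1]
  refine h3.trans (le_of_eq ?_)
  rw [pow_eq hy]; field_simp; ring

theorem pow_near {B x θ η : ℝ} (h1 : exp (-B) ≤ x) (h2 : x ≤ exp B) (h0 : 0 ≤ θ) (hθ : θ ≤ 1)
    (hη : 1 - θ ≤ η) : |exp (θ * log x) - x| ≤ exp B ^ 2 * (η * B) := by
  have hx0 : 0 < x := (exp_pos _).trans_le h1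
  have hl := log_bd h1 h2
  have hB : 0 ≤ B := (abs_nonneg _).trans hl
  have h3 : |(θ - 1) * log x| ≤ (1 - θ) * B := by
    rw [abs_mul, abs_sub_comm, abs_of_nonneg (by linarith : 0 ≤ 1 - θ)]
    exact mul_le_mul_of_nonneg_left hl (by linarith)
  have h4 := exp_sub_one h3
  have h5 : exp ((1 - θ) * B) ≤ exp B := exp_le_exp.2 (by nlinarith)
  rw [pow_eq hx0, show x * exp ((θ - 1) * log x) - x = x * (exp ((θ - 1) * log x) - 1) by ring,
    abs_mul, abs_of_pos hx0]
  have h6 : (1 - θ) * B * exp ((1 - θ) * B) ≤ η * B * exp B := by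
    have : 0 ≤ 1 - θ := by linarith
    have : 0 ≤ η := by linarith
    gcongr
  calc x * |exp ((θ - 1) * log x) - 1| ≤ exp B * (η * B * exp B) :=
        mul_le_mul h2 (h4.trans h6) (abs_nonneg _) (exp_pos _).le
    _ = _ := by ring

theorem abs_sub_of_ratio {u v M s : ℝ} (hu : 0 < u) (hv : 0 < v) (huM : u ≤ M) (hvM : v ≤ M)
    (h1 : u ≤ exp s * v) (h2 : v ≤ exp s * u) : |u - v| ≤ M * s := by
  have key : ∀ a b : ℝ, 0 < a → a ≤ M → a ≤ exp s * b → a - b ≤ a * s := by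
    intro a b ha _ h
    have h3 : exp (-s) * a ≤ b := by
      have := mul_le_mul_of_nonneg_left h (exp_pos (-s)).le
      rwa [← mul_assoc, ← exp_add, neg_add_cancel, exp_zero, one_mul] at this
    have := add_one_le_exp (-s)
    nlinarith
  have hs : 0 ≤ s := by
    have a := key u v hu huM h1; have b := key v u hv hvM h2
    by_contra hs; push Not at hs; nlinarith
  rw [abs_le]
  constructor
  · have := key v u hv hvM h2; nlinarith
  · have := key u v hu huM h1; nlinarith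

end Vale.Agent.P168.St
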