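import Vale.Agent.P168.Step1

namespace Vale.Agent.P168.St

open Finset Real

noncomputable section

variable {Ξ Λ : Type} [Fintype Ξ]

def Zf (p : Ξ → ℝ) (F : Ξ → Λ) (B m : ℝ) (μ : Ξ → ℝ) (ξ : Ξ) : ℝ :=
  m⁻¹ * log (cl B (den p F μ ξ))

def Gf (p : Ξ → ℝ) (F : Ξ → Λ) (B m : ℝ) (ctx : List (ℝ × (Ξ → Λ))) (μ : Ξ → ℝ) (ξ : Ξ) : ℝ :=
  WW p ctx (Zf p F B m μ) ξ / cl B (den p F μ ξ)

theorem Z_bd {p : Ξ → ℝ} {F : Ξ → Λ} {B m μ0 : ℝ} (hB : 0 ≤ B) (h0 : 0 < μ0) (hm : μ0 ≤ m)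
    (μ : Ξ → ℝ) (ξ : Ξ) : |Zf p F B m μ ξ| ≤ B / μ0 := by
  have hm0 : 0 < m := h0.trans_le hm
  unfold Zf
  rw [abs_mul, abs_of_pos (inv_pos.2 hm0), div_eq_inv_mul]
  exact mul_le_mul (inv_anti₀ h0 hm) (log_bd (cl_lo _ _) (cl_hi hB _)) (abs_nonneg _)
    (by positivity)

theorem Z_meas (hS : SApi) (p : Ξ → ℝ) (F : Ξ → Λ) (B m : ℝ) (μ : Ξ → ℝ) :
    Meas F (Zf p F B m μ) := fun ξ ξ' h => by
  unfold Zf; rw [hS.den_meas p μ F ξ ξ' h]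

theorem G_pos (hS : SApi) (p : Ξ → ℝ) (F : Ξ → Λ) (B m : ℝ) (ctx : List (ℝ × (Ξ → Λ)))
    (μ : Ξ → ℝ) (ξ : Ξ) : 0 < Gf p F B m ctx μ ξ :=
  div_pos (hS.w_pos _ _ _ _) (cl_pos _ _)

theorem G_meas (hS : SApi) {p : Ξ → ℝ} {F : Ξ → Λ} {B m : ℝ} {ctx : List (ℝ × (Ξ → Λ))}
    (hc : CtxOk m F ctx) (μ : Ξ → ℝ) : Meas F (Gf p F B m ctx μ) := fun ξ ξ' h => by
  unfold Gf
  rw [hS.den_meas p μ F ξ ξ' h, hS.w_meas p m F ctx _ hc (Z_meas hS p F B m μ) ξ ξ' h]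

theorem W_le (hS : SApi) {p : Ξ → ℝ} {F : Ξ → Λ} {B m μ0 : ℝ} {ctx : List (ℝ × (Ξ → Λ))}
    (hp : PrP p) (hc : CtxOk m F ctx) (hB : 0 ≤ B) (h0 : 0 < μ0) (hm : μ0 ≤ m) (hm1 : m ≤ 1)
    (μ : Ξ → ℝ) (ξ : Ξ) : WW p ctx (Zf p F B m μ) ξ ≤ exp (2 * (B / μ0)) :=
  hS.w_le p m _ F ctx _ ξ hp hc hm1 (Z_bd hB h0 hm μ)

theorem G_le (hS : SApi) {p : Ξ → ℝ} {F : Ξ → Λ} {B m μ0 : ℝ} {ctx : List (ℝ × (Ξ → Λ))}
    (hp : PrP p) (hc : CtxOk m F ctx) (hB : 0 ≤ B) (h0 : 0 < μ0) (hm : μ0 ≤ m) (hm1 : m ≤ 1)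
    (μ : Ξ → ℝ) (ξ : Ξ) : Gf p F B m ctx μ ξ ≤ exp (2 * (B / μ0)) * exp B := by
  unfold Gf
  rw [div_eq_mul_inv]
  exact mul_le_mul (W_le hS hp hc hB h0 hm hm1 μ ξ) (inv_le (cl_lo _ _))
    (inv_pos.2 (cl_pos _ _)).le (exp_pos _).le

theorem G_ratio (hS : SApi) {p : Ξ → ℝ} {F : Ξ → Λ} {B m μ0 s : ℝ} {ctx : List (ℝ × (Ξ → Λ))}
    (hp : PrP p) (hc : CtxOk m F ctx) (hB : 0 ≤ B) (h0 : 0 < μ0) (hm : μ0 ≤ m) (hm1 : m ≤ 1)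
    (μ μ' : Ξ → ℝ) (hs : ∀ ξ, |den p F μ ξ - den p F μ' ξ| ≤ s) (ξ : Ξ) :
    Gf p F B m ctx μ ξ ≤ exp (3 * (exp B / μ0 * s)) * Gf p F B m ctx μ' ξ := by
  have hm0 : 0 < m := h0.trans_le hm
  have hs0 : 0 ≤ s := (abs_nonneg _).trans (hs ξ)
  have hl : ∀ ξ, |log (cl B (den p F μ ξ)) - log (cl B (den p F μ' ξ))| ≤ exp B * s := fun ξ =>
    (log_lip (cl_lo _ _) (cl_lo _ _)).trans
      (mul_le_mul_of_nonneg_left ((cl_lip hB _ _).trans (hs ξ)) (exp_pos _).le)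
  have hZ : ∀ ξ, |Zf p F B m μ ξ - Zf p F B m μ' ξ| ≤ exp B / μ0 * s := fun ξ => by
    unfold Zf
    rw [← mul_sub, abs_mul, abs_of_pos (inv_pos.2 hm0)]
    calc m⁻¹ * _ ≤ μ0⁻¹ * (exp B * s) :=
          mul_le_mul (inv_anti₀ h0 hm) (hl ξ) (abs_nonneg _) (by positivity)
      _ = _ := by ring
  have hW := hS.w_lip p m _ F ctx _ _ ξ hp hc hm1 hZ
  have h1 : exp B * s ≤ exp B / μ0 * s := by
    have : exp B ≤ exp B / μ0 := le_div_self (exp_pos _).le h0 (hm.trans hm1)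
    gcongr
  have h2 : (cl B (den p F μ ξ))⁻¹ ≤ exp (exp B / μ0 * s) * (cl B (den p F μ' ξ))⁻¹ := by
    have a := cl_pos B (den p F μ ξ)
    have b := cl_pos B (den p F μ' ξ)
    rw [← exp_log (inv_pos.2 a), ← exp_log (inv_pos.2 b), ← exp_add, log_inv, log_inv]
    apply exp_le_exp.2
    have := (abs_le.1 (hl ξ)).1
    linarith
  unfold Gf
  rw [div_eq_mul_inv (WW _ _ _ _), div_eq_mul_inv (WW _ _ _ _)]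
  calc _ ≤ (exp (2 * (exp B / μ0 * s)) * WW p ctx (Zf p F B m μ') ξ) *
        (exp (exp B / μ0 * s) * (cl B (den p F μ' ξ))⁻¹) :=
        mul_le_mul hW h2 (inv_pos.2 (cl_pos _ _)).le
          (mul_pos (exp_pos _) (hS.w_pos _ _ _ _)).le
    _ = _ := by
        rw [show 3 * (exp B / μ0 * s) = 2 * (exp B / μ0 * s) + exp B / μ0 * s by ring, exp_add]
        ring

theorem G_lip (hS : SApi) {p : Ξ → ℝ} {F : Ξ → Λ} {B m μ0 s : ℝ} {ctx : List (ℝ × (Ξ → Λ))}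
    (hp : PrP p) (hc : CtxOk m F ctx) (hB : 0 ≤ B) (h0 : 0 < μ0) (hm : μ0 ≤ m) (hm1 : m ≤ 1)
    (μ μ' : Ξ → ℝ) (hs : ∀ ξ, |den p F μ ξ - den p F μ' ξ| ≤ s) (ξ : Ξ) :
    |Gf p F B m ctx μ ξ - Gf p F B m ctx μ' ξ| ≤
      exp (2 * (B / μ0)) * exp B * (3 * (exp B / μ0 * s)) :=
  abs_sub_of_ratio (G_pos hS _ _ _ _ _ _ _) (G_pos hS _ _ _ _ _ _ _)
    (G_le hS hp hc hB h0 hm hm1 _ _) (G_le hS hp hc hB h0 hm hm1 _ _)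
    (G_ratio hS hp hc hB h0 hm hm1 μ μ' hs ξ)
    (G_ratio hS hp hc hB h0 hm hm1 μ' μ (fun ξ => by rw [abs_sub_comm]; exact hs ξ) ξ)

theorem cE_mem (hS : SApi) {p : Ξ → ℝ} (hp : PrP p) (F : Ξ → Λ) {f : Ξ → ℝ} {a b : ℝ}
    (h : ∀ ξ, a ≤ f ξ ∧ f ξ ≤ b) (ξ : Ξ) : a ≤ cE p F f ξ ∧ cE p F f ξ ≤ b := by
  constructor
  · have := hS.cE_mono p (fun _ => a) f F ξ hp fun ξ' _ => (h ξ').1
    rwa [hS.cE_const p F a ξ hp] at this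
  · have := hS.cE_mono p f (fun _ => b) F ξ hp fun ξ' _ => (h ξ').2
    rwa [hS.cE_const p F b ξ hp] at this

theorem cE_meas (hS : SApi) (p : Ξ → ℝ) (F : Ξ → Λ) (f : Ξ → ℝ) : Meas F (cE p F f) :=
  hS.den_meas p _ F

theorem cE_abs (hS : SApi) {p : Ξ → ℝ} (hp : PrP p) (F : Ξ → Λ) (f g : Ξ → ℝ) (ξ : Ξ) :
    |cE p F f ξ - cE p F g ξ| ≤ cE p F (fun ξ' => |f ξ' - g ξ'|) ξ := by
  have e1 := hS.cE_lin p f g F 1 (-1) ξ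
  have e2 := hS.cE_lin p f g F (-1) 1 ξ
  have h1 := hS.cE_mono p (fun ξ' => 1 * f ξ' + -1 * g ξ') (fun ξ' => |f ξ' - g ξ'|) F ξ hp
    fun ξ' _ => by have := le_abs_self (f ξ' - g ξ'); linarith
  have h2 := hS.cE_mono p (fun ξ' => -1 * f ξ' + 1 * g ξ') (fun ξ' => |f ξ' - g ξ'|) F ξ hp
    fun ξ' _ => by have := neg_abs_le (f ξ' - g ξ'); linarith
  rw [abs_le]; constructor <;> linarith

theorem ex_cE1 (hS : SApi) {p : Ξ → ℝ} (hp : PrP p) (F : Ξ → Λ) (f : Ξ → ℝ) :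
    Ex p (cE p F f) = Ex p f := by
  have := hS.ex_cE p f (fun _ => 1) F hp fun _ _ _ => rfl
  simpa only [one_mul] using this

theorem prp_nn {p : Ξ → ℝ} (hp : PrP p) : ∀ ξ, 0 ≤ p ξ := fun ξ => (hp.1 ξ).le

theorem pow_mem {B x θ : ℝ} (h1 : exp (-B) ≤ x) (h2 : x ≤ exp B) (h0 : 0 ≤ θ) (hθ : θ ≤ 1) :
    exp (-B) ≤ exp (θ * log x) ∧ exp (θ * log x) ≤ exp B :=
  exp_mem h0 hθ (log_bd h1 h2)

theorem s1 (hS : SApi) {p : Ξ → ℝ} {F : Ξ → Λ} {B m m' μ0 : ℝ} {ctx : List (ℝ × (Ξ → Λ))}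
    (hp : PrP p) (hc : CtxOk m F ctx) (hB : 0 ≤ B) (h0 : 0 < μ0) (hm : μ0 ≤ m) (hmm : m ≤ m')
    (hm1 : m' ≤ 1) (μ x : Ξ → ℝ) (hx : ∀ ξ, exp (-B) ≤ x ξ ∧ x ξ ≤ exp B) :
    SS p ctx (Zf p F B m μ) + m⁻¹ *
      (Ex p (fun ξ => Gf p F B m ctx μ ξ * exp (m * m'⁻¹ * log (x ξ))) -
        Ex p (fun ξ => Gf p F B m ctx μ ξ * cl B (den p F μ ξ)) -
        exp (2 * (B / μ0)) * exp B ^ 2 * Ex p (fun ξ =>
          (cE p F (fun ξ' => exp (m * m'⁻¹ * log (x ξ'))) ξ - cl B (den p F μ ξ)) ^ 2)) ≤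
      SS p ((m, F) :: ctx) (fun ξ => m'⁻¹ * log (x ξ)) := by
  have hm0 : 0 < m := h0.trans_le hm
  have hm0' : 0 < m' := hm0.trans_le hmm
  have hθ0 : 0 ≤ m * m'⁻¹ := by positivity
  have hθ1 : m * m'⁻¹ ≤ 1 := by rw [← div_eq_mul_inv]; exact div_le_one_of_le₀ hmm hm0'.le
  set a := cE p F (fun ξ' => exp (m * m'⁻¹ * log (x ξ'))) with ha
  have ham : ∀ ξ, exp (-B) ≤ a ξ ∧ a ξ ≤ exp B :=
    cE_mem hS hp F fun ξ => pow_mem (hx ξ).1 (hx ξ).2 hθ0 hθ1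
  have e0 : SS p ((m, F) :: ctx) (fun ξ => m'⁻¹ * log (x ξ)) =
      SS p ctx (fun ξ => m⁻¹ * log (a ξ)) := by
    show SS p ctx (lse p m F _) = _
    congr 1; funext ξ
    simp only [lse, ha, mul_assoc]
  rw [e0]
  refine le_trans ?_ (hS.sub p m F ctx (Zf p F B m μ) _ hp hc)
  refine add_le_add le_rfl ?_
  rw [← hS.ex_cE p _ _ F hp (G_meas hS hc μ), ← ha, ← ex_mul, ← ex_sub, ← ex_sub, ← ex_mul]
  refine ex_mono (prp_nn hp) fun ξ => ?_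
  have hW := W_le hS hp hc hB h0 hm (hmm.trans hm1) μ ξ
  have hW0 := hS.w_pos p ctx (Zf p F B m μ) ξ
  have hr := log_ratio (ham ξ).1 (cl_lo B (den p F μ ξ))
  have hb := cl_pos B (den p F μ ξ)
  unfold Gf
  set W := WW p ctx (Zf p F B m μ) ξ
  unfold Zf
  set bb := cl B (den p F μ ξ)
  have h1 := mul_le_mul_of_nonneg_left hr hW0.le
  have h2 : W * (exp B ^ 2 * (a ξ - bb) ^ 2) ≤ exp (2 * (B / μ0)) * exp B ^ 2 * (a ξ - bb) ^ 2 := by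
    rw [mul_assoc]; gcongr
  have h3 : W / bb * a ξ - W / bb * bb = W * ((a ξ - bb) / bb) := by field_simp
  have h4 : W / bb * a ξ - W / bb * bb - exp (2 * (B / μ0)) * exp B ^ 2 * (a ξ - bb) ^ 2 ≤
      W * (log (a ξ) - log bb) := by rw [h3]; nlinarith
  calc _ ≤ m⁻¹ * (W * (log (a ξ) - log bb)) := by gcongr
    _ = _ := by ring

theorem s2 (hS : SApi) {A : Type} [Fintype A] {p : Ξ → ℝ} {F' : Ξ → Λ} {B m m' η g e1 e2 : ℝ}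
    (hp : PrP p) (hm : 0 < m) (hmm : m ≤ m') (hm1 : m' ≤ 1) (hη : 1 - m * m'⁻¹ ≤ η)
    {τ : A → ℝ} (hτ : Pr τ) (x : A → Ξ → ℝ) (hx : ∀ c ξ, exp (-B) ≤ x c ξ ∧ x c ξ ≤ exp B)
    (Y G : Ξ → ℝ) (hY : ∀ ξ, |Y ξ| ≤ B) (hG : ∀ ξ, 0 ≤ G ξ ∧ G ξ ≤ g) (hGm : Meas F' G)
    (he1 : 0 ≤ e1)
    (fo : ∀ (Ψ : Ξ → ℝ) (g : ℝ), Meas F' Ψ → (∀ ξ, |Ψ ξ| ≤ g) →
      |Ex τ (fun c => Ex p (fun ξ => Ψ ξ * x c ξ)) - Ex p (fun ξ => Ψ ξ * exp (m' * Y ξ))| ≤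
        g * e1)
    (l2 : Ex τ (fun c => Ex p (fun ξ =>
      (x c ξ - cE p F' (fun ξ' => exp (m' * Y ξ')) ξ) ^ 2)) ≤ e2) :
    Ex p (fun ξ => G ξ * exp (m * Y ξ)) - g * exp B * e1 - g * η * exp B ^ 2 * e2 ≤
      Ex τ (fun c => Ex p (fun ξ => G ξ * exp (m * m'⁻¹ * log (x c ξ)))) := by
  have hm0' : 0 < m' := hm.trans_le hmm
  set θ := m * m'⁻¹ with hθ
  have hθ0 : 0 ≤ θ := by positivity
  have hθ1 : θ ≤ 1 := by rw [hθ, ← div_eq_mul_inv]; exact div_le_one_of_le₀ hmm hm0'.le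
  set yb := cE p F' (fun ξ' => exp (m' * Y ξ')) with hyb
  have hym : ∀ ξ, exp (-B) ≤ yb ξ ∧ yb ξ ≤ exp B :=
    cE_mem hS hp F' fun ξ => exp_mem hm0'.le hm1 (hY ξ)
  have hy0 : ∀ ξ, 0 < yb ξ := fun ξ => (exp_pos _).trans_le (hym ξ).1
  set Ψ : Ξ → ℝ := fun ξ => G ξ * (θ * exp ((θ - 1) * log (yb ξ))) with hΨ
  have hΨm : Meas F' Ψ := fun ξ ξ' h => by
    simp only [hΨ]; rw [hGm ξ ξ' h, show yb ξ = yb ξ' from cE_meas hS p F' _ ξ ξ' h]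
  have hΨb : ∀ ξ, |Ψ ξ| ≤ g * exp B := fun ξ => by
    have h1 := q_le (hym ξ).1 (hym ξ).2 hθ0 hθ1
    have h2 := exp_pos ((θ - 1) * log (yb ξ))
    have h3 := (hG ξ).1
    rw [abs_of_nonneg (by positivity)]
    exact mul_le_mul (hG ξ).2 (by nlinarith) (by positivity) (h3.trans (hG ξ).2)
  have hfo := (abs_le.1 (fo Ψ _ hΨm hΨb)).1
  have hcE : Ex p (fun ξ => Ψ ξ * yb ξ) = Ex p (fun ξ => Ψ ξ * exp (m' * Y ξ)) :=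
    hS.ex_cE p _ Ψ F' hp hΨm
  have hg : 0 ≤ g := by
    by_contra hg
    have : IsEmpty Ξ := ⟨fun ξ => hg ((hG ξ).1.trans (hG ξ).2)⟩
    have := hp.2
    simp at this
  have hη0 : 0 ≤ 1 - θ := by linarith
  have j : Ex p (fun ξ => G ξ * exp (m * Y ξ)) ≤ Ex p (fun ξ => G ξ * exp (θ * log (yb ξ))) := by
    have h1 : Ex p (fun ξ => G ξ * exp (m * Y ξ)) ≤ Ex p (fun ξ => G ξ * exp (θ * log (yb ξ)) +
        (Ψ ξ * exp (m' * Y ξ) - Ψ ξ * yb ξ)) := ex_mono (prp_nn hp) fun ξ => by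
      have h2 := mul_le_mul_of_nonneg_left (pow_up (u := m' * Y ξ) (hy0 ξ) hθ0 hθ1) (hG ξ).1
      have h3 : θ * (m' * Y ξ) = m * Y ξ := by rw [hθ]; field_simp
      rw [h3] at h2
      simp only [hΨ]; nlinarith
    rw [ex_add, ex_sub, hcE] at h1
    linarith
  have low : Ex τ (fun c => Ex p (fun ξ => G ξ * exp (θ * log (yb ξ)) +
      (Ψ ξ * x c ξ - Ψ ξ * yb ξ) - g * η * exp B ^ 2 * (x c ξ - yb ξ) ^ 2)) ≤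
      Ex τ (fun c => Ex p (fun ξ => G ξ * exp (θ * log (x c ξ)))) :=
    ex_mono hτ.1 fun c => ex_mono (prp_nn hp) fun ξ => by
      have h2 := mul_le_mul_of_nonneg_left
        (pow_low (hx c ξ).1 (hym ξ).1 (hym ξ).2 hθ0 hθ1) (hG ξ).1
      have h3 : G ξ * ((1 - θ) * exp B ^ 2 * (x c ξ - yb ξ) ^ 2) ≤
          g * η * exp B ^ 2 * (x c ξ - yb ξ) ^ 2 := by
        have : G ξ * (1 - θ) ≤ g * η := mul_le_mul (hG ξ).2 hη hη0 hg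
        calc _ = G ξ * (1 - θ) * exp B ^ 2 * (x c ξ - yb ξ) ^ 2 := by ring
          _ ≤ _ := by gcongr
      simp only [hΨ]; nlinarith
  simp only [ex_sub, ex_add, ex_mul, ex_const hτ.2] at low
  have h5 : g * η * exp B ^ 2 * Ex τ (fun c => Ex p (fun ξ => (x c ξ - yb ξ) ^ 2)) ≤
      g * η * exp B ^ 2 * e2 := by
    have : 0 ≤ η := hη0.trans hη
    gcongr
  linarith

end

end Vale.Agent.P168.St
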