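import Vale.Agent.P168.Step2

namespace Vale.Agent.P168.St

open Finset Real

noncomputable section

variable {S Ξ Λ Γ A : Type} [Fintype Ξ] [Fintype Γ] [Fintype A]

open Classical in
theorem den_upd (hS : SApi) {p : Ξ → ℝ} (hp : PrP p) (F : Ξ → Λ) {κ : ℝ} (hκ : 0 ≤ κ)
    {μ μ' : Ξ → ℝ} {ξ : Ξ} (h : μ' = fun ξ' => μ ξ' + if ξ' = ξ then κ else 0) (ξ' : Ξ) :
    |den p F μ' ξ' - den p F μ ξ'| ≤ κ / cell F p ξ := by
  rw [h]
  exact @SApi.den_add hS Ξ Λ _ (fun a b => Classical.propDecidable (a = b)) p μ F κ ξ ξ' hp hκ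

theorem s3 (hS : SApi) {p : Ξ → ℝ} {y : Ξ → S → ℝ} {F : Ξ → Λ} {B m μ0 κ δ e1 : ℝ}
    {ctx : List (ℝ × (Ξ → Λ))} (hp : PrP p) (hc : CtxOk m F ctx) (hB : 0 ≤ B) (h0 : 0 < μ0)
    (hm : μ0 ≤ m) (hm1 : m ≤ 1) (hκ : 0 ≤ κ) {τ : Γ → ℝ} (hτ : Pr τ) {h : Γ → S → ℝ}
    {μ E : Γ → Ξ → ℝ} (hE : ∀ γ ξ, 0 ≤ E γ ξ ∧ E γ ξ ≤ exp B) (hA : AMP p y F τ h μ E κ δ)
    (clp : Ex τ (fun γ => Ex p (fun ξ => |den p F (μ γ) ξ - cl B (den p F (μ γ) ξ)|)) ≤ e1) :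
    Ex τ (fun γ => Ex p (fun ξ => Gf p F B m ctx (μ γ) ξ * cl B (den p F (μ γ) ξ))) ≤
      Ex τ (fun γ => Ex p (fun ξ => Gf p F B m ctx (μ γ) ξ * E γ ξ)) +
        exp (2 * (B / μ0)) * exp B * e1 +
        exp (2 * (B / μ0)) * exp B * exp B * (3 * (exp B / μ0) + 1) * δ := by
  set g0 := exp (2 * (B / μ0)) * exp B with hg0
  have hg0p : 0 < g0 := by positivity
  have hGle : ∀ ν ξ, Gf p F B m ctx ν ξ ≤ g0 := G_le hS hp hc hB h0 hm hm1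
  have hGp : ∀ ν ξ, 0 < Gf p F B m ctx ν ξ := G_pos hS p F B m ctx
  have h1 : Ex τ (fun γ => Ex p (fun ξ => Gf p F B m ctx (μ γ) ξ * cl B (den p F (μ γ) ξ))) ≤
      Ex τ (fun γ => Ex p (fun ξ => Gf p F B m ctx (μ γ) ξ * den p F (μ γ) ξ +
        g0 * |den p F (μ γ) ξ - cl B (den p F (μ γ) ξ)|)) :=
    ex_mono hτ.1 fun γ => ex_mono (prp_nn hp) fun ξ => by
      have a := neg_abs_le (den p F (μ γ) ξ - cl B (den p F (μ γ) ξ))
      have b := abs_nonneg (den p F (μ γ) ξ - cl B (den p F (μ γ) ξ))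
      have c := mul_le_mul_of_nonneg_right (hGle (μ γ) ξ) b
      have d := mul_le_mul_of_nonneg_left a (hGp (μ γ) ξ).le
      nlinarith
  simp only [ex_add, ex_mul] at h1
  have h2 := hA (fun γ ξ => Gf p F B m ctx (μ γ) ξ) (fun γ ξ => Gf p F B m ctx (μ γ) ξ * E γ ξ)
    (g0 * exp B * (3 * (exp B / μ0) + 1))
    (fun γ γ' ξ _ hμ => by
      have hl := G_lip hS hp hc hB h0 hm hm1 (μ γ') (μ γ) (den_upd hS hp F hκ hμ) ξ
      have hs : 0 ≤ κ / cell F p ξ := div_nonneg hκ (hS.cell_pos p F ξ hp).le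
      rw [show E γ ξ * Gf p F B m ctx (μ γ') ξ - Gf p F B m ctx (μ γ) ξ * E γ ξ =
        E γ ξ * (Gf p F B m ctx (μ γ') ξ - Gf p F B m ctx (μ γ) ξ) by ring, abs_mul,
        abs_of_nonneg (hE γ ξ).1]
      calc _ ≤ exp B * (g0 * (3 * (exp B / μ0 * (κ / cell F p ξ)))) :=
            mul_le_mul (hE γ ξ).2 hl (abs_nonneg _) (exp_pos _).le
        _ = g0 * exp B * (3 * (exp B / μ0)) * (κ / cell F p ξ) := by ring
        _ ≤ _ := by gcongr; linarith)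
    (fun γ ξ => by
      rw [abs_of_nonneg (mul_nonneg (hGp _ _).le (hE γ ξ).1)]
      calc _ ≤ g0 * exp B := mul_le_mul (hGle _ _) (hE γ ξ).2 (hE γ ξ).1 hg0p.le
        _ = g0 * exp B * 1 := (mul_one _).symm
        _ ≤ _ := by
          have : 0 ≤ 3 * (exp B / μ0) := by positivity
          gcongr; linarith)
  have h3 : Ex τ (fun γ => Ex p (fun ξ => Gf p F B m ctx (μ γ) ξ * den p F (μ γ) ξ)) =
      ∑ γ, τ γ * ∑ ξ, μ γ ξ * Gf p F B m ctx (μ γ) ξ :=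
    ex_congr τ fun γ => hS.ex_den p (μ γ) _ F hp (G_meas hS hc (μ γ))
  have h4 := (abs_le.1 h2).2
  have h5 : g0 * Ex τ (fun γ => Ex p (fun ξ => |den p F (μ γ) ξ - cl B (den p F (μ γ) ξ)|)) ≤
      g0 * e1 := mul_le_mul_of_nonneg_left clp hg0p.le
  rw [← h3] at h4
  have h6 : ∑ γ, τ γ * Ex p (fun ξ => Gf p F B m ctx (μ γ) ξ * E γ ξ) =
      Ex τ (fun γ => Ex p (fun ξ => Gf p F B m ctx (μ γ) ξ * E γ ξ)) := rfl
  rw [h6] at h4
  linarith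

theorem s4a (hS : SApi) {p : Ξ → ℝ} {y : Ξ → S → ℝ} {F : Ξ → Λ} {B m m' κ δ Δ : ℝ} {L : ℕ}
    (hp : PrP p) (hB : 0 ≤ B) (hm : 0 < m) (hmm : m ≤ m') (hΔ : m' ≤ m + Δ) (hΔ1 : Δ ≤ 1)
    (hm1 : m' ≤ 1) (hκ : 0 ≤ κ) (hF : Few L F)
    {X : (S → ℝ) → ℝ} {τ' : (S → ℝ) → A → ℝ} {μ' : A → Ξ → ℝ} {Yc : (S → ℝ) → A → Ξ → ℝ}
    (hL : Lev Λ p y B δ L m' X τ' μ' Yc) {H : S → ℝ} {τ : Γ → ℝ} (hτ : Pr τ) {h : Γ → S → ℝ}
    {μ : Γ → Ξ → ℝ}
    (hA : AMP p y F τ h μ (fun γ ξ => exp (m * (X (H + h γ + y ξ) - X (H + h γ)))) κ δ) :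
    Ex τ (fun γ => Ex (τ' (H + h γ)) (fun c => Ex p (fun ξ =>
      (cl B (den p F (μ' c) ξ) - cl B (den p F (μ γ) ξ)) ^ 2))) ≤
      (exp B ^ 2 * (Δ * B)) ^ 2 + 2 * (exp B + exp B ^ 2) * δ := by
  have hb1 : 1 ≤ exp B := one_le_exp hB
  set T : Γ → A → Ξ → ℝ := fun γ c ξ => cl B (den p F (μ' c) ξ) - cl B (den p F (μ γ) ξ) with hT
  have hTm : ∀ γ c, Meas F (T γ c) := fun γ c ξ ξ' e => by
    simp only [hT]; rw [hS.den_meas p _ F ξ ξ' e, hS.den_meas p (μ γ) F ξ ξ' e]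
  have hTb : ∀ γ c ξ, |T γ c ξ| ≤ exp B := fun γ c ξ => cl_diff hB _ _
  have hEm : ∀ γ ξ, exp (-B) ≤ exp (m * (X (H + h γ + y ξ) - X (H + h γ))) ∧
      exp (m * (X (H + h γ + y ξ) - X (H + h γ))) ≤ exp B := fun γ ξ =>
    exp_mem hm.le (hmm.trans hm1) (hL.bY _ ξ)
  have i1 : ∀ γ, Ex (τ' (H + h γ)) (fun c => Ex p (fun ξ => T γ c ξ * den p F (μ' c) ξ)) ≤
      Ex (τ' (H + h γ)) (fun c => Ex p (fun ξ => exp (m' * Yc (H + h γ) c ξ) * T γ c ξ)) +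
        exp B * δ := fun γ => by
    have a := hL.am (H + h γ) F hF (fun t ξ => cl B t - cl B (den p F (μ γ) ξ)) (exp B)
      (fun t t' ξ => by
        rw [sub_sub_sub_cancel_right]
        exact (cl_lip hB t t').trans (le_mul_of_one_le_left (abs_nonneg _) hb1))
      (fun t ξ => cl_diff hB _ _)
    have b : Ex (τ' (H + h γ)) (fun c => Ex p (fun ξ => T γ c ξ * den p F (μ' c) ξ)) =
        ∑ c, τ' (H + h γ) c * ∑ ξ, μ' c ξ * T γ c ξ :=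
      ex_congr _ fun c => hS.ex_den p (μ' c) _ F hp (hTm γ c)
    have c := (abs_le.1 a).2
    rw [b]
    exact sub_le_iff_le_add'.1 c
  have i2 := hA (fun γ ξ => Ex (τ' (H + h γ)) (fun c => T γ c ξ))
    (fun γ ξ => exp (m * (X (H + h γ + y ξ) - X (H + h γ))) *
      Ex (τ' (H + h γ + y ξ)) (fun c => T γ c ξ)) (exp B ^ 2)
    (fun γ γ' ξ hh hμ => by
      have hs : 0 ≤ κ / cell F p ξ := div_nonneg hκ (hS.cell_pos p F ξ hp).le
      rw [hh, ← add_assoc, ← mul_sub, ← ex_sub, abs_mul, abs_of_pos (exp_pos _)]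
      have hd : |Ex (τ' (H + h γ + y ξ)) (fun c => T γ' c ξ - T γ c ξ)| ≤ κ / cell F p ξ :=
        ex_abs (hL.pr _) fun c => by
          simp only [hT]
          rw [sub_sub_sub_cancel_left, abs_sub_comm]
          exact (cl_lip hB _ _).trans (den_upd hS hp F hκ hμ ξ)
      calc _ ≤ exp B * (κ / cell F p ξ) := mul_le_mul (hEm γ ξ).2 hd (abs_nonneg _) (exp_pos _).le
        _ ≤ _ := by gcongr; nlinarith)
    (fun γ ξ => by
      rw [abs_mul, abs_of_pos (exp_pos _), sq]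
      exact mul_le_mul (hEm γ ξ).2 (ex_abs (hL.pr _) fun c => hTb γ c ξ) (abs_nonneg _)
        (exp_pos _).le)
  have i3 : ∑ γ, τ γ * ∑ ξ, μ γ ξ * Ex (τ' (H + h γ)) (fun c => T γ c ξ) =
      Ex τ (fun γ => Ex (τ' (H + h γ)) (fun c => Ex p (fun ξ => T γ c ξ * den p F (μ γ) ξ))) :=
    ex_congr τ fun γ => by
      rw [← hS.ex_den p (μ γ) _ F hp (fun ξ ξ' e => ex_congr _ fun c => hTm γ c ξ ξ' e), ex_comm]
      refine ex_congr _ fun ξ => ?_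
      rw [mul_comm, ← ex_mul]
      exact ex_congr _ fun c => mul_comm _ _
  have i4 : ∑ γ, τ γ * Ex p (fun ξ => exp (m * (X (H + h γ + y ξ) - X (H + h γ))) *
      Ex (τ' (H + h γ + y ξ)) (fun c => T γ c ξ)) =
      Ex τ (fun γ => Ex (τ' (H + h γ)) (fun c => Ex p (fun ξ =>
        exp (m' * Yc (H + h γ) c ξ) * exp ((m - m') * (X (H + h γ + y ξ) - X (H + h γ))) *
          T γ c ξ))) :=
    ex_congr τ fun γ => by
      rw [ex_comm]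
      refine ex_congr _ fun ξ => ?_
      simp only [Ex, Finset.mul_sum]
      refine Finset.sum_congr rfl fun c _ => ?_
      rw [hL.tilt (H + h γ) ξ c, ← exp_add]
      have : m' * Yc (H + h γ) c ξ + (m - m') * (X (H + h γ + y ξ) - X (H + h γ)) =
          m * (X (H + h γ + y ξ) - X (H + h γ)) +
            m' * (Yc (H + h γ) c ξ - (X (H + h γ + y ξ) - X (H + h γ))) := by ring
      rw [this, exp_add]; ring
  rw [i3, i4] at i2
  have i5 := (abs_le.1 i2).1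
  have i6 := ex_mono hτ.1 i1
  rw [ex_add, ex_const hτ.2] at i6
  have i7 : Ex τ (fun γ => Ex (τ' (H + h γ)) (fun c => Ex p (fun ξ => T γ c ξ ^ 2))) ≤
      Ex τ (fun γ => Ex (τ' (H + h γ)) (fun c => Ex p (fun ξ =>
        2 * (T γ c ξ * den p F (μ' c) ξ) - 2 * (T γ c ξ * den p F (μ γ) ξ) -
        2 * (exp (m' * Yc (H + h γ) c ξ) * T γ c ξ) +
        2 * (exp (m' * Yc (H + h γ) c ξ) * exp ((m - m') * (X (H + h γ + y ξ) - X (H + h γ))) *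
          T γ c ξ) + (exp B ^ 2 * (Δ * B)) ^ 2))) :=
    ex_mono hτ.1 fun γ => ex_mono (hL.pr _).1 fun c => ex_mono (prp_nn hp) fun ξ => by
      have a := cl_sq hB (den p F (μ' c) ξ) (den p F (μ γ) ξ)
      have hY := hL.bY (H + h γ) ξ
      have hu : |(m - m') * (X (H + h γ + y ξ) - X (H + h γ))| ≤ Δ * B := by
        rw [abs_mul]
        exact mul_le_mul (by rw [abs_le]; constructor <;> linarith) hY (abs_nonneg _) (by linarith)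
      have b := exp_sub_one hu
      have hΔ0 : 0 ≤ Δ := by linarith
      have b2 : exp (Δ * B) ≤ exp B := exp_le_exp.2 (by nlinarith)
      have hEc := exp_mem (hm.le.trans hmm) hm1 (hL.bYc (H + h γ) c ξ)
      have d : |exp (m' * Yc (H + h γ) c ξ) *
          (exp ((m - m') * (X (H + h γ + y ξ) - X (H + h γ))) - 1)| ≤ exp B ^ 2 * (Δ * B) := by
        rw [abs_mul, abs_of_pos (exp_pos _)]
        calc _ ≤ exp B * (Δ * B * exp B) :=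
              mul_le_mul hEc.2 (b.trans (by gcongr)) (abs_nonneg _) (exp_pos _).le
          _ = _ := by ring
      have d2 := sq_le_sq' (abs_le.1 d).1 (abs_le.1 d).2
      change T γ c ξ ^ 2 ≤ (den p F (μ' c) ξ - den p F (μ γ) ξ) * T γ c ξ at a
      nlinarith [sq_nonneg (T γ c ξ + exp (m' * Yc (H + h γ) c ξ) *
          (exp ((m - m') * (X (H + h γ + y ξ) - X (H + h γ))) - 1))]
  simp only [ex_add, ex_sub, ex_mul, ex_const hp.2, ex_const (hL.pr _).2, ex_const hτ.2] at i7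
  linarith

theorem s4b (hS : SApi) {p : Ξ → ℝ} {F F' : Ξ → Λ} {B θ η : ℝ} (hp : PrP p) (hB : 0 ≤ B)
    (hθ0 : 0 ≤ θ) (hθ1 : θ ≤ 1) (hη : 1 - θ ≤ η) (hFF : Meas F' F) (ν : Ξ → ℝ) (bb : Ξ → ℝ) :
    Ex p (fun ξ => (cE p F (fun ξ' => exp (θ * log (cl B (den p F' ν ξ')))) ξ - bb ξ) ^ 2) ≤
      3 * (exp B ^ 2 * (η * B)) ^ 2 +
      3 * exp B * Ex p (fun ξ => |den p F' ν ξ - cl B (den p F' ν ξ)|) +
      3 * Ex p (fun ξ => (cl B (den p F ν ξ) - bb ξ) ^ 2) := by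
  rw [← ex_cE1 hS hp F (fun ξ => |den p F' ν ξ - cl B (den p F' ν ξ)|), ← ex_mul, ← ex_mul,
    ← ex_const hp.2 (3 * (exp B ^ 2 * (η * B)) ^ 2), ← ex_add, ← ex_add]
  refine ex_mono (prp_nn hp) fun ξ => ?_
  set x : Ξ → ℝ := fun ξ' => cl B (den p F' ν ξ') with hx
  have hxm : ∀ ξ', exp (-B) ≤ x ξ' ∧ x ξ' ≤ exp B := fun ξ' => ⟨cl_lo _ _, cl_hi hB _⟩
  have h1 : |cE p F (fun ξ' => exp (θ * log (x ξ'))) ξ - cE p F x ξ| ≤ exp B ^ 2 * (η * B) :=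
    (cE_abs hS hp F _ _ ξ).trans (cE_mem hS hp F (a := 0) (fun ξ' => ⟨abs_nonneg _,
      pow_near (hxm ξ').1 (hxm ξ').2 hθ0 hθ1 hη⟩) ξ).2
  have hc := cE_mem hS hp F hxm ξ
  have h2 : |cl B (den p F ν ξ) - cE p F x ξ| ≤ exp B := by
    rw [← cl_of_mem hc.1 hc.2]; exact cl_diff hB _ _
  have h3 : |cl B (den p F ν ξ) - cE p F x ξ| ≤ cE p F (fun ξ' => |den p F' ν ξ' - x ξ'|) ξ := by
    rw [← cl_of_mem hc.1 hc.2]
    refine (cl_lip hB _ _).trans ?_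
    rw [← hS.tower p ν F F' ξ hp hFF]
    exact cE_abs hS hp F _ _ ξ
  have h4 : (cl B (den p F ν ξ) - cE p F x ξ) ^ 2 ≤
      exp B * cE p F (fun ξ' => |den p F' ν ξ' - x ξ'|) ξ := by
    rw [← sq_abs, sq]; exact mul_le_mul h2 h3 (abs_nonneg _) (exp_pos _).le
  have h5 := sq_le_sq' (abs_le.1 h1).1 (abs_le.1 h1).2
  set u := cE p F (fun ξ' => exp (θ * log (x ξ'))) ξ
  set v := cE p F x ξ
  set w := cl B (den p F ν ξ)
  nlinarith [sq_nonneg ((u - v) - (v - w)), sq_nonneg ((u - v) - (w - bb ξ)),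
    sq_nonneg ((v - w) - (w - bb ξ))]

end

end Vale.Agent.P168.St
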