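import Vale.Agent.P168.Spec

/-! P168: module statements (proofs in notes/P168.md). -/

namespace Vale.Agent.P168

open MeasureTheory Finset Real Filter Topology

noncomputable section

/-- module Po -/
structure PoApi : Prop where
  nn : ∀ (c : ℝ) (n : ℕ), 0 ≤ c → 0 ≤ poi c n
  summ : ∀ (c C : ℝ) (g : ℕ → ℝ), 0 ≤ c → (∀ n, |g n| ≤ C * (1 + n)) →
    Summable (fun n => poi c n * g n)
  one : ∀ c : ℝ, ∑' n, poi c n = 1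
  mean : ∀ c : ℝ, ∑' n, poi c n * (n : ℝ) = c
  bd : ∀ (c a b : ℝ) (g : ℕ → ℝ), 0 ≤ c → (∀ n, |g n| ≤ a + b * n) →
    |∑' n, poi c n * g n| ≤ a + b * c
  thin : ∀ (c q C : ℝ) (g : ℕ → ℕ → ℝ), 0 ≤ c → 0 ≤ q → q ≤ 1 →
    (∀ k l, |g k l| ≤ C * (1 + k + l)) →
    ∑' n, poi c n * ∑ kl ∈ antidiagonal n,
        (n.choose kl.1 : ℝ) * q ^ kl.1 * (1 - q) ^ kl.2 * g kl.1 kl.2 =
      ∑' k, poi (c * q) k * ∑' l, poi (c * (1 - q)) l * g k l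
  shift : ∀ (c c2 B : ℝ) (g : ℕ → ℝ), 0 < c → 0 ≤ c2 → (∀ j, |g (j + 1) - g j| ≤ B) →
    ∑' n, poi (c + c2) n * g n ≤
      ∑' n, poi c n * (g n + c2 * (g (n + 1) - g n)) + B * c2 ^ 2 / √c
  tail : ∀ (c C ε : ℝ), 0 ≤ c → 0 < ε → ∃ n0 : ℕ, ∀ g : ℕ → ℝ, (∀ n, |g n| ≤ C * (1 + n)) →
    |∑' n, poi c n * g n - ∑ n ∈ range n0, poi c n * g n| ≤ ε

/-- module Op -/
structure OpApi : Prop where
  pr : ∀ {A : Type} [Fintype A] (ι : Type) [Fintype ι] [DecidableEq ι] (p : A → ℝ), Pr p →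
    Pr (fun t : ι → A => ∏ i, p (t i))
  mono : ∀ {A : Type} [Fintype A] (ι : Type) [Fintype ι] [DecidableEq ι] (p : A → ℝ)
    (f g : (ι → A) → ℝ), Pr p → (∀ t, f t ≤ g t) → EP p ι f ≤ EP p ι g
  const : ∀ {A : Type} [Fintype A] (ι : Type) [Fintype ι] [DecidableEq ι] (p : A → ℝ) (c : ℝ),
    Pr p → EP p ι (fun _ => c) = c
  abs : ∀ {A : Type} [Fintype A] (ι : Type) [Fintype ι] [DecidableEq ι] (p : A → ℝ)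
    (f : (ι → A) → ℝ) (c : ℝ), Pr p → (∀ t, |f t| ≤ c) → |EP p ι f| ≤ c
  marg : ∀ {A : Type} [Fintype A] (κ ι : Type) [Fintype κ] [DecidableEq κ] [Fintype ι]
    [DecidableEq ι] (p : A → ℝ) (e : κ → ι) (f : (κ → A) → ℝ), Pr p → Function.Injective e →
    EP p ι (fun t => f (fun k => t (e k))) = EP p κ f
  prod : ∀ {A B : Type} [Fintype A] [Fintype B] (ι : Type) [Fintype ι] [DecidableEq ι]
    (p : A → ℝ) (p' : B → ℝ) (f : (ι → A × B) → ℝ),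
    EP (fun ab : A × B => p ab.1 * p' ab.2) ι f =
      EP p ι (fun a => EP p' ι (fun b => f (fun i => (a i, b i))))
  unif : ∀ {A : Type} [Fintype A] (ι : Type) [Fintype ι] [DecidableEq ι] (f : (ι → A) → ℝ),
    av f = EP (fun _ : A => (Fintype.card A : ℝ)⁻¹) ι f
  succ : ∀ {A : Type} [Fintype A] (n : ℕ) (p : A → ℝ) (f : (Fin (n + 1) → A) → ℝ),
    EP p (Fin (n + 1)) f = EP p (Fin n) (fun t => Ex p (fun a => f (Fin.snoc t a)))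
  sum1 : ∀ {A : Type} [Fintype A] (ι : Type) [Fintype ι] [DecidableEq ι] (p φ : A → ℝ), Pr p →
    EP p ι (fun t => ∑ i, φ (t i)) = Fintype.card ι * Ex p φ
  binom : ∀ {A B M : Type} [Fintype A] [Fintype B] [AddCommMonoid M] (pA : A → ℝ) (pB : B → ℝ)
    (gA : A → M) (gB : B → M) (q : ℝ) (n : ℕ) (Φ : M → ℝ),
    EP (Sum.elim (fun a => q * pA a) (fun b => (1 - q) * pB b)) (Fin n)
        (fun c => Φ (∑ k, Sum.elim gA gB (c k))) =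
      ∑ kl ∈ antidiagonal n, (n.choose kl.1 : ℝ) * q ^ kl.1 * (1 - q) ^ kl.2 *
        EP pA (Fin kl.1) (fun a => EP pB (Fin kl.2) (fun b => Φ (∑ k, gA (a k) + ∑ k, gB (b k))))
  lind : ∀ {A B C : Type} [Fintype A] [Fintype B] (pA : A → ℝ) (pB : B → ℝ) (gA : A → C)
    (gB : B → C) (δ : ℝ) (n : ℕ) (f : (Fin n → C) → ℝ), Pr pA → Pr pB →
    (∀ k c, Ex pA (fun a => f (Function.update c k (gA a))) ≤
      Ex pB (fun b => f (Function.update c k (gB b))) + δ) →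
    EP pA (Fin n) (fun a => f (fun k => gA (a k))) ≤
      EP pB (Fin n) (fun b => f (fun k => gB (b k))) + n * δ

/-- module Base -/
structure BApi : Prop where
  extU : ∀ (K n : ℕ) (h : ℝ) (θ : Fin n → Clause K) (l : Fin n → Fin K),
    Ufun h θ l = ext (Uw h θ l)
  extV : ∀ (K n : ℕ) (θ : Fin n → Clause K), Vfun θ = ext (Vw θ)
  ext_le : ∀ {ι : Type} [Fintype ι] [DecidableEq ι] (W W' : (ι → Bool) → ℝ) (x : ι → ℝ),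
    (∀ j, |x j| ≤ 1) → (∀ s, W s ≤ W' s) → ext W x ≤ ext W' x
  ext_const : ∀ {ι : Type} [Fintype ι] [DecidableEq ι] (c : ℝ) (x : ι → ℝ),
    ext (fun _ => c) x = c
  mono : ∀ {A : Type} [Fintype A] (ι : Type) [Fintype ι] [DecidableEq ι] (M : Msg A)
    (W W' : (ι → Bool) → ℝ) (c : ℝ), M.Ok → (∀ s, 0 < W s) → (∀ s, W s ≤ exp c * W' s) →
    DT ι M W ≤ c + DT ι M W'
  const : ∀ {A : Type} [Fintype A] (ι : Type) [Fintype ι] [DecidableEq ι] (M : Msg A) (c : ℝ),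
    M.Ok → 0 < c → DT ι M (fun _ => c) = log c
  emb : ∀ {A : Type} [Fintype A] (κ ι : Type) [Fintype κ] [DecidableEq κ] [Fintype ι]
    [DecidableEq ι] (M : Msg A) (e : κ → ι) (W : (κ → Bool) → ℝ), M.Ok → Function.Injective e →
    (∀ s, 0 < W s) → DT ι M (fun s => W (fun k => s (e k))) = DT κ M W
  prod : ∀ {A : Type} [Fintype A] (ι α : Type) [Fintype ι] [DecidableEq ι] [Fintype α]
    (M : Msg A) (fib : ι → α) (W : α → (ι → Bool) → ℝ), M.Ok → (∀ a s, 0 < W a s) →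
    (∀ a s s', (∀ j, fib j = a → s j = s' j) → W a s = W a s') →
    DT ι M (fun s => ∏ a, W a s) = ∑ a, DT ι M (W a)
  vadd : ∀ {A : Type} [Fintype A] (K : ℕ) (κ : Type) [Fintype κ] [DecidableEq κ] (M : Msg A)
    (θ : κ → Clause K), M.Ok →
    DT (κ × Fin K) M (Vw θ) = ∑ k, DT (Fin K) M (fun s => exp (θ k s))
  uw_bd : ∀ (K : ℕ) (κ : Type) [Fintype κ] (h h' : ℝ) (θ θ' : κ → Clause K) (l : κ → Fin K)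
    (s : κ × Fin K → Bool), 0 < Uw h θ l s ∧
      Uw h θ l s ≤ exp (|h - h'| + ∑ k, ‖θ k - θ' k‖) * Uw h' θ' l s ∧
      |log (Uw h θ l s)| ≤ log 2 + |h| + ∑ k, ‖θ k‖
  vw_bd : ∀ (K : ℕ) (κ : Type) [Fintype κ] (θ θ' : κ → Clause K) (s : κ × Fin K → Bool),
    0 < Vw θ s ∧ Vw θ s ≤ exp (∑ k, ‖θ k - θ' k‖) * Vw θ' s ∧ |log (Vw θ s)| ≤ ∑ k, ‖θ k‖
  step : ∀ {K : ℕ} {A ι V : Type} [Fintype A] [Fintype ι] [DecidableEq ι] [Fintype V]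
    [DecidableEq V] [Nonempty V] (M : Msg A) (G : (ι → Bool) → (V → Bool) → ℝ) (e : Fin K → ι),
    1 ≤ K → M.Ok → Bg G e →
    (∀ θ θ' : Clause K, |stepF M G e θ - stepF M G e θ'| ≤ 2 * ‖θ - θ'‖) ∧
    (∀ (θ : Clause K) (c : ℝ), stepF M G e (fun σ => θ σ + c) = stepF M G e θ) ∧
    stepF M G e 0 = 0

/-- module Frz -/
structure SApi : Prop where
  cell_pos : ∀ {Ξ Λ : Type} [Fintype Ξ] (p : Ξ → ℝ) (F : Ξ → Λ) (ξ : Ξ), PrP p → 0 < cell F p ξ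
  cell_meas : ∀ {Ξ Λ : Type} [Fintype Ξ] (μ : Ξ → ℝ) (F : Ξ → Λ), Meas F (cell F μ)
  den_meas : ∀ {Ξ Λ : Type} [Fintype Ξ] (p μ : Ξ → ℝ) (F : Ξ → Λ), Meas F (den p F μ)
  den_nn : ∀ {Ξ Λ : Type} [Fintype Ξ] (p μ : Ξ → ℝ) (F : Ξ → Λ) (ξ : Ξ), PrP p →
    (∀ ξ, 0 ≤ μ ξ) → 0 ≤ den p F μ ξ
  ex_den : ∀ {Ξ Λ : Type} [Fintype Ξ] (p μ G : Ξ → ℝ) (F : Ξ → Λ), PrP p → Meas F G →
    Ex p (fun ξ => G ξ * den p F μ ξ) = ∑ ξ, μ ξ * G ξ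
  ex_cE : ∀ {Ξ Λ : Type} [Fintype Ξ] (p f G : Ξ → ℝ) (F : Ξ → Λ), PrP p → Meas F G →
    Ex p (fun ξ => G ξ * cE p F f ξ) = Ex p (fun ξ => G ξ * f ξ)
  cE_mono : ∀ {Ξ Λ : Type} [Fintype Ξ] (p f g : Ξ → ℝ) (F : Ξ → Λ) (ξ : Ξ), PrP p →
    (∀ ξ', F ξ' = F ξ → f ξ' ≤ g ξ') → cE p F f ξ ≤ cE p F g ξ
  cE_const : ∀ {Ξ Λ : Type} [Fintype Ξ] (p : Ξ → ℝ) (F : Ξ → Λ) (c : ℝ) (ξ : Ξ), PrP p →
    cE p F (fun _ => c) ξ = c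
  cE_lin : ∀ {Ξ Λ : Type} [Fintype Ξ] (p f g : Ξ → ℝ) (F : Ξ → Λ) (a b : ℝ) (ξ : Ξ),
    cE p F (fun ξ' => a * f ξ' + b * g ξ') ξ = a * cE p F f ξ + b * cE p F g ξ
  cE_sum : ∀ {Ξ Λ C : Type} [Fintype Ξ] [Fintype C] (p : Ξ → ℝ) (F : Ξ → Λ) (τ : C → ℝ)
    (f : C → Ξ → ℝ) (ξ : Ξ),
    cE p F (fun ξ' => ∑ c, τ c * f c ξ') ξ = ∑ c, τ c * cE p F (f c) ξ
  cE_mul : ∀ {Ξ Λ : Type} [Fintype Ξ] (p f G : Ξ → ℝ) (F : Ξ → Λ) (ξ : Ξ), Meas F G →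
    cE p F (fun ξ' => G ξ' * f ξ') ξ = G ξ * cE p F f ξ
  tower : ∀ {Ξ Λ : Type} [Fintype Ξ] (p μ : Ξ → ℝ) (F F' : Ξ → Λ) (ξ : Ξ), PrP p →
    Meas F' F → cE p F (den p F' μ) ξ = den p F μ ξ
  proj : ∀ {Ξ Λ : Type} [Fintype Ξ] (p f g : Ξ → ℝ) (F : Ξ → Λ), PrP p → Meas F g →
    Ex p (fun ξ => (f ξ - cE p F f ξ) ^ 2) ≤ Ex p (fun ξ => (f ξ - g ξ) ^ 2)
  few : ∀ {Ξ Λ : Type} [Fintype Ξ] (p : Ξ → ℝ) (F : Ξ → Λ) (L : ℕ), PrP p → Few L F →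
    Ex p (fun ξ => 1 / cell F p ξ) ≤ L
  den_add : ∀ {Ξ Λ : Type} [Fintype Ξ] [DecidableEq Ξ] (p μ : Ξ → ℝ) (F : Ξ → Λ) (κ : ℝ)
    (ξ0 ξ : Ξ), PrP p → 0 ≤ κ →
    |den p F (fun ξ' => μ ξ' + if ξ' = ξ0 then κ else 0) ξ - den p F μ ξ| ≤ κ / cell F p ξ0
  sub : ∀ {Ξ Λ : Type} [Fintype Ξ] (p : Ξ → ℝ) (M : ℝ) (F : Ξ → Λ) (c : List (ℝ × (Ξ → Λ)))
    (Z Z' : Ξ → ℝ), PrP p → CtxOk M F c →
    SS p c Z + Ex p (fun ξ => WW p c Z ξ * (Z' ξ - Z ξ)) ≤ SS p c Z'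
  w_pos : ∀ {Ξ Λ : Type} [Fintype Ξ] (p : Ξ → ℝ) (c : List (ℝ × (Ξ → Λ))) (Z : Ξ → ℝ) (ξ : Ξ),
    0 < WW p c Z ξ
  w_le : ∀ {Ξ Λ : Type} [Fintype Ξ] (p : Ξ → ℝ) (M b : ℝ) (F : Ξ → Λ)
    (c : List (ℝ × (Ξ → Λ))) (Z : Ξ → ℝ) (ξ : Ξ), PrP p → CtxOk M F c → M ≤ 1 →
    (∀ ξ, |Z ξ| ≤ b) → WW p c Z ξ ≤ exp (2 * b)
  w_meas : ∀ {Ξ Λ : Type} [Fintype Ξ] (p : Ξ → ℝ) (M : ℝ) (F : Ξ → Λ)
    (c : List (ℝ × (Ξ → Λ))) (Z : Ξ → ℝ), CtxOk M F c → Meas F Z → Meas F (WW p c Z)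
  w_lip : ∀ {Ξ Λ : Type} [Fintype Ξ] (p : Ξ → ℝ) (M s : ℝ) (F : Ξ → Λ)
    (c : List (ℝ × (Ξ → Λ))) (Z Z' : Ξ → ℝ) (ξ : Ξ), PrP p → CtxOk M F c → M ≤ 1 →
    (∀ ξ, |Z ξ - Z' ξ| ≤ s) → WW p c Z ξ ≤ exp (2 * s) * WW p c Z' ξ
  conc : ∀ {Ξ Λ C : Type} [Fintype Ξ] [Fintype C] (p : Ξ → ℝ) (M : ℝ) (F : Ξ → Λ)
    (c : List (ℝ × (Ξ → Λ))) (τ : C → ℝ) (u : C → Ξ → ℝ), PrP p → CtxOk M F c → 0 < M →
    Pr τ → (∀ a ξ, 0 < u a ξ) →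
    ∑ a, τ a * SS p c (fun ξ => M⁻¹ * log (u a ξ)) ≤
      SS p c (fun ξ => M⁻¹ * log (∑ a, τ a * u a ξ))
  mono : ∀ {Ξ Λ : Type} [Fintype Ξ] (p : Ξ → ℝ) (M s : ℝ) (F : Ξ → Λ)
    (c : List (ℝ × (Ξ → Λ))) (Z Z' : Ξ → ℝ), PrP p → CtxOk M F c →
    (∀ ξ, Z ξ ≤ Z' ξ + s) → SS p c Z ≤ SS p c Z' + s

/-- module Casc -/
structure XApi : Prop where
  mono : ∀ {S Γ : Type} [Fintype S] [Fintype Γ] [Nonempty S] (w : Γ → ℝ) (h : Γ → S → ℝ)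
    (ms : List ℝ) (H H' : S → ℝ) (c : ℝ), Pr w → (∀ m ∈ ms, 0 < m) →
    (∀ σ, H σ ≤ H' σ + c) → XX w h ms H ≤ XX w h ms H' + c
  yy_bd : ∀ {S Γ : Type} [Fintype S] [Fintype Γ] [Nonempty S] (w : Γ → ℝ) (h : Γ → S → ℝ)
    (ms : List ℝ) (H y : S → ℝ) (B : ℝ), Pr w → (∀ m ∈ ms, 0 < m) →
    (∀ σ, |y σ| ≤ B) → |YY w h ms H y| ≤ B
  tau_pr : ∀ {S Γ : Type} [Fintype S] [Fintype Γ] (w : Γ → ℝ) (h : Γ → S → ℝ) (m : ℝ)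
    (ms : List ℝ) (H : S → ℝ), Pr w → 0 < m → Pr (tau w h m ms H)
  gib_pr : ∀ {S : Type} [Fintype S] [Nonempty S] (H : S → ℝ), Pr (gib H)
  tilt : ∀ {S Γ : Type} [Fintype S] [Fintype Γ] (w : Γ → ℝ) (h : Γ → S → ℝ) (m : ℝ)
    (ms : List ℝ) (H y : S → ℝ) (γ : Γ),
    tau w h m ms (H + y) γ =
      tau w h m ms H γ * exp (m * (YY w h ms (H + h γ) y - YY w h (m :: ms) H y))
  gtilt : ∀ {S Γ : Type} [Fintype S] [Fintype Γ] [Nonempty S] (w : Γ → ℝ) (h : Γ → S → ℝ)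
    (H y : S → ℝ) (σ : S), gib (H + y) σ = gib H σ * exp (y σ - YY w h [] H y)
  mix : ∀ {S Γ : Type} [Fintype S] [Fintype Γ] (w : Γ → ℝ) (h : Γ → S → ℝ) (m : ℝ)
    (ms : List ℝ) (H y : S → ℝ), Pr w → 0 < m →
    exp (m * YY w h (m :: ms) H y) = ∑ γ, tau w h m ms H γ * exp (m * YY w h ms (H + h γ) y)
  gmix : ∀ {S Γ : Type} [Fintype S] [Fintype Γ] [Nonempty S] (w : Γ → ℝ) (h : Γ → S → ℝ)
    (H y : S → ℝ), exp (YY w h [] H y) = ∑ σ, gib H σ * exp (y σ)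
  pe_mono : ∀ {S Γ : Type} [Fintype S] [Fintype Γ] [Nonempty S] (w : Γ → ℝ) (h : Γ → S → ℝ)
    (ms : List ℝ) (hist : List (ℝ × Γ)) (H : S → ℝ) (Φ Ψ : List (ℝ × Γ) → S → ℝ), Pr w →
    (∀ m ∈ ms, 0 < m) →
    (∀ hist' σ, (hist'.map Prod.fst).reverse = (hist.map Prod.fst).reverse ++ ms →
      Φ hist' σ ≤ Ψ hist' σ) → PE w h ms hist H Φ ≤ PE w h ms hist H Ψ
  pe_const : ∀ {S Γ : Type} [Fintype S] [Fintype Γ] [Nonempty S] (w : Γ → ℝ) (h : Γ → S → ℝ)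
    (ms : List ℝ) (hist : List (ℝ × Γ)) (H : S → ℝ) (c : ℝ), Pr w → (∀ m ∈ ms, 0 < m) →
    PE w h ms hist H (fun _ _ => c) = c
  pe_lin : ∀ {S Γ : Type} [Fintype S] [Fintype Γ] (w : Γ → ℝ) (h : Γ → S → ℝ)
    (ms : List ℝ) (hist : List (ℝ × Γ)) (H : S → ℝ) (Φ Ψ : List (ℝ × Γ) → S → ℝ) (a b : ℝ),
    PE w h ms hist H (fun g σ => a * Φ g σ + b * Ψ g σ) =
      a * PE w h ms hist H Φ + b * PE w h ms hist H Ψ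
  pe_sum : ∀ {S Γ α : Type} [Fintype S] [Fintype Γ] (w : Γ → ℝ) (h : Γ → S → ℝ)
    (ms : List ℝ) (hist : List (ℝ × Γ)) (H : S → ℝ) (s : Finset α) (a : α → ℝ)
    (Φ : α → List (ℝ × Γ) → S → ℝ),
    PE w h ms hist H (fun g σ => ∑ i ∈ s, a i * Φ i g σ) = ∑ i ∈ s, a i * PE w h ms hist H (Φ i)
  near : ∀ {S Γ : Type} [Fintype S] [Fintype Γ] [Nonempty S] (w : Γ → ℝ) (h : Γ → S → ℝ)
    (ms : List ℝ) (H : S → ℝ) (b : ℝ), Pr w → (∀ m ∈ ms, 0 < m) → (∀ γ σ, |h γ σ| ≤ b) →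
    |XX w h ms H - log (∑ σ, exp (H σ))| ≤ ms.length * b
  dom : ∀ {S Γ Γ' : Type} [Fintype S] [Fintype Γ] [Fintype Γ'] (w : Γ → ℝ) (w' : Γ' → ℝ)
    (h' : Γ' → S → ℝ) (g : Γ → Γ') (a μ0 : ℝ) (ms : List ℝ) (H : S → ℝ), Pr w → Pr w' →
    0 < a → a ≤ 1 → 0 < μ0 → (∀ m ∈ ms, μ0 ≤ m) →
    (∀ F : Γ' → ℝ, (∀ γ, 0 ≤ F γ) → a * ∑ γ, w γ * F (g γ) ≤ ∑ γ', w' γ' * F γ') →
    XX w (fun γ => h' (g γ)) ms H + ms.length * (log a / μ0) ≤ XX w' h' ms H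
  marg : ∀ {S S' E Γ : Type} [Fintype S] [Fintype S'] [Fintype E] [Nonempty E] [Fintype Γ]
    (w : Γ → ℝ) (h : Γ → S → ℝ) (e : S × E ≃ S') (ms : List ℝ) (H' : S' → ℝ),
    XX w (fun γ σ' => h γ (e.symm σ').1) ms H' =
      XX w h ms (fun σ => log (∑ ε, exp (H' (e (σ, ε)))))
  chain : ∀ (Δ : ℝ) (ms : List ℝ), Chain Δ ms →
    nxt ms ≤ 1 ∧ (∀ m ∈ ms, nxt ms ≤ m ∧ m ≤ 1) ∧
      ∀ k, Chain Δ (ms.drop k) ∧ nxt ms ≤ nxt (ms.drop k)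
  sw_pr : ∀ {Ξ : Type} [Fintype Ξ] (p : Ξ → ℝ) (q : ℝ) (n : ℕ), Pr p → 0 ≤ q → q ≤ 1 →
    Pr (sw p q n)
  tp_pr : ∀ {T : Type} [Fintype T] (pT : T → ℝ) (J V : Type) [Fintype J] [DecidableEq J]
    [Fintype V] [Nonempty V], PrP pT → PrP (tp pT J V)

/-- module Mecke (uses XApi, SApi) -/
def MeckeStmt : Prop :=
  ∀ (S Ξ Λ : Type) [Fintype S] [Nonempty S] [Fintype Ξ] (p : Ξ → ℝ) (y : Ξ → S → ℝ) (B q : ℝ)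
    (L n : ℕ), PrP p → 0 ≤ B → (∀ ξ σ, |y ξ σ| ≤ B) → 0 < q → q ≤ 1 / 2 → 0 < n →
    (∀ (m : ℝ) (ms : List ℝ), 0 < m → m ≤ 1 → (∀ m' ∈ ms, 0 < m') →
      Lev Λ p y B (exp B * (L / (q * n) + 2 * exp B * q)) L m
          (XX (sw p q n) (sh y n) (m :: ms)) (tau (sw p q n) (sh y n) m ms) (smu q n)
          (fun H γ ξ => YY (sw p q n) (sh y n) ms (H + sh y n γ) (y ξ)) ∧
        ∀ (H : S → ℝ) (F : Ξ → Λ), Few L F →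
          AMP p y F (tau (sw p q n) (sh y n) m ms H) (sh y n) (smu q n)
            (fun γ ξ => exp (m * YY (sw p q n) (sh y n) ms (H + sh y n γ) (y ξ)))
            ((1 - q) / (q * n)) (exp B * (L / (q * n) + 2 * exp B * q))) ∧
    Lev Λ p y B (exp B * (L / (q * n) + 2 * exp B * q)) L 1 (XX (sw p q n) (sh y n) []) gib
      (fun σ ξ => p ξ * exp (y ξ σ)) (fun _ σ ξ => y ξ σ)

/-- module Cons (uses SApi) -/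
def ConsStmt : Prop :=
  ∀ B : ℝ, 0 ≤ B → ∃ C : ℝ, 0 ≤ C ∧
    ∀ (Ξ Λ A : Type) [Fintype Ξ] [Fintype A] (p : Ξ → ℝ) (F : Ξ → Λ) (τ : A → ℝ)
      (μ E : A → Ξ → ℝ) (δ : ℝ), PrP p → Pr τ → (∀ c ξ, 0 ≤ μ c ξ) →
      (∀ c ξ, exp (-B) ≤ E c ξ ∧ E c ξ ≤ exp B) → 0 < δ → δ ≤ 1 → AM p F τ μ E δ →
      (∑ c, τ c * Ex p (fun ξ => |den p F (μ c) ξ - cl B (den p F (μ c) ξ)|) ≤ C * √δ) ∧
      (∀ (Ψ : Ξ → ℝ) (g : ℝ), Meas F Ψ → (∀ ξ, |Ψ ξ| ≤ g) →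
        |∑ c, τ c * Ex p (fun ξ => Ψ ξ * cl B (den p F (μ c) ξ)) -
          Ex p (fun ξ => Ψ ξ * ∑ c, τ c * E c ξ)| ≤ g * (C * √δ)) ∧
      ∑ c, τ c * Ex p (fun ξ =>
          (cl B (den p F (μ c) ξ) - cE p F (fun ξ' => ∑ c', τ c' * E c' ξ') ξ) ^ 2) ≤
        ∑ c, τ c * Ex p (fun ξ => E c ξ ^ 2) - Ex p (fun ξ => (∑ c, τ c * E c ξ) ^ 2) + C * δ

/-- module Step (uses SApi, ConsStmt) -/
def StepStmt : Prop :=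
  ∀ B μ0 : ℝ, 0 ≤ B → 0 < μ0 → ∃ C : ℝ, 0 ≤ C ∧
    ∀ (S Ξ Λ Γ A : Type) [Fintype Ξ] [Fintype Γ] [Fintype A] (p : Ξ → ℝ) (y : Ξ → S → ℝ)
      (δ Δ m m' κ : ℝ) (L : ℕ) (ctx : List (ℝ × (Ξ → Λ))) (F : Ξ → Λ) (F' : Γ → Ξ → Λ)
      (X : (S → ℝ) → ℝ) (τ' : (S → ℝ) → A → ℝ) (μ' : A → Ξ → ℝ) (Yc : (S → ℝ) → A → Ξ → ℝ)
      (H : S → ℝ) (τ : Γ → ℝ) (h : Γ → S → ℝ) (μ : Γ → Ξ → ℝ),
      PrP p → 0 < δ → δ ≤ 1 → 0 ≤ Δ → Δ ≤ 1 → μ0 ≤ m → m ≤ m' → m' ≤ m + Δ → m' ≤ 1 → 0 ≤ κ →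
      CtxOk m F ctx → Few L F → (∀ γ, Few L (F' γ)) → (∀ γ, Meas (F' γ) F) →
      Lev Λ p y B δ L m' X τ' μ' Yc → Pr τ → (∀ γ ξ, 0 ≤ μ γ ξ) →
      AM p F τ μ (fun γ ξ => exp (m * (X (H + h γ + y ξ) - X (H + h γ)))) δ →
      AMP p y F τ h μ (fun γ ξ => exp (m * (X (H + h γ + y ξ) - X (H + h γ)))) κ δ →
      ∑ γ, τ γ * SS p ctx (fun ξ => m⁻¹ * log (cl B (den p F (μ γ) ξ))) -
        C * (Δ * ∑ γ, τ γ * (∑ c, τ' (H + h γ) c *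
              Ex p (fun ξ => exp (2 * m' * Yc (H + h γ) c ξ)) -
            Ex p (fun ξ => exp (2 * m' * (X (H + h γ + y ξ) - X (H + h γ))))) + Δ ^ 2 + √δ) ≤
      ∑ γ, τ γ * ∑ c, τ' (H + h γ) c *
        SS p ((m, F) :: ctx) (fun ξ => m'⁻¹ * log (cl B (den p (F' γ) (μ' c) ξ)))

/-- module Vth (uses SApi, XApi, MeckeStmt, ConsStmt, StepStmt) -/
def VStmt : Prop :=
  ∀ B ε : ℝ, 0 ≤ B → 0 < ε → ∃ μ1 : ℝ, 0 < μ1 ∧ ∀ μ0 : ℝ, 0 < μ0 → μ0 ≤ μ1 →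
    ∃ Δ0 : ℝ, 0 < Δ0 ∧ ∀ (Δ : ℝ) (r L : ℕ), 0 ≤ Δ → Δ ≤ Δ0 → r * Δ ≤ 1 →
      ∃ (q : ℝ) (n : ℕ), 0 < q ∧ q ≤ 1 / 2 ∧ 0 < n ∧
        ∀ (S Ξ Λ : Type) [Fintype S] [Nonempty S] [Fintype Ξ] (p : Ξ → ℝ) (y : Ξ → S → ℝ)
          (lab : List (ℝ × (Fin n → Option Ξ)) → Ξ → Λ) (ms : List ℝ) (H : S → ℝ),
          PrP p → (∀ ξ σ, |y ξ σ| ≤ B) → Chain Δ ms → nxt ms = μ0 → ms.length ≤ r →
          Nested lab → (∀ hist, hist.length ≤ r → Few L (lab hist)) →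
          Ex p (fun ξ => YY (sw p q n) (sh y n) ms H (y ξ)) - ε ≤
            PE (sw p q n) (sh y n) ms [] H (frz p y lab)

/-- module Uth (uses SApi, XApi) -/
def UStmt : Prop :=
  ∀ B ε : ℝ, 0 ≤ B → 0 < ε → ∃ μ1 : ℝ, 0 < μ1 ∧ ∀ μ0 : ℝ, 0 < μ0 → μ0 ≤ μ1 →
    ∃ εA : ℝ, 0 < εA ∧
      ∀ (S Γ Ξ Λ : Type) [Fintype S] [Nonempty S] [Fintype Γ] [Fintype Ξ] (w : Γ → ℝ)
        (h : Γ → S → ℝ) (p : Ξ → ℝ) (y : Ξ → S → ℝ) (lab : List (ℝ × Γ) → Ξ → Λ) (Δ : ℝ)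
        (ms : List ℝ) (H : S → ℝ),
        Pr w → PrP p → (∀ ξ σ, |y ξ σ| ≤ B) → 0 ≤ Δ → Chain Δ ms → nxt ms = μ0 →
        ms.length * Δ ≤ 1 → Nested lab →
        (∀ hist, ∃ g : Ξ → ℝ, Meas (lab hist) g ∧
          Ex p (fun ξ => (exp (nxt (ms.drop hist.length) *
            YY w h (ms.drop hist.length) (Hof h H hist) (y ξ)) - g ξ) ^ 2) ≤ εA) →
        PE w h ms [] H (frz p y lab) ≤ Ex p (fun ξ => YY w h ms H (y ξ)) + ε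

/-- module App (uses XApi) -/
def AppStmt : Prop :=
  ∀ (B ε : ℝ) (r : ℕ), 0 ≤ B → 0 < ε → ∃ L : ℕ,
    ∀ (T J V Γ : Type) [Fintype T] [Fintype J] [DecidableEq J] [Fintype V] [DecidableEq V]
      [Nonempty V] [Fintype Γ] (pT : T → ℝ) (W : T → (J → Bool) → ℝ) (w : Γ → ℝ)
      (h : Γ → (V → Bool) → ℝ) (Δ : ℝ) (ms : List ℝ) (H : (V → Bool) → ℝ),
      PrP pT → (∀ t s, 0 < W t s ∧ |log (W t s)| ≤ B) → Pr w → Chain Δ ms → 0 < nxt ms →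
      ms.length ≤ r →
      ∃ l : V → ℕ, (∀ i, l i < L) ∧ ∃ g : T × (J → V) → ℝ, Meas (tl l) g ∧
        Ex (tp pT J V) (fun ξ => (exp (nxt ms * YY w h ms H (ty W ξ)) - g ξ) ^ 2) ≤ ε

/-- module Bridge -/
def BrStmt : Prop :=
  (∀ (T J V Γ : Type) [Fintype T] [Fintype J] [DecidableEq J] [Fintype V] [Nonempty V]
    (pT : T → ℝ) (W : T → (J → Bool) → ℝ) (sl : List (ℝ × Γ) → V → ℕ) (hist : List (ℝ × Γ))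
    (σ : V → Bool), PrP pT → (∀ t s, 0 < W t s) →
    frz (tp pT J V) (ty W) (fun g => tl (sl g)) hist σ =
      Ex pT (fun t => DT J (msgOf sl hist σ) (W t))) ∧
  ∀ (V Γ : Type) [Fintype V] [Nonempty V] (sl : List (ℝ × Γ) → V → ℕ) (hist : List (ℝ × Γ))
    (σ : V → Bool), ((hist.map Prod.fst).reverse).Pairwise (· < ·) →
    (∀ g ∈ hist, 0 < g.1 ∧ g.1 < 1) → (msgOf sl hist σ).Ok

/-- module Key (uses PoApi, OpApi, BApi, XApi, VStmt, UStmt, AppStmt, BrStmt) -/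
def KeyStmt : Prop :=
  ∀ (K : ℕ) (Θ Η : Type) [Fintype Θ] [Fintype Η] (lam : ℝ) (D : FM K Θ Η) (ε : ℝ),
    1 ≤ K → 0 < lam → D.Ok → 0 < ε →
    ∃ (ms : List ℝ) (n : ℕ) (q μ0 : ℝ), 0 < q ∧ q ≤ 1 / 2 ∧ 0 < μ0 ∧ (∀ m ∈ ms, μ0 ≤ m) ∧
      ∀ φ : ℝ, LowB lam D φ → ∀ N : ℕ, 1 ≤ N → ∀ H : (Fin N → Bool) → ℝ,
        φ - ε ≤ ∑' l : ℕ, poi (K * lam) l * ups D N n q ms l H -
          (K - 1) * lam * phi1 D N n q ms H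

/-- module Low (uses PoApi, OpApi, BApi, XApi, KeyStmt) -/
def LowStmt : Prop :=
  ∀ (K : ℕ) (Θ Η : Type) [Fintype Θ] [Fintype Η] (lam : ℝ) (D : FM K Θ Η) (φ ε : ℝ),
    1 ≤ K → 0 < lam → D.Ok → 0 < ε → LowB lam D φ → ∀ᶠ N in atTop, φ - ε ≤ pressF lam D N

/-- module Up (uses PoApi, OpApi, BApi) -/
def UpStmt : Prop :=
  ∀ (K : ℕ) (Θ Η A : Type) [Fintype Θ] [Fintype Η] [Fintype A] (lam δ : ℝ) (D : FM K Θ Η)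
    (M : Msg A) (N : ℕ), 1 ≤ K → 0 < lam → D.Ok → M.Ok → 1 ≤ N →
    StepOk K (fun f => Ex D.p (fun t => f (D.θ t))) δ →
    pressF lam D N ≤ trialF lam D (fun _ W => DT _ M W) + K * lam * δ

/-- module Pos1 (uses BApi) -/
def Ps1Stmt : Prop :=
  ∀ (K : ℕ) (Ω : Type) [MeasurableSpace Ω] (P : Measure Ω) [IsProbabilityMeasure P]
    (b : Ω → ℝ) (f : Fin K → Ω → Bool → ℝ) (s : ℝ), Even K → 1 ≤ K → s < 1 →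
    Measurable b → (∀ j, Measurable (f j)) → (∀ ω, |b ω| ≤ s) → (∀ j ω t, |f j ω t| ≤ 1) →
    ProbabilityTheory.iIndepFun f P →
    (∀ j j', ProbabilityTheory.IdentDistrib (f j) (f j') P P) →
    ProbabilityTheory.IndepFun b (fun ω j => f j ω) P →
    (∀ n : ℕ, 1 ≤ n → 0 ≤ ∫ ω, (-b ω) ^ n ∂P) →
    StepOk K (fun F => ∫ ω, F (fun σ => log (1 + b ω * ∏ j, f j ω (σ j))) ∂P) 0

/-- module Pos2 (uses BApi, Ps1Stmt) -/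
def PosStmt : Prop :=
  ∀ (K : ℕ) (μ : Measure (Clause K)), Even K → 1 ≤ K → Integrable (fun θ => θ) μ →
    InClass K μ → StepOk K (fun F => ∫ θ, F θ ∂μ) 0

/-- module Cont (uses BApi) -/
structure CApi : Prop where
  meas : ∀ (P ι : Type) [MeasurableSpace P] [Fintype ι] (r : ℕ) (m : Fin r → ℝ)
    (Y : P → (ι → Fin r → unitInterval) → ℝ), Measurable (Function.uncurry Y) →
    Measurable (fun z => casc ι r m (Y z))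
  mono : ∀ (r : ℕ) (m : Fin r → ℝ) (x : (Fin (r + 1) → unitInterval) → ℝ) (ι : Type) [Fintype ι]
    [DecidableEq ι] (W W' : (ι → Bool) → ℝ) (c : ℝ), (∀ p, 0 < m p) → Measurable x →
    (∀ ω, |x ω| ≤ 1) → (∀ s, 0 < W s) → (∀ s, W s ≤ exp c * W' s) →
    TC r m x ι W ≤ c + TC r m x ι W'
  const : ∀ (r : ℕ) (m : Fin r → ℝ) (x : (Fin (r + 1) → unitInterval) → ℝ) (ι : Type)
    [Fintype ι] [DecidableEq ι] (c : ℝ), (∀ p, 0 < m p) → 0 < c →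
    TC r m x ι (fun _ => c) = log c
  lip : ∀ (r : ℕ) (m : Fin r → ℝ) (ι : Type) [Fintype ι] [DecidableEq ι]
    (W : (ι → Bool) → ℝ), (∀ p, 0 < m p ∧ m p ≤ 1) → (∀ s, 0 < W s) → ∃ C : ℝ,
    ∀ x x' : (Fin (r + 1) → unitInterval) → ℝ, Measurable x → Measurable x' →
      (∀ ω, |x ω| ≤ 1) → (∀ ω, |x' ω| ≤ 1) →
      |TC r m x ι W - TC r m x' ι W| ≤ C * ∫ ω, |x ω - x' ω|

def run {A : Type} : (r : ℕ) → (Fin r → A → unitInterval → A) → A → (Fin r → unitInterval) → A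
  | 0, _, a, _ => a
  | r + 1, ψ, a, ω => run r (Fin.tail ψ) (ψ 0 a (ω 0)) (Fin.tail ω)

/-- module Ident, first part -/
def IdStmt : Prop :=
  ∀ (A : Type) [Fintype A] (r : ℕ) (m : Fin r → ℝ) (ψ0 : unitInterval → A)
    (ψ : Fin r → A → unitInterval → A) (xA : A → ℝ),
    (∀ a, MeasurableSet {t | ψ0 t = a}) → (∀ p a a', MeasurableSet {t | ψ p a t = a'}) →
    (∀ p, 0 < m p) → (∀ a, |xA a| ≤ 1) →
    Measurable (fun ω : Fin (r + 1) → unitInterval => xA (run r ψ (ψ0 (ω 0)) (Fin.tail ω))) ∧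
    ∀ (ι : Type) [Fintype ι] [DecidableEq ι] (W : (ι → Bool) → ℝ), (∀ s, 0 < W s) →
      TC r m (fun ω => xA (run r ψ (ψ0 (ω 0)) (Fin.tail ω))) ι W =
        DT ι ⟨fun a => volume.real {t | ψ0 t = a},
          List.ofFn (fun p => (m p, fun a a' => volume.real {t | ψ p a t = a'})), xA⟩ W

/-- module Exi (uses IdStmt) -/
def ExiStmt : Prop :=
  ∀ (A : Type) [Fintype A] (M : Msg A), M.Ok →
    ∃ (r : ℕ) (m : Fin r → ℝ) (x : (Fin (r + 1) → unitInterval) → ℝ),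
      StrictMono m ∧ (∀ p, 0 < m p ∧ m p < 1) ∧ Measurable x ∧ (∀ ω, |x ω| ≤ 1) ∧
      ∀ (ι : Type) [Fintype ι] [DecidableEq ι] (W : (ι → Bool) → ℝ), (∀ s, 0 < W s) →
        TC r m x ι W = DT ι M W

/-- module Apx (uses IdStmt, CApi) -/
def ApxStmt : Prop :=
  ∀ (r : ℕ) (m : Fin r → ℝ) (x : (Fin (r + 1) → unitInterval) → ℝ),
    StrictMono m → (∀ p, 0 < m p ∧ m p < 1) → Measurable x → (∀ ω, |x ω| ≤ 1) →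
    ∃ (a : ℕ → ℕ) (M : (n : ℕ) → Msg (Fin (r + 1) → Fin (a n + 1))), (∀ n, (M n).Ok) ∧
      ∀ (ι : Type) [Fintype ι] [DecidableEq ι] (W : (ι → Bool) → ℝ), (∀ s, 0 < W s) →
        Tendsto (fun n => DT ι (M n) W) atTop (𝓝 (TC r m x ι W))

/-- module Fin -/
def FinStmt : Prop :=
  ∀ (E : Type) [NormedAddCommGroup E] [MeasurableSpace E] [BorelSpace E]
    [SecondCountableTopology E] (μ : Measure E) [IsProbabilityMeasure μ],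
    Integrable (fun e => e) μ →
    (∀ (ι : Type) [Fintype ι] (Φ : (ι → E) → ℝ) (c : ℝ), 0 ≤ c →
      (∀ e e', |Φ e - Φ e'| ≤ c * ∑ i, ‖e i - e' i‖) →
      Integrable Φ (Measure.pi fun _ : ι => μ) ∧
        |∫ e, Φ e ∂(Measure.pi fun _ : ι => μ)| ≤ |Φ 0| + c * (Fintype.card ι * ∫ e, ‖e‖ ∂μ)) ∧
    ∀ δ : ℝ, 0 < δ → ∃ (n : ℕ) (v : Fin n → E) (p : Fin n → ℝ), PrP p ∧
      (∀ (φ : E → ℝ) (c : ℝ), 0 ≤ c → (∀ e e', |φ e - φ e'| ≤ c * ‖e - e'‖) →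
        |∫ e, φ e ∂μ - Ex p (fun t => φ (v t))| ≤ c * δ) ∧
      ∀ (ι : Type) [Fintype ι] [DecidableEq ι] (Φ : (ι → E) → ℝ) (c : ℝ), 0 ≤ c →
        (∀ e e', |Φ e - Φ e'| ≤ c * ∑ i, ‖e i - e' i‖) →
        |∫ e, Φ e ∂(Measure.pi fun _ : ι => μ) - EP p ι (fun t => Φ (fun i => v (t i)))| ≤
          c * (Fintype.card ι * δ)

/-- module Cmp (uses PoApi, OpApi, BApi, CApi, FinStmt) -/
def CmpStmt : Prop :=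
  ∀ (K : ℕ) (lam : ℝ) (μ : Measure (Clause K)) (ν : Measure ℝ) [IsProbabilityMeasure μ]
    [IsProbabilityMeasure ν], 1 ≤ K → 0 < lam → Integrable (fun θ => θ) μ →
    Integrable (fun h => h) ν →
    BddBelow (⋃ r, trial K lam μ ν r) ∧
    ∀ δ : ℝ, 0 < δ → ∃ (n1 n2 : ℕ) (D : FM K (Fin n1) (Fin n2)), D.Ok ∧
      (∀ N : ℕ, 1 ≤ N → |pressure K lam μ ν N - pressF lam D N| ≤ δ) ∧
      (∀ (r : ℕ) (m : Fin r → ℝ) (x : (Fin (r + 1) → unitInterval) → ℝ), (∀ p, 0 < m p) →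
        Measurable x → (∀ ω, |x ω| ≤ 1) →
        |TU K lam μ ν r m x - TV K lam μ r m x - trialF lam D (fun _ W => TC r m x _ W)| ≤ δ) ∧
      ∀ φ : Clause K → ℝ, (∀ θ θ', |φ θ - φ θ'| ≤ 2 * ‖θ - θ'‖) →
        |∫ θ, φ θ ∂μ - Ex D.p (fun t => φ (D.θ t))| ≤ δ

end

end Vale.Agent.P168
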