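import Vale.Agent.P168.Stm

/-! Module Up: the interpolation upper bound. -/

namespace Vale.Agent.P168

open Finset Real Function

noncomputable section

namespace Up

section
variable {A B : Type} [Fintype A] [Fintype B]

lemma swp (p : A → ℝ) (p' : B → ℝ) (f : A → B → ℝ) :
    Ex p (fun a => Ex p' (f a)) = Ex p' fun b => Ex p fun a => f a b := by
  simp only [Ex, mul_sum]
  rw [sum_comm]
  simp only [mul_left_comm]

lemma ex_add (p f : A → ℝ) (hp : Pr p) (c : ℝ) : Ex p (fun a => f a + c) = Ex p f + c := by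
  simp only [Ex, mul_add, sum_add_distrib, ← sum_mul, hp.2, one_mul]

lemma ex_sum (p : A → ℝ) (f : B → A → ℝ) : Ex p (fun a => ∑ b, f b a) = ∑ b, Ex p (f b) := by
  simp only [Ex, mul_sum]
  exact sum_comm

lemma ex_abs {p f : A → ℝ} (hp : Pr p) {c : ℝ} (h : ∀ a, |f a| ≤ c) : |Ex p f| ≤ c := by
  refine (abs_sum_le_sum_abs _ _).trans ((sum_le_sum fun a _ => ?_).trans_eq
    (by rw [← sum_mul, hp.2, one_mul]))
  rw [abs_mul, abs_of_nonneg (hp.1 a)]
  exact mul_le_mul_of_nonneg_left (h a) (hp.1 a)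

/-- uniform weights -/
def un (A : Type) [Fintype A] (_ : A) : ℝ := (Fintype.card A : ℝ)⁻¹

lemma av_eq (f : A → ℝ) : av f = Ex (un A) f := by
  simp only [av, Ex, un, ← mul_sum, div_eq_inv_mul]

lemma pr_un [Nonempty A] : Pr (un A) :=
  ⟨fun _ => inv_nonneg.2 (Nat.cast_nonneg _), by simp [un]⟩

/-- product weights -/
def pp (p : A → ℝ) (p' : B → ℝ) (x : A × B) : ℝ := p x.1 * p' x.2

lemma pr_pp {p : A → ℝ} {p' : B → ℝ} (h : Pr p) (h' : Pr p') : Pr (pp p p') :=
  ⟨fun _ => mul_nonneg (h.1 _) (h'.1 _), by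
    simp only [pp, Fintype.sum_prod_type, ← mul_sum, h'.2, mul_one, h.2]⟩

lemma ex_pp (p : A → ℝ) (p' : B → ℝ) (f : A × B → ℝ) :
    Ex (pp p p') f = Ex p fun a => Ex p' fun b => f (a, b) := by
  simp only [Ex, pp, Fintype.sum_prod_type, mul_sum, mul_assoc]

/-- mixture weights -/
def mx (q : ℝ) (p : A → ℝ) (p' : B → ℝ) : A ⊕ B → ℝ :=
  Sum.elim (fun a => q * p a) fun b => (1 - q) * p' b

lemma ex_mx (q : ℝ) (p : A → ℝ) (p' : B → ℝ) (f : A ⊕ B → ℝ) :
    Ex (mx q p p') f = q * Ex p (fun a => f (.inl a)) + (1 - q) * Ex p' fun b => f (.inr b) := by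
  simp only [Ex, mx, Fintype.sum_sum_type, Sum.elim_inl, Sum.elim_inr, mul_sum, mul_assoc]

lemma pr_mx {q : ℝ} (h0 : 0 ≤ q) (h1 : q ≤ 1) {p : A → ℝ} {p' : B → ℝ} (h : Pr p) (h' : Pr p') :
    Pr (mx q p p') := by
  refine ⟨?_, ?_⟩
  · rintro (a | b)
    · exact mul_nonneg h0 (h.1 a)
    · exact mul_nonneg (sub_nonneg.2 h1) (h'.1 b)
  · simp only [mx, Fintype.sum_sum_type, Sum.elim_inl, Sum.elim_inr, ← mul_sum, h.2, h'.2]
    ring

lemma coord (hOp : OpApi) {ι : Type} [Fintype ι] [DecidableEq ι] {p : A → ℝ} (hp : Pr p)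
    (φ : A → ℝ) (v : ι) : EP p ι (fun t => φ (t v)) = Ex p φ := by
  rw [hOp.marg Unit ι p (fun _ => v) (fun t => φ (t ())) hp (injective_of_subsingleton _)]
  exact Fintype.sum_equiv (Equiv.funUnique Unit A) _ _ fun t => by simp

lemma dt_abs (hB : BApi) {ι : Type} [Fintype ι] [DecidableEq ι] {M : Msg A} (hM : M.Ok)
    {W : (ι → Bool) → ℝ} (h0 : ∀ s, 0 < W s) {b : ℝ} (h : ∀ s, |log (W s)| ≤ b) :
    |DT ι M W| ≤ b := by
  have h1 := hB.mono ι M W (fun _ => 1) b hM h0 fun s => by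
    rw [mul_one, ← exp_log (h0 s)]
    exact exp_le_exp.2 (abs_le.1 (h s)).2
  have h2 := hB.mono ι M (fun _ => 1) W b hM (fun _ => one_pos) fun s => by
    rw [← exp_log (h0 s), ← exp_add]
    exact one_le_exp (by linarith [(abs_le.1 (h s)).1])
  rw [hB.const ι M 1 hM one_pos, log_one] at h1 h2
  exact abs_le.2 ⟨by linarith, by linarith⟩

lemma dt_mul (hB : BApi) {ι : Type} [Fintype ι] [DecidableEq ι] {M : Msg A} (hM : M.Ok)
    {W : (ι → Bool) → ℝ} (h0 : ∀ s, 0 < W s) {c : ℝ} (hc : 0 < c) :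
    DT ι M (fun s => c * W s) = log c + DT ι M W := by
  have h1 := hB.mono ι M (fun s => c * W s) W (log c) hM (fun s => mul_pos hc (h0 s)) fun s => by
    rw [exp_log hc]
  have h2 := hB.mono ι M W (fun s => c * W s) (-log c) hM h0 fun s => by
    rw [exp_neg, exp_log hc, inv_mul_cancel_left₀ hc.ne']
  linarith

lemma lse_abs [Nonempty A] {H : A → ℝ} {b : ℝ} (h : ∀ a, |H a| ≤ b) :
    |log (∑ a, exp (H a))| ≤ Fintype.card A + b := by
  have h0 : 0 < ∑ a, exp (H a) := sum_pos (fun _ _ => exp_pos _) univ_nonempty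
  obtain ⟨a⟩ := ‹Nonempty A›
  have h1 : (0 : ℝ) ≤ Fintype.card A := Nat.cast_nonneg _
  refine abs_le.2 ⟨(le_log_iff_exp_le h0).2 (le_trans (exp_le_exp.2 ?_) (single_le_sum
    (f := fun a => exp (H a)) (fun _ _ => (exp_pos _).le) (mem_univ a))),
    (log_le_iff_le_exp h0).2 ((sum_le_card_nsmul _ _ (exp b) fun a _ =>
      exp_le_exp.2 (abs_le.1 (h a)).2).trans ?_)⟩
  · linarith [(abs_le.1 (h a)).1]
  · rw [card_univ, nsmul_eq_mul, exp_add]
    exact mul_le_mul_of_nonneg_right (by linarith [add_one_le_exp (Fintype.card A : ℝ)])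
      (exp_pos _).le

end

/-- binomial average -/
def bin (q : ℝ) (g : ℕ → ℕ → ℝ) (n : ℕ) : ℝ :=
  ∑ kl ∈ antidiagonal n, (n.choose kl.1 : ℝ) * q ^ kl.1 * (1 - q) ^ kl.2 * g kl.1 kl.2

lemma bin_bd {q C : ℝ} (h0 : 0 ≤ q) (h1 : q ≤ 1) {g : ℕ → ℕ → ℝ}
    (h : ∀ k l, |g k l| ≤ C * (1 + k + l)) (n : ℕ) : |bin q g n| ≤ C * (1 + n) := by
  have e := (Commute.all q (1 - q)).add_pow' n
  simp only [add_sub_cancel, one_pow, nsmul_eq_mul, ← mul_assoc] at e
  refine (abs_sum_le_sum_abs _ _).trans ((sum_le_sum fun kl hk => ?_).trans_eq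
    (by rw [← sum_mul, ← e, one_mul]))
  have := sub_nonneg.2 h1
  rw [abs_mul, abs_of_nonneg (by positivity)]
  refine mul_le_mul_of_nonneg_left ((h _ _).trans_eq ?_) (by positivity)
  rw [← mem_antidiagonal.1 hk, Nat.cast_add, add_assoc]

lemma cnt {κ X : Type} [Fintype κ] [DecidableEq X] (P : κ → Prop) [DecidablePred P] (x : κ → X) :
    ∃ e : (Σ y : X, Fin ((∑ k, if P k then Pi.single (x k) 1 else 0 : X → ℕ) y)) → κ,
      Injective e ∧ (∀ k, k ∈ Set.range e ↔ P k) ∧ ∀ z, x (e z) = z.1 := by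
  have h : ∀ y, Fintype.card {k : {k // P k} // x k = y} =
      (∑ k, if P k then Pi.single (x k) 1 else 0 : X → ℕ) y := fun y => by
    rw [Finset.sum_apply, Fintype.card_congr (Equiv.subtypeSubtypeEquivSubtypeInter P
      fun k => x k = y), Fintype.card_subtype, card_filter]
    refine sum_congr rfl fun k _ => ?_
    by_cases h1 : P k <;> by_cases h2 : x k = y <;> simp [h1, h2]
  let e := (Equiv.sigmaCongrRight fun y => (Fintype.equivFinOfCardEq (h y)).symm).trans
    (Equiv.sigmaFiberEquiv fun k : {k // P k} => x k)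
  refine ⟨fun z => e z, Subtype.val_injective.comp e.injective, fun k => ⟨?_, fun hk => ?_⟩,
    fun z => ((Fintype.equivFinOfCardEq (h z.1)).symm z.2).2⟩
  · rintro ⟨z, rfl⟩
    exact (e z).2
  · exact ⟨e.symm ⟨k, hk⟩, by simp⟩

variable {K : ℕ} {Θ Η A : Type} [Fintype Θ] [Fintype A]

open Classical in
/-- value of a cavity spin with `m x` clauses of type `x` -/
def Ph (D : FM K Θ Η) (M : Msg A) (h : ℝ) (m : Θ × Fin K → ℕ) : ℝ :=
  DT ((Σ y, Fin (m y)) × Fin K) M (Uw h (fun z => D.θ z.1.1) fun z => z.1.2)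

open Classical in
lemma Ph_eq (hB : BApi) (D : FM K Θ Η) {M : Msg A} (hM : M.Ok) (h : ℝ) {n : ℕ} (P : Fin n → Prop)
    [DecidablePred P] (x : Fin n → Θ × Fin K) :
    DT (Fin n × Fin K) M (fun s => ∑ ε : Bool, exp (h * spin ε +
      ∑ k, if P k then D.θ (x k).1 (update (fun j => s (k, j)) (x k).2 ε) else 0)) =
      Ph D M h (∑ k, if P k then Pi.single (x k) 1 else 0) := by
  obtain ⟨e, e1, e2, e3⟩ := cnt P x
  rw [Ph, ← hB.emb _ (Fin n × Fin K) M (Prod.map e id) _ hM (e1.prodMap injective_id)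
    fun s => (hB.uw_bd K _ h h _ (fun _ => 0) _ s).1]
  congr 1
  funext s
  refine sum_congr rfl fun ε _ => ?_
  congr 2
  refine (Fintype.sum_of_injective e e1 _ _ (fun k hk => if_neg fun h => hk ((e2 k).2 h))
    fun z => ?_).symm
  rw [if_pos ((e2 _).1 ⟨z, rfl⟩), e3]
  rfl

/-- value of the interpolating system -/
def F0 (M : Msg A) {N n : ℕ} (h : Fin N → ℝ) (c : Fin n → (Fin K → Bool) → (Fin N → Bool) → ℝ) :
    ℝ :=
  DT (Fin n × Fin K) M fun s =>
    ∑ σ : Fin N → Bool, exp (∑ k, c k (fun j => s (k, j)) σ + ∑ v, h v * spin (σ v))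

/-- site clause or message clause -/
def gA (D : FM K Θ Η) (N : ℕ) :
    (Θ × (Fin K → Fin N)) ⊕ Θ → (Fin K → Bool) → (Fin N → Bool) → ℝ :=
  Sum.elim (fun a _ σ => D.θ a.1 fun j => σ (a.2 j)) fun t s _ => D.θ t s

/-- cavity clause -/
def gB (D : FM K Θ Η) (N : ℕ) (b : (Θ × Fin K) × Fin N) (s : Fin K → Bool) (σ : Fin N → Bool) :
    ℝ := D.θ b.1.1 (update s b.1.2 (σ b.2))

lemma step {D : FM K Θ Η} {M : Msg A} (hM : M.Ok) {N n : ℕ} [NeZero N] (hK : 1 ≤ K) {δ : ℝ}
    (hS : StepOk K (fun f => Ex D.p fun t => f (D.θ t)) δ) (h : Fin N → ℝ) (k : Fin n)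
    (c : Fin n → (Fin K → Bool) → (Fin N → Bool) → ℝ) :
    Ex (mx (K : ℝ)⁻¹ (pp D.p (un _)) D.p) (fun a => F0 M h (update c k (gA D N a))) ≤
      Ex (pp (pp D.p (un _)) (un _)) (fun b => F0 M h (update c k (gB D N b))) + δ := by
  let G : (Fin n × Fin K → Bool) → (Fin N → Bool) → ℝ := fun s σ =>
    exp (∑ k' ∈ univ.erase k, c k' (fun j => s (k', j)) σ + ∑ v, h v * spin (σ v))
  have e : ∀ g, F0 M h (update c k g) = DT (Fin n × Fin K) M fun s =>
      ∑ σ, G s σ * exp (g (fun j => s (k, j)) σ) := fun g => by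
    unfold F0
    congr 1
    funext s
    refine sum_congr rfl fun σ _ => ?_
    rw [← exp_add, ← add_sum_erase _ _ (mem_univ k), update_self,
      sum_congr rfl fun k' hk => by rw [update_of_ne (ne_of_mem_erase hk)]]
    congr 1
    ring
  have := hS A (Fin n × Fin K) (Fin N) M G (fun j => (k, j)) hM
    ⟨fun _ _ h => (Prod.ext_iff.1 h).2, fun _ _ => exp_pos _, fun s s' hs => by
      funext σ
      simp only [G]
      congr 2
      refine sum_congr rfl fun k' hk => ?_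
      congr 1
      funext j
      exact hs _ fun ⟨j', hj⟩ => ne_of_mem_erase hk (Prod.ext_iff.1 hj).1.symm⟩
  have hK' : (K : ℝ) ≠ 0 := by positivity
  rw [ex_mx, ex_pp, ex_pp, ex_pp, ← sub_le_iff_le_add']
  refine le_of_eq_of_le ?_ this
  simp only [e, stepF, av_eq]
  rw [show 1 - (K : ℝ)⁻¹ = (K - 1) / K by field_simp]
  simp only [Ex.eq_1 D.p, mul_sum, ← sum_add_distrib, ← sum_sub_distrib]
  refine sum_congr rfl fun t _ => ?_
  rw [mul_left_comm, mul_left_comm ((K - 1 : ℝ) / K), ← mul_add, ← mul_sub]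
  rfl

omit [Fintype Θ] in
lemma after (hB : BApi) (D : FM K Θ Η) {M : Msg A} (hM : M.Ok) {N n : ℕ} (h : Fin N → ℝ)
    (a : Fin n → (Θ × (Fin K → Fin N)) ⊕ Θ) :
    F0 M h (fun k => gA D N (a k)) = (fun z : ((Fin N → Bool) → ℝ) × ℝ =>
      log (∑ σ, exp (z.1 σ + ∑ v, h v * spin (σ v))) + z.2) (∑ k, Sum.elim
        (fun a => (fun σ => D.θ a.1 fun j => σ (a.2 j), 0))
        (fun t => (0, DT (Fin K) M fun s => exp (D.θ t s))) (a k)) := by
  have e := hB.vadd K (Fin n) M (fun k => Sum.elim (fun _ => 0) D.θ (a k)) hM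
  simp only [Prod.fst_sum, Prod.snd_sum, Finset.sum_apply]
  rw [sum_congr rfl fun k _ => (_ : _ = DT (Fin K) M fun s =>
      exp (Sum.elim (fun _ => 0) D.θ (a k) s)), ← e, ← dt_mul hB hM (W := Vw _) (fun _ => exp_pos _)
    (sum_pos (fun _ _ => exp_pos _) univ_nonempty), F0]
  · congr 1
    funext s
    rw [Vw, sum_mul]
    refine sum_congr rfl fun σ _ => ?_
    rw [← exp_add, add_right_comm, ← sum_add_distrib]
    congr 2
    refine sum_congr rfl fun k _ => ?_
    rcases a k with a | t <;> simp [gA]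
  · intro k _
    rcases a k with a | t
    · simpa using (hB.const (Fin K) M 1 hM one_pos).symm
    · rfl

open Classical in
lemma before (hB : BApi) (D : FM K Θ Η) {M : Msg A} (hM : M.Ok) {N n : ℕ} (h : Fin N → ℝ)
    (b : Fin n → (Θ × Fin K) × Fin N) :
    F0 M h (fun k => gB D N (b k)) =
      ∑ v, Ph D M (h v) (∑ k, if (b k).2 = v then Pi.single (b k).1 1 else 0) := by
  simp only [← Ph_eq hB D hM]
  rw [← hB.prod (Fin n × Fin K) (Fin N) M (fun z => (b z.1).2) _ hM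
    (fun _ _ => sum_pos (fun _ _ => exp_pos _) univ_nonempty) fun v s s' hs => ?_, F0]
  · congr 1
    funext s
    rw [prod_univ_sum, Fintype.piFinset_univ]
    refine sum_congr rfl fun σ _ => ?_
    rw [← exp_sum, sum_add_distrib, add_comm, sum_comm]
    simp [gB]
  · refine sum_congr rfl fun ε _ => ?_
    congr 2
    refine sum_congr rfl fun k _ => ?_
    split_ifs with hk
    · rw [funext fun j => hs (k, j) hk]
    · rfl

end Up

open Up in
theorem upStmt (hPo : PoApi) (hOp : OpApi) (hB : BApi) : UpStmt := by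
  classical
  intro K Θ Η A _ _ _ lam δ D M N hK hl hD hM hN hS
  have : NeZero N := ⟨by omega⟩
  have : NeZero K := ⟨by omega⟩
  have hK' : (1 : ℝ) ≤ K := by exact_mod_cast hK
  have hN' : (1 : ℝ) ≤ N := by exact_mod_cast hN
  have pp1 : Pr D.p := ⟨fun t => (hD.1.1 t).le, hD.1.2⟩
  have pq : Pr D.q := ⟨fun t => (hD.2.1 t).le, hD.2.2⟩
  have pS : Pr (pp D.p (un (Fin K → Fin N))) := pr_pp pp1 pr_un
  have pX : Pr (pp D.p (un (Fin K))) := pr_pp pp1 pr_un
  have k0 : (0 : ℝ) ≤ (K : ℝ)⁻¹ := by positivity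
  have k1 : (K : ℝ)⁻¹ ≤ 1 := inv_le_one_of_one_le₀ hK'
  have n0 : (0 : ℝ) ≤ (N : ℝ)⁻¹ := by positivity
  have n1 : (N : ℝ)⁻¹ ≤ 1 := inv_le_one_of_one_le₀ hN'
  set B0 := ∑ t, ‖D.θ t‖ + ∑ e, |D.η e| with hB0
  have s1 : 0 ≤ ∑ t, ‖D.θ t‖ := sum_nonneg fun _ _ => norm_nonneg _
  have s2 : 0 ≤ ∑ e, |D.η e| := sum_nonneg fun _ _ => abs_nonneg _
  have b1 : ∀ t, ‖D.θ t‖ ≤ B0 := fun t => (single_le_sum (f := fun t => ‖D.θ t‖)
    (fun _ _ => norm_nonneg _) (mem_univ t)).trans (le_add_of_nonneg_right s2)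
  have b2 : ∀ e, |D.η e| ≤ B0 := fun e => (single_le_sum (f := fun e => |D.η e|)
    (fun _ _ => abs_nonneg _) (mem_univ e)).trans (le_add_of_nonneg_left s1)
  have b0 : 0 ≤ B0 := add_nonneg s1 s2
  have b3 : ∀ {n : ℕ} (f : Fin n → ℝ), (∀ k, |f k| ≤ B0) → |∑ k, f k| ≤ n * B0 := fun f hf =>
    (abs_sum_le_sum_abs _ _).trans ((sum_le_card_nsmul _ _ _ fun k _ => hf k).trans_eq (by simp))
  set v1 := Ex D.p fun t => DT (Fin K) M fun s => exp (D.θ t s) with hv1
  let g : ℕ → ℝ := fun k => EP (pp D.p (un (Fin K → Fin N))) (Fin k) fun a => EP D.q (Fin N) fun e =>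
    logZ (fun k => D.θ (a k).1) (fun k => (a k).2) fun v => D.η (e v)
  let u : ℕ → ℝ := fun k => EP (pp D.p (un (Fin K))) (Fin k) fun a => Ex D.q fun e =>
    DT (Fin k × Fin K) M (Uw (D.η e) (fun k => D.θ (a k).1) fun k => (a k).2)
  obtain ⟨C1, c1⟩ : ∃ C, ∀ k l : ℕ, |g k + l * v1| ≤ C * (1 + k + l) := by
    refine ⟨Fintype.card (Fin N → Bool) + N * B0 + B0 + |v1|, fun k l => ?_⟩
    have : |g k| ≤ Fintype.card (Fin N → Bool) + (k * B0 + N * B0) :=
      hOp.abs _ _ _ _ pS fun a => hOp.abs _ _ _ _ pq fun e => lse_abs fun σ =>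
        (abs_add_le _ _).trans (add_le_add (b3 _ fun k => (norm_le_pi_norm _ _).trans (b1 _))
          (b3 _ fun v => by rw [abs_mul]; cases σ v <;> simpa [spin] using b2 _))
    refine (abs_add_le _ _).trans ?_
    rw [abs_mul, Nat.abs_cast]
    have := abs_nonneg v1
    generalize (Fintype.card (Fin N → Bool)) = a at *
    have : 0 ≤ a * (k + l : ℝ) + N * B0 * (k + l) + B0 * (1 + l) + |v1| * (1 + k) := by positivity
    linarith
  have c2 : ∀ k l : ℕ, |u k| ≤ (log 2 + B0) * (1 + k + l) := fun k l => by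
    have : |u k| ≤ log 2 + B0 + k * B0 := hOp.abs _ _ _ _ pX fun a => ex_abs pq fun e =>
      dt_abs hB hM (fun s => (hB.uw_bd K _ _ 0 _ (fun _ => 0) _ s).1) fun s =>
        (hB.uw_bd K _ _ 0 _ (fun _ => 0) _ s).2.2.trans (add_le_add (add_le_add le_rfl (b2 e))
          ((le_abs_self _).trans (b3 _ fun k => by rw [abs_norm]; exact b1 _)))
    have : 0 ≤ log 2 * (k + l : ℝ) + B0 * l := by positivity
    linarith
  have key : ∀ n : ℕ, bin (K : ℝ)⁻¹ (fun k l => g k + l * v1) n ≤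
      N * bin (N : ℝ)⁻¹ (fun k _ => u k) n + n * δ := fun n => by
    have h1 := hOp.lind _ _ (gA D N) (gB D N) δ n
      (fun c => EP D.q (Fin N) fun e => F0 M (fun v => D.η (e v)) c) (pr_mx k0 k1 pS pp1)
      (pr_pp pX pr_un) fun k c => by
        refine (swp _ _ _).trans_le (le_of_le_of_eq (hOp.mono _ _ _ _ pq fun e =>
          step hM hK hS _ k c) ((ex_add _ _ (hOp.pr _ _ pq) δ).trans ?_))
        exact congrArg (· + δ) (swp _ _ _).symm
    simp only [after hB D hM, before hB D hM] at h1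
    have h2 := hOp.binom (pp D.p (un (Fin K → Fin N))) D.p
      (fun a => ((fun σ : Fin N → Bool => D.θ a.1 fun j => σ (a.2 j)), (0 : ℝ)))
      (fun t => (0, DT (Fin K) M fun s => exp (D.θ t s))) (K : ℝ)⁻¹ n fun z =>
        EP D.q (Fin N) fun e => log (∑ σ, exp (z.1 σ + ∑ v, D.η (e v) * spin (σ v))) + z.2
    refine le_trans (le_of_eq (Eq.trans (sum_congr rfl fun kl _ => ?_) h2.symm)) (h1.trans
      (add_le_add ?_ le_rfl))
    · congr 1
      refine (ex_add _ _ (hOp.pr _ _ pS) _).symm.trans (congrArg (EP _ _) (funext fun a => ?_))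
      rw [← Fintype.card_fin kl.2, ← hOp.sum1 _ _ _ pp1, add_comm, Fintype.card_fin]
      refine (ex_add _ _ (hOp.pr _ _ pp1) _).symm.trans (congrArg (EP _ _) (funext fun b => ?_))
      refine (add_comm _ _).trans ((ex_add _ _ (hOp.pr _ _ pq) _).symm.trans
        (congrArg (EP _ _) (funext fun e => ?_)))
      simp [logZ, Prod.fst_sum, Prod.snd_sum]
    · have e1 : ∀ m : Fin N → Θ × Fin K → ℕ, (EP D.q (Fin N) fun e => ∑ v, Ph D M (D.η (e v)) (m v)) =
          ∑ v, Ex D.q fun e => Ph D M (D.η e) (m v) := fun m =>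
        (ex_sum _ _).trans (sum_congr rfl fun v _ => coord hOp pq (fun e => Ph D M (D.η e) (m v)) v)
      simp only [e1]
      refine (ex_sum _ _).trans_le ((sum_le_card_nsmul _ _
        (bin (N : ℝ)⁻¹ (fun k _ => u k) n) fun v _ => ?_).trans_eq (by simp))
      have h3 := hOp.lind (pp (pp D.p (un (Fin K))) (un (Fin N))) _
        (fun b => if b.2 = v then Pi.single b.1 1 else (0 : Θ × Fin K → ℕ))
        (Sum.elim (fun x => Pi.single x 1) fun _ : Unit => 0) 0 n
        (fun c => Ex D.q fun e => Ph D M (D.η e) (∑ k, c k)) (pr_pp pX pr_un)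
        (pr_mx n0 n1 pX (pr_un (A := Unit))) fun k c => by
          generalize hφ : (fun z => Ex D.q fun e => Ph D M (D.η e) (∑ j, update c k z j)) = φ
          simp only [congrFun hφ]
          rw [add_zero, ex_mx, ex_pp]
          have : ∀ x, (Ex (un (Fin N)) fun w => φ (if w = v then Pi.single x 1 else 0)) =
              (N : ℝ)⁻¹ * φ (Pi.single x 1) + (1 - (N : ℝ)⁻¹) * φ 0 := fun x => by
            simp only [Ex, un, ← mul_sum, Fintype.card_fin]
            rw [← add_sum_erase _ _ (mem_univ v), if_pos rfl,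
              sum_congr rfl fun w hw => by rw [if_neg (ne_of_mem_erase hw)]]
            simp [Nat.cast_sub hN]
            field_simp
          simp only [this]
          rw [ex_add _ _ pX]
          simp [Ex, un, mul_sum, mul_left_comm]
      rw [mul_zero, add_zero] at h3
      refine h3.trans_eq ((hOp.binom _ _ _ _ _ n fun m => Ex D.q fun e => Ph D M (D.η e) m).trans
        (sum_congr rfl fun kl _ => ?_))
      congr 1
      refine congrArg (EP _ _) (funext fun a => ?_)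
      rw [hOp.const _ _ _ pr_un, sum_const_zero, add_zero]
      refine congrArg (Ex _) (funext fun e => ?_)
      have := (Ph_eq hB D hM (D.η e) (fun _ => True) a).symm
      simp only [if_true] at this
      exact this
  have hc : 0 ≤ lam * K * N := by positivity
  have t1 := hPo.thin _ _ _ _ hc k0 k1 c1
  have t2 := hPo.thin _ _ _ _ hc n0 n1 c2
  have u1 := hPo.summ _ _ _ hc (bin_bd k0 k1 c1)
  have u2 := hPo.summ _ _ _ hc (bin_bd n0 n1 c2)
  have u3 : ∀ c : ℝ, 0 ≤ c → Summable fun n : ℕ => poi c n * n := fun c h =>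
    hPo.summ c 1 _ h fun n => by simp
  have u4 : ∀ c : ℝ, 0 ≤ c → Summable fun n : ℕ => poi c n := fun c h => by
    simpa using hPo.summ c 1 (fun _ => 1) h fun n => by simp
  have u5 := (u2.mul_left (N : ℝ)).add ((u3 _ hc).mul_right δ)
  have h4 := u1.tsum_le_tsum (fun n => by
    linarith [mul_le_mul_of_nonneg_left (key n) (hPo.nn _ n hc)]) u5
  rw [(u2.mul_left _).tsum_add ((u3 _ hc).mul_right δ), tsum_mul_left, tsum_mul_right,
    hPo.mean] at h4
  have lin : ∀ c a b : ℝ, 0 ≤ c → ∑' l : ℕ, poi c l * (a + l * b) = a + c * b := fun c a b h => by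
    simp only [mul_add, ← mul_assoc]
    rw [((u4 c h).mul_right a).tsum_add ((u3 c h).mul_right b), tsum_mul_right, tsum_mul_right,
      hPo.one, hPo.mean, one_mul]
  simp only [tsum_mul_right, hPo.one, one_mul, lin _ _ _ (mul_nonneg hc (sub_nonneg.2 k1))] at t1 t2
  rw [show lam * K * N * (K : ℝ)⁻¹ = lam * N by field_simp,
    tsum_congr fun k => mul_add (poi _ k) _ _, (hPo.summ _ C1 g (by positivity)
    fun n => by simpa using c1 n 0).tsum_add ((u4 _ (by positivity)).mul_right _), tsum_mul_right,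
    hPo.one] at t1
  rw [show lam * K * N * (N : ℝ)⁻¹ = K * lam by field_simp] at t2
  have e1 : pressF lam D N = 1 / N * ∑' n, poi (lam * N) n * g n := by
    refine congrArg _ (tsum_congr fun n => congrArg _ ((congrArg (EP _ _) (funext fun t => ?_)).trans
      (hOp.prod _ _ _ _).symm))
    simp only [hOp.unif (Fin n)]
    exact swp _ _ _
  have e2 : ∀ n, uF D (fun _ W => DT _ M W) n = u n := fun n => by
    refine (congrArg (EP _ _) (funext fun t => ?_)).trans (hOp.prod _ _ _ _).symm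
    simp only [hOp.unif (Fin n)]
    exact swp _ _ _
  have e3 : ∀ n, vF D (fun _ W => DT _ M W) n = 0 + n * v1 := fun n => by
    simp only [vF, hB.vadd _ _ _ _ hM]
    rw [hOp.sum1 _ _ (fun t => DT (Fin K) M fun s => exp (D.θ t s)) pp1, Fintype.card_fin, zero_add]
  simp only [bin] at h4
  rw [t1, t2] at h4
  rw [e1, trialF]
  simp only [e2, e3, lin _ _ _ (mul_nonneg (sub_nonneg.2 hK') hl.le)]
  rw [one_div, inv_mul_le_iff₀ (by positivity)]
  have : lam * K * N * (1 - (K : ℝ)⁻¹) = N * ((K - 1) * lam) := by field_simp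
  rw [this] at h4
  linarith

end

end Vale.Agent.P168
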