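import Vale.Agent.P168.Frz

/-! P168, module Uth: the frozen value is at most the true increment. -/

namespace Vale.Agent.P168

open Finset Real

namespace Uth

open Frz

lemma pw {B θ u : ℝ} (v : ℝ) (hu : |u| ≤ B) (h0 : 0 ≤ θ) (h1 : θ ≤ 1) :
    exp (θ * u) + θ * exp (-((1 - θ) * u)) * (exp v - exp u) ≤
      exp (θ * v) + (1 - θ) * exp B ^ 2 * (exp v - exp u) ^ 2 := by
  obtain ⟨u1, u2⟩ := abs_le.1 hu
  have e1 : exp (θ * v) = exp v * exp (-((1 - θ) * u)) * exp (-((1 - θ) * (v - u))) := by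
    rw [← exp_add, ← exp_add]; congr 1; ring
  have e2 : exp (θ * u) = exp (-((1 - θ) * u)) * exp u := by rw [← exp_add]; congr 1; ring
  have e3 : exp (-u) * exp u = 1 := by rw [← exp_add, neg_add_cancel, exp_zero]
  have e4 : exp (v - u) = exp v * exp (-u) := by rw [← exp_add]; congr 1
  have i1 : 1 - (1 - θ) * ((exp v - exp u) * exp (-u)) ≤ exp (-((1 - θ) * (v - u))) := by
    have a1 := add_one_le_exp (-((1 - θ) * (v - u)))
    have a2 := mul_le_mul_of_nonneg_left (add_one_le_exp (v - u)) (sub_nonneg.2 h1)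
    rw [e4] at a2
    have a3 : (exp v - exp u) * exp (-u) = exp v * exp (-u) - 1 := by linear_combination -e3
    rw [a3]; linarith
  have i2 : exp (-((1 - θ) * u)) * exp (-u) ≤ exp B ^ 2 := by
    rw [sq]
    exact mul_le_mul (exp_le_exp.2 (by nlinarith)) (exp_le_exp.2 (by linarith)) (exp_pos _).le
      (exp_pos _).le
  have i3 := mul_le_mul_of_nonneg_left i1 (mul_pos (exp_pos v) (exp_pos (-((1 - θ) * u)))).le
  have i4 := mul_le_mul_of_nonneg_right (mul_le_mul_of_nonneg_left i2 (sub_nonneg.2 h1))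
    (sq_nonneg (exp v - exp u))
  rw [e1, e2]
  have e5 : exp v * exp (-((1 - θ) * u)) * (1 - (1 - θ) * ((exp v - exp u) * exp (-u))) =
      exp (-((1 - θ) * u)) * exp u + θ * exp (-((1 - θ) * u)) * (exp v - exp u) -
        (1 - θ) * (exp (-((1 - θ) * u)) * exp (-u)) * (exp v - exp u) ^ 2 := by
    linear_combination (-(1 - θ) * exp (-((1 - θ) * u)) * (exp v - exp u)) * e3
  linarith

variable {Ξ Λ : Type} [Fintype Ξ] {p : Ξ → ℝ}

lemma lse_bd {m B : ℝ} (F : Ξ → Λ) {Y : Ξ → ℝ} (hp : PrP p) (hm : 0 < m) (h : ∀ ξ, |Y ξ| ≤ B)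
    (ξ : Ξ) : |lse p m F Y ξ| ≤ B := by
  have e : lse p m F (fun _ => 0) ξ = 0 := by simp [lse, cE_const p F 1 ξ hp]
  have l1 := lse_mono (s := B) (Z := Y) (Z' := fun _ => 0) F hp hm
    (fun ξ => by linarith [(abs_le.1 (h ξ)).2]) ξ
  have l2 := lse_mono (s := B) (Z := fun _ => 0) (Z' := Y) F hp hm
    (fun ξ => by linarith [(abs_le.1 (h ξ)).1]) ξ
  exact abs_le.2 ⟨by linarith, by linarith⟩

lemma step1 {m m' B : ℝ} (F : Ξ → Λ) {Y : Ξ → ℝ} (hp : PrP p) (hm : 0 < m) (h1 : m ≤ m')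
    (h2 : m' ≤ 1) (h : ∀ ξ, |Y ξ| ≤ B) (ξ : Ξ) :
    exp (m * lse p m' F Y ξ) ≤ cE p F (fun ξ' => exp (m * Y ξ') + (1 - m / m') * exp B ^ 2 *
      (exp (m' * Y ξ') - cE p F (fun ξ'' => exp (m' * Y ξ'')) ξ') ^ 2) ξ := by
  have m0 : 0 < m' := hm.trans_le h1
  have e : ∀ t, m / m' * (m' * t) = m * t := fun t => by field_simp
  set u := m' * lse p m' F Y ξ with hu
  have hB : |u| ≤ B := by
    have := lse_bd F hp m0 h ξ
    rw [hu, abs_mul, abs_of_pos m0]
    nlinarith [abs_nonneg (lse p m' F Y ξ)]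
  have eu : exp u = cE p F (fun ξ' => exp (m' * Y ξ')) ξ := exp_lse F Y ξ hp m0
  set a := m / m' * exp (-((1 - m / m') * u))
  refine le_trans (le_of_eq ?_) (cE_mono p (fun ξ' => (exp (m / m' * u) - a * exp u) * 1 +
    a * exp (m' * Y ξ')) _ F ξ hp fun ξ' hξ => ?_)
  · rw [cE_lin, cE_const p F 1 ξ hp, ← eu, hu, e]; ring
  · have := pw (θ := m / m') (m' * Y ξ') hB (by positivity) ((div_le_one m0).2 h1)
    rw [show cE p F (fun ξ'' => exp (m' * Y ξ'')) ξ' = exp u from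
      (den_meas p _ F ξ' ξ hξ).trans eu.symm, ← e (Y ξ')]
    linarith

lemma step2 {m m' B μ Δ ε : ℝ} {F F' : Ξ → Λ} {c : List (ℝ × (Ξ → Λ))} {Y g : Ξ → ℝ} (hp : PrP p)
    (hμ : 0 < μ) (h0 : μ ≤ m) (h1 : m ≤ m') (h2 : m' ≤ 1) (h3 : m' ≤ m + Δ) (h : ∀ ξ, |Y ξ| ≤ B)
    (hF : Meas F' F) (hc : CtxOk m F c) (hg : Meas F' g)
    (hε : Ex p (fun ξ => (exp (m' * Y ξ) - g ξ) ^ 2) ≤ ε) :
    SS p c (lse p m F (lse p m' F' Y)) ≤
      SS p c (lse p m F Y) + Δ * (exp (2 * B) * exp B ^ 3 / μ ^ 2 * ε) := by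
  have hm : 0 < m := hμ.trans_le h0
  have m0 : 0 < m' := hm.trans_le h1
  set V : Ξ → ℝ := fun ξ => (exp (m' * Y ξ) - cE p F' (fun ξ'' => exp (m' * Y ξ'')) ξ) ^ 2
  have V0 : ∀ ξ, 0 ≤ cE p F V ξ := fun ξ =>
    den_nn p _ F ξ hp fun ξ => mul_nonneg (hp.1 ξ).le (sq_nonneg _)
  have η0 : 0 ≤ 1 - m / m' := sub_nonneg.2 ((div_le_one m0).2 h1)
  have η1 : 1 - m / m' ≤ Δ / μ := by
    rw [one_sub_div m0.ne']
    exact div_le_div₀ (by linarith) (by linarith) hμ (by linarith)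
  have Δ0 : 0 ≤ Δ := by linarith
  have pt : ∀ ξ, lse p m F (lse p m' F' Y) ξ - lse p m F Y ξ ≤
      Δ * exp B ^ 3 / μ ^ 2 * cE p F V ξ := by
    intro ξ
    have a1 := cE_mono p _ _ F ξ hp fun ξ' _ => step1 F' hp hm h1 h2 h ξ'
    have a2 := cE_lin p (fun ξ' => exp (m * Y ξ')) V F 1 ((1 - m / m') * exp B ^ 2) ξ
    simp only [one_mul] at a2
    rw [cE.eq_1 p F', tower p _ F F' ξ hp hF, ← cE, a2, ← exp_lse F _ ξ hp hm,
      ← exp_lse F Y ξ hp hm] at a1
    set A := lse p m F (lse p m' F' Y) ξ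
    set A0 := lse p m F Y ξ
    have b1 : exp (-(m * A0)) ≤ exp B := exp_le_exp.2 (by
      have := abs_le.1 (lse_bd F hp hm h ξ)
      nlinarith)
    have b2 := add_one_le_exp (m * A - m * A0)
    have b3 : exp (m * A - m * A0) = exp (m * A) * exp (-(m * A0)) := by rw [← exp_add]; congr 1
    have b4 : exp (m * A0) * exp (-(m * A0)) = 1 := by rw [← exp_add, add_neg_cancel, exp_zero]
    have b5 := mul_le_mul_of_nonneg_right a1 (exp_pos (-(m * A0))).le
    have b6 : (1 - m / m') * exp B ^ 2 * cE p F V ξ * exp (-(m * A0)) ≤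
        Δ / μ * exp B ^ 2 * cE p F V ξ * exp B := by
      have := V0 ξ
      gcongr
    have b7 : m * (A - A0) ≤ μ * (Δ * exp B ^ 3 / μ ^ 2 * cE p F V ξ) := by
      have : μ * (Δ * exp B ^ 3 / μ ^ 2 * cE p F V ξ) =
          Δ / μ * exp B ^ 2 * cE p F V ξ * exp B := by field_simp
      linarith
    have b8 : 0 ≤ Δ * exp B ^ 3 / μ ^ 2 * cE p F V ξ := by
      have := V0 ξ
      positivity
    exact le_of_mul_le_mul_left (b7.trans (mul_le_mul_of_nonneg_right h0 b8)) hm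
  have s1 := sub p m F c (lse p m F (lse p m' F' Y)) (lse p m F Y) hp hc
  have s2 : -Ex p (fun ξ => WW p c (lse p m F (lse p m' F' Y)) ξ *
      (lse p m F Y ξ - lse p m F (lse p m' F' Y) ξ)) ≤
      Ex p (fun ξ => exp (2 * B) * (Δ * exp B ^ 3 / μ ^ 2) * cE p F V ξ) := by
    rw [Ex, ← sum_neg_distrib]
    refine sum_le_sum fun ξ _ => ?_
    have w0 := w_pos p c (lse p m F (lse p m' F' Y)) ξ
    have w1 := w_le p m B F c _ ξ hp hc (h1.trans h2) (lse_bd F hp hm (lse_bd F' hp m0 h))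
    have w2 := mul_le_mul_of_nonneg_left (pt ξ) w0.le
    have w3 := mul_le_mul_of_nonneg_right w1
      (show 0 ≤ Δ * exp B ^ 3 / μ ^ 2 * cE p F V ξ by have := V0 ξ; positivity)
    nlinarith [hp.1 ξ]
  rw [ex_cE p V _ F hp fun _ _ _ => rfl] at s2
  have s3 : Ex p (fun ξ => exp (2 * B) * (Δ * exp B ^ 3 / μ ^ 2) * V ξ) =
      Δ * (exp (2 * B) * exp B ^ 3 / μ ^ 2 * Ex p V) := by
    simp only [Ex, mul_sum]
    exact sum_congr rfl fun _ _ => by ring
  have s4 : Ex p V ≤ ε := (proj p _ g F' hp hg).trans hε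
  have s5 : Δ * (exp (2 * B) * exp B ^ 3 / μ ^ 2 * Ex p V) ≤
      Δ * (exp (2 * B) * exp B ^ 3 / μ ^ 2 * ε) := by gcongr
  linarith

lemma root {m B : ℝ} (F : Ξ → Λ) {Y : Ξ → ℝ} (hp : PrP p) (hm : 0 < m) (h1 : m * B ≤ 1)
    (h : ∀ ξ, |Y ξ| ≤ B) : Ex p (lse p m F Y) ≤ Ex p Y + m * B ^ 2 := by
  have pt : ∀ ξ, lse p m F Y ξ ≤ 1 * cE p F (fun ξ => Y ξ + m * B ^ 2) ξ := by
    intro ξ
    have a1 := add_one_le_exp (m * lse p m F Y ξ)
    have a2 := cE_mono p (fun ξ' => exp (m * Y ξ')) (fun ξ' => 1 * 1 + m * (Y ξ' + m * B ^ 2)) F ξ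
      hp fun ξ' _ => by
        have b0 : |m * Y ξ'| ≤ m * B := by
          rw [abs_mul, abs_of_pos hm]; exact mul_le_mul_of_nonneg_left (h ξ') hm.le
        have b1 := (abs_le.1 (abs_exp_sub_one_sub_id_le (b0.trans h1))).2
        have b2 := sq_le_sq' (abs_le.1 b0).1 (abs_le.1 b0).2
        linarith
    rw [cE_lin, cE_const p F 1 ξ hp, ← exp_lse F Y ξ hp hm] at a2
    exact le_of_mul_le_mul_left (by linarith) hm
  refine (sum_le_sum fun ξ _ => mul_le_mul_of_nonneg_left (pt ξ) (hp.1 ξ).le).trans (le_of_eq ?_)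
  refine (ex_cE p _ (fun _ => 1) F hp fun _ _ _ => rfl).trans ?_
  simp only [Ex, one_mul, mul_add, sum_add_distrib, ← sum_mul, hp.2]

end Uth

open Frz Uth

theorem uStmt (_hS : SApi) (hX : XApi) : UStmt := by
  intro B ε hB hε
  refine ⟨min (1 / (B + 1)) (ε / 2 / (B ^ 2 + 1)), by positivity, fun μ hμ hμ1 =>
    ⟨ε / 2 / (exp (2 * B) * exp B ^ 3 / μ ^ 2), by positivity, ?_⟩⟩
  intro S Γ Ξ Λ _ _ _ _ w h p y lab Δ ms H hw hp hy hΔ hch hn hl hnest hA
  have key : ∀ (ms' : List ℝ) (hist : List (ℝ × Γ)), ms.drop hist.length = ms' → Chain Δ ms' →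
      μ ≤ nxt ms' → CtxOk (nxt ms') (lab hist) (ctxOf lab hist) →
      PE w h ms' hist (Hof h H hist) (frz p y lab) ≤
        SS p (ctxOf lab hist) (lse p (nxt ms') (lab hist) fun ξ => YY w h ms' (Hof h H hist) (y ξ)) +
          ms'.length * (Δ * (ε / 2)) := by
    intro ms'
    induction ms' with
    | nil =>
      intro hist _ _ _ hc
      have := conc p 1 (lab hist) _ (gib (Hof h H hist))
        (fun σ => cE p (lab hist) fun ξ' => exp (y ξ' σ)) hp hc one_pos (hX.gib_pr _)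
        fun σ ξ => cE_pos _ ξ hp fun _ => exp_pos _
      simp only [inv_one, one_mul, ← cE_sum, ← hX.gmix w h] at this
      simp only [List.length_nil, Nat.cast_zero, zero_mul, add_zero, PE, frz]
      refine this.trans (le_of_eq ?_)
      congr 1
      funext ξ
      simp [lse, nxt]
    | cons m ms' ih =>
      intro hist hd hc hm hx
      have m0 : 0 < m := hμ.trans_le hm
      obtain ⟨c1, c2, -⟩ := hX.chain Δ ms' hc.2.2
      have pos : ∀ m' ∈ ms', 0 < m' := fun m' h' => (m0.trans_le hc.1).trans_le (c2 m' h').1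
      have τ := hX.tau_pr w h m ms' (Hof h H hist) hw m0
      have hd' : ∀ γ : Γ, ms.drop ((m, γ) :: hist).length = ms' := fun γ => by
        rw [List.length_cons, ← List.tail_drop, hd]; rfl
      have ch : ∀ γ, PE w h ms' ((m, γ) :: hist) (Hof h H hist + h γ) (frz p y lab) ≤
          SS p (ctxOf lab hist) (lse p m (lab hist) fun ξ => YY w h ms' (Hof h H hist + h γ) (y ξ)) +
            (m :: ms').length * (Δ * (ε / 2)) := by
        intro γ
        obtain ⟨g, g1, g2⟩ := hA ((m, γ) :: hist)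
        rw [hd'] at g2
        have a1 := ih ((m, γ) :: hist) (hd' γ) hc.2.2 (hm.trans hc.1) ⟨m0, hc.1, hnest _ _, hx⟩
        have a2 := step2 (m := m) hp hμ hm hc.1 c1 hc.2.1
          (fun ξ => hX.yy_bd w h ms' (Hof h H hist + h γ) (y ξ) B hw pos (hy ξ)) (hnest (m, γ) hist)
          hx g1 g2
        rw [mul_div_cancel₀ _ (by positivity)] at a2
        simp only [List.length_cons, Nat.cast_add, Nat.cast_one]
        exact a1.trans (le_trans (add_le_add a2 le_rfl) (le_of_eq (by ring)))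
      have := conc p m (lab hist) _ (tau w h m ms' (Hof h H hist))
        (fun γ => cE p (lab hist) fun ξ' => exp (m * YY w h ms' (Hof h H hist + h γ) (y ξ'))) hp hx
        m0 τ fun σ ξ => cE_pos _ ξ hp fun _ => exp_pos _
      simp only [← cE_sum, ← hX.mix w h m ms' _ _ hw m0] at this
      refine (sum_le_sum fun γ _ => mul_le_mul_of_nonneg_left (ch γ) (τ.1 γ)).trans ?_
      simp only [mul_add, sum_add_distrib, ← sum_mul, τ.2, one_mul]
      exact add_le_add this le_rfl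
  have a1 := key ms [] rfl hch hn.ge trivial
  obtain ⟨-, c2, -⟩ := hX.chain Δ ms hch
  have b1 : μ * (B + 1) ≤ 1 := by
    rw [← le_div_iff₀ (by positivity)]; exact hμ1.trans (min_le_left _ _)
  have b2 : μ * (B ^ 2 + 1) ≤ ε / 2 := by
    rw [← le_div_iff₀ (by positivity)]; exact hμ1.trans (min_le_right _ _)
  have a2 := root (lab []) hp hμ (by nlinarith) fun ξ =>
    hX.yy_bd w h ms H (y ξ) B hw (fun m hm => (hμ.trans_eq hn.symm).trans_le (c2 m hm).1) (hy ξ)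
  have a3 := mul_le_mul_of_nonneg_right hl (half_pos hε).le
  rw [hn] at a1
  simp only [ctxOf, SS, Hof] at a1
  linarith

end Vale.Agent.P168
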