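import Vale.Agent.P168.Stm

/-! P168, module Vth: the frozen value of one clause dominates the true increment. -/

namespace Vale.Agent.P168

open MeasureTheory Finset Real Filter Topology

noncomputable section

namespace Vth

section
variable {A : Type} [Fintype A] {p f g : A → ℝ}

lemma sle (hp : ∀ a, 0 ≤ p a) (h : ∀ a, f a ≤ g a) : ∑ a, p a * f a ≤ ∑ a, p a * g a :=
  sum_le_sum fun a _ => mul_le_mul_of_nonneg_left (h a) (hp a)

lemma scon (hp : ∑ a, p a = 1) (c : ℝ) : ∑ a, p a * c = c := by rw [← sum_mul, hp, one_mul]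

lemma sle_c (hp : Pr p) {c : ℝ} (h : ∀ a, f a ≤ c) : ∑ a, p a * f a ≤ c :=
  (sle hp.1 h).trans (scon hp.2 c).le

lemma prp (hp : PrP p) : Pr p := ⟨fun a => (hp.1 a).le, hp.2⟩

lemma lin3 (hp : ∑ a, p a = 1) (f g k : A → ℝ) (a b c : ℝ) :
    ∑ x, p x * (f x + a * g x + b * k x + c) =
      ∑ x, p x * f x + a * ∑ x, p x * g x + b * ∑ x, p x * k x + c := by
  rw [mul_sum, mul_sum, ← sum_add_distrib, ← sum_add_distrib, ← scon hp c, ← sum_add_distrib,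
    scon hp c]
  exact sum_congr rfl fun x _ => by ring

end

lemma cl_mem {B : ℝ} (hB : 0 ≤ B) (t : ℝ) : exp (-B) ≤ cl B t ∧ cl B t ≤ exp B :=
  ⟨le_max_left _ _, max_le (exp_le_exp.2 (by linarith)) (min_le_left _ _)⟩

lemma cl_eq {B t : ℝ} (h : exp (-B) ≤ t ∧ t ≤ exp B) : cl B t = t := by
  rw [cl, min_eq_right h.2, max_eq_right h.1]

lemma ml {m Y B : ℝ} (h0 : 0 ≤ m) (hY : |Y| ≤ B) : |m * Y| ≤ m * B := by
  rw [abs_mul, abs_of_nonneg h0]; exact mul_le_mul_of_nonneg_left hY h0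

lemma ex_mem {m Y B : ℝ} (h0 : 0 ≤ m) (h1 : m ≤ 1) (hY : |Y| ≤ B) :
    exp (-B) ≤ exp (m * Y) ∧ exp (m * Y) ≤ exp B := by
  have h := abs_le.1 ((ml h0 hY).trans (mul_le_of_le_one_left ((abs_nonneg _).trans hY) h1))
  exact ⟨exp_le_exp.2 h.1, exp_le_exp.2 h.2⟩

lemma cE_mem (hS : SApi) {Ξ Λ : Type} [Fintype Ξ] {p f : Ξ → ℝ} (F : Ξ → Λ) (hp : PrP p) {a b : ℝ}
    (h : ∀ ξ, a ≤ f ξ ∧ f ξ ≤ b) (ξ : Ξ) : a ≤ cE p F f ξ ∧ cE p F f ξ ≤ b :=
  ⟨(hS.cE_const p F a ξ hp).symm.le.trans (hS.cE_mono p _ _ F ξ hp fun ξ' _ => (h ξ').1),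
    (hS.cE_mono p _ _ F ξ hp fun ξ' _ => (h ξ').2).trans (hS.cE_const p F b ξ hp).le⟩

lemma ex2 {m Y B : ℝ} (h0 : 0 ≤ m) (h1 : m ≤ 1) (hY : |Y| ≤ B) :
    exp (2 * m * Y) ≤ exp (2 * B) := by
  have h := abs_le.1 ((ml h0 hY).trans (mul_le_of_le_one_left ((abs_nonneg _).trans hY) h1))
  exact exp_le_exp.2 (by linarith [h.2])

lemma ex3 {m m' Δ Y B : ℝ} (h0 : 0 ≤ m) (h1 : m ≤ m') (h2 : m' ≤ m + Δ) (h3 : m' ≤ 1)
    (hY : |Y| ≤ B) : exp (2 * m * Y) ≤ exp (2 * m' * Y) + exp (2 * B) * (exp (2 * Δ * B) - 1) := by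
  have hB := (abs_nonneg _).trans hY
  have a1 := abs_le.1 ((ml (sub_nonneg.2 h1) hY).trans
    (mul_le_mul_of_nonneg_right (by linarith : m' - m ≤ Δ) hB))
  have a2 : exp (2 * m * Y) ≤ exp (2 * m' * Y) * exp (2 * Δ * B) := by
    rw [← exp_add]; exact exp_le_exp.2 (by linarith [a1.1])
  have a3 : 1 ≤ exp (2 * Δ * B) := one_le_exp (by nlinarith)
  nlinarith [ex2 (h0.trans h1) h3 hY]

lemma em1 {t B : ℝ} (ht : |t| ≤ B) : |exp t - 1| ≤ |t| * exp B := by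
  have hB := (abs_nonneg _).trans ht
  have h1 := add_one_le_exp t
  have h2 := add_one_le_exp (-t)
  have h3 : exp t ≤ exp B := exp_le_exp.2 ((le_abs_self t).trans ht)
  have h4 : 1 ≤ exp B := one_le_exp hB
  have h5 : exp (-t) * exp t = 1 := by rw [← exp_add]; simp
  have h6 := exp_pos t
  rw [abs_le]
  constructor
  · nlinarith [neg_abs_le t, abs_nonneg t]
  · nlinarith [le_abs_self t, abs_nonneg t, mul_le_mul_of_nonneg_right h2 h6.le]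

lemma lg {x y B : ℝ} (hx : exp (-B) ≤ x) (hy : exp (-B) ≤ y) :
    log y + 1 * (y⁻¹ * x) + -exp (2 * B) * (x - y) ^ 2 + -1 ≤ log x := by
  have h0 := exp_pos (-B)
  have x0 : 0 < x := h0.trans_le hx
  have y0 : 0 < y := h0.trans_le hy
  have h1 := Real.log_le_sub_one_of_pos (div_pos y0 x0)
  rw [log_div y0.ne' x0.ne'] at h1
  have h2 : (x * y)⁻¹ ≤ exp (2 * B) := by
    rw [inv_le_comm₀ (by positivity) (exp_pos _), ← exp_neg,
      (by ring : -(2 * B) = -B + -B), exp_add]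
    exact mul_le_mul hx hy h0.le x0.le
  have h3 : y / x - 1 = (x * y)⁻¹ * (x - y) ^ 2 - (y⁻¹ * x - 1) := by field_simp; ring
  nlinarith [mul_le_mul_of_nonneg_right h2 (sq_nonneg (x - y))]

variable {S Ξ Λ A : Type} [Fintype Ξ] [Fintype A] {p : Ξ → ℝ} {y : Ξ → S → ℝ} {B δ m : ℝ} {L : ℕ}
  {X : (S → ℝ) → ℝ} {τ : (S → ℝ) → A → ℝ} {μ : A → Ξ → ℝ} {Yc : (S → ℝ) → A → Ξ → ℝ}

lemma bar (hL : Lev Λ p y B δ L m X τ μ Yc) (H : S → ℝ) (ξ : Ξ) :
    ∑ c, τ H c * exp (m * Yc H c ξ) = exp (m * (X (H + y ξ) - X H)) := by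
  rw [← scon (hL.pr (H + y ξ)).2 (exp _)]
  refine sum_congr rfl fun c _ => ?_
  rw [hL.tilt, mul_assoc, ← exp_add]
  congr 2; ring

lemma root (hS : SApi) {C : ℝ} (hB : 0 ≤ B) (hp : PrP p) (h0 : 0 < m) (h1 : m ≤ 1)
    (hL : Lev Λ p y B δ L m X τ μ Yc) (H : S → ℝ) (F : Ξ → Λ)
    (fo : ∀ (Ψ : Ξ → ℝ) (g : ℝ), Meas F Ψ → (∀ ξ, |Ψ ξ| ≤ g) →
      |∑ c, τ H c * Ex p (fun ξ => Ψ ξ * cl B (den p F (μ c) ξ)) -
        Ex p (fun ξ => Ψ ξ * ∑ c, τ H c * exp (m * Yc H c ξ))| ≤ g * (C * √δ))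
    (l2 : ∑ c, τ H c * Ex p (fun ξ => (cl B (den p F (μ c) ξ) -
        cE p F (fun ξ' => ∑ c', τ H c' * exp (m * Yc H c' ξ')) ξ) ^ 2) ≤
      ∑ c, τ H c * Ex p (fun ξ => exp (m * Yc H c ξ) ^ 2) -
        Ex p (fun ξ => (∑ c, τ H c * exp (m * Yc H c ξ)) ^ 2) + C * δ) :
    Ex p (fun ξ => X (H + y ξ) - X H) - m * (B ^ 2 * exp B ^ 4) -
        (exp B * (C * √δ) + exp (2 * B) * (C * δ)) / m ≤
      ∑ c, τ H c * Ex p (fun ξ => m⁻¹ * log (cl B (den p F (μ c) ξ))) := by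
  set Eb : Ξ → ℝ := fun ξ => ∑ c, τ H c * exp (m * Yc H c ξ) with hEb
  have hτ := hL.pr H
  have eb : ∀ ξ, Eb ξ = exp (m * (X (H + y ξ) - X H)) := bar hL H
  have ym := cE_mem hS F hp (f := Eb) fun ξ => by rw [eb]; exact ex_mem h0.le h1 (hL.bY H ξ)
  set yb := cE p F Eb with hyb
  have y0 : ∀ ξ, 0 < yb ξ := fun ξ => (exp_pos _).trans_le (ym ξ).1
  have mΨ : Meas F fun ξ => (yb ξ)⁻¹ := fun ξ ξ' e => congrArg _ (hS.den_meas p _ F ξ ξ' e)
  have e1 : Ex p (fun ξ => (yb ξ)⁻¹ * Eb ξ) = 1 := by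
    rw [← hS.ex_cE p Eb _ F hp mΨ, ← scon hp.2 1]
    exact sum_congr rfl fun ξ _ => congrArg _ (inv_mul_cancel₀ (y0 ξ).ne')
  have a1 := (abs_le.1 (fo _ (exp B) mΨ fun ξ => by
    rw [abs_of_pos (inv_pos.2 (y0 ξ)), inv_le_comm₀ (y0 ξ) (exp_pos _), ← exp_neg]
    exact (ym ξ).1)).1
  rw [e1] at a1
  have a2 : m * Ex p (fun ξ => X (H + y ξ) - X H) ≤ Ex p fun ξ => log (yb ξ) := by
    have := sle (prp hp).1 (f := fun ξ => m * (X (H + y ξ) - X H))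
      (g := fun ξ => log (yb ξ) + 1 * ((yb ξ)⁻¹ * Eb ξ) + 0 * 0 + -1) fun ξ => by
        have k := Real.log_le_sub_one_of_pos (div_pos (exp_pos (m * (X (H + y ξ) - X H))) (y0 ξ))
        rw [log_div (exp_pos _).ne' (y0 ξ).ne', log_exp, div_eq_inv_mul, ← eb] at k
        linarith
    rw [lin3 hp.2] at this
    unfold Ex at e1 ⊢
    rw [mul_sum]
    simp only [mul_left_comm m]
    linarith
  have a3 : ∑ c, τ H c * Ex p (fun ξ => exp (m * Yc H c ξ) ^ 2) ≤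
      Ex p (fun ξ => Eb ξ ^ 2) + (m * B * exp B) ^ 2 := by
    have k1 : ∀ ξ, ∑ c, τ H c * exp (m * Yc H c ξ) ^ 2 ≤
        Eb ξ ^ 2 + 0 * 0 + 0 * 0 + (m * B * exp B) ^ 2 := by
      intro ξ
      have k2 := sle hτ.1 (f := fun c => exp (m * Yc H c ξ) ^ 2)
        (g := fun c => 0 + 2 * exp (m * Yc H c ξ) + 0 * 0 + ((m * B * exp B) ^ 2 - 1)) fun c => by
          have k3 := ml h0.le (hL.bYc H c ξ)
          have k4 := (em1 (k3.trans (mul_le_of_le_one_left hB h1))).trans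
            (mul_le_mul_of_nonneg_right k3 (exp_pos B).le)
          nlinarith [sq_le_sq' (abs_le.1 k4).1 (abs_le.1 k4).2]
      rw [lin3 hτ.2] at k2
      simp only [mul_zero, sum_const_zero] at k2
      nlinarith [sq_nonneg (Eb ξ - 1)]
    have k5 := sle (prp hp).1 k1
    rw [lin3 hp.2] at k5
    unfold Ex
    simp only [mul_sum] at k5 ⊢
    rw [sum_comm]
    simp only [mul_left_comm (τ H _)]
    simpa using k5
  have a4 : ∑ c, τ H c * (Ex p (fun ξ => log (yb ξ)) +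
      1 * Ex p (fun ξ => (yb ξ)⁻¹ * cl B (den p F (μ c) ξ)) +
      -exp (2 * B) * Ex p (fun ξ => (cl B (den p F (μ c) ξ) - yb ξ) ^ 2) + -1) ≤
      ∑ c, τ H c * Ex p (fun ξ => log (cl B (den p F (μ c) ξ))) := sle hτ.1 fun c => by
    unfold Ex
    rw [← lin3 hp.2]
    exact sle (prp hp).1 fun ξ => lg (cl_mem hB _).1 (ym ξ).1
  rw [lin3 hτ.2, scon hτ.2] at a4
  have e2 : ∑ c, τ H c * Ex p (fun ξ => m⁻¹ * log (cl B (den p F (μ c) ξ))) =
      (∑ c, τ H c * Ex p (fun ξ => log (cl B (den p F (μ c) ξ)))) / m := by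
    unfold Ex
    rw [div_eq_inv_mul, mul_sum]
    refine sum_congr rfl fun c _ => ?_
    rw [mul_left_comm, mul_sum _ _ m⁻¹]
    simp only [mul_left_comm m⁻¹]
  have e3 : exp (2 * B) = exp B ^ 2 := by rw [← exp_nat_mul]; norm_num
  rw [e2, le_div_iff₀ h0, sub_mul, div_mul_cancel₀ _ h0.ne']
  have a5 := mul_le_mul_of_nonneg_left (l2.trans (add_le_add_left (sub_le_iff_le_add'.2 a3) _))
    (exp_pos (2 * B)).le
  have e4 : exp (2 * B) * (m * B * exp B) ^ 2 = m * (B ^ 2 * exp B ^ 4) * m := by rw [e3]; ring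
  nlinarith

lemma key (hS : SApi) (hX : XApi) [Fintype S] [Nonempty S] {μ0 C Δ q b2 e : ℝ} {r n : ℕ}
    {lab : List (ℝ × (Fin n → Option Ξ)) → Ξ → Λ} (hp : PrP p) (hy : ∀ ξ σ, |y ξ σ| ≤ B)
    (hμ : 0 < μ0) (hC0 : 0 ≤ C) (hΔ : 0 ≤ Δ) (hb2 : b2 = exp (2 * B))
    (he : e = C * (Δ ^ 2 + √δ) + C * Δ * (b2 * (exp (2 * Δ * B) - 1))) (hN : Nested lab)
    (hF : ∀ hist, hist.length ≤ r → Few L (lab hist))
    (M1 : ∀ (m : ℝ) (ms : List ℝ), 0 < m → m ≤ 1 → (∀ m' ∈ ms, 0 < m') →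
      Lev Λ p y B δ L m (XX (sw p q n) (sh y n) (m :: ms)) (tau (sw p q n) (sh y n) m ms) (smu q n)
          (fun H γ ξ => YY (sw p q n) (sh y n) ms (H + sh y n γ) (y ξ)) ∧
        ∀ (H : S → ℝ) (F : Ξ → Λ), Few L F →
          AMP p y F (tau (sw p q n) (sh y n) m ms H) (sh y n) (smu q n)
            (fun γ ξ => exp (m * YY (sw p q n) (sh y n) ms (H + sh y n γ) (y ξ)))
            ((1 - q) / (q * n)) δ)
    (M2 : Lev Λ p y B δ L 1 (XX (sw p q n) (sh y n) []) gib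
      (fun σ ξ => p ξ * exp (y ξ σ)) (fun _ σ ξ => y ξ σ))
    (hs : ∀ (A : Type) [Fintype A] (m m' : ℝ) (ctx : List (ℝ × (Ξ → Λ))) (F : Ξ → Λ)
      (F' : (Fin n → Option Ξ) → Ξ → Λ)
      (X : (S → ℝ) → ℝ) (τ' : (S → ℝ) → A → ℝ) (μ' : A → Ξ → ℝ) (Yc : (S → ℝ) → A → Ξ → ℝ)
      (H : S → ℝ) (τ : (Fin n → Option Ξ) → ℝ) (h : (Fin n → Option Ξ) → S → ℝ)
      (μ : (Fin n → Option Ξ) → Ξ → ℝ),
      μ0 ≤ m → m ≤ m' → m' ≤ m + Δ → m' ≤ 1 →
      CtxOk m F ctx → Few L F → (∀ γ, Few L (F' γ)) → (∀ γ, Meas (F' γ) F) →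
      Lev Λ p y B δ L m' X τ' μ' Yc → Pr τ → (∀ γ ξ, 0 ≤ μ γ ξ) →
      AM p F τ μ (fun γ ξ => exp (m * (X (H + h γ + y ξ) - X (H + h γ)))) δ →
      AMP p y F τ h μ (fun γ ξ => exp (m * (X (H + h γ + y ξ) - X (H + h γ))))
        ((1 - q) / (q * n)) δ →
      ∑ γ, τ γ * SS p ctx (fun ξ => m⁻¹ * log (cl B (den p F (μ γ) ξ))) -
        C * (Δ * ∑ γ, τ γ * (∑ c, τ' (H + h γ) c *
              Ex p (fun ξ => exp (2 * m' * Yc (H + h γ) c ξ)) -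
            Ex p (fun ξ => exp (2 * m' * (X (H + h γ + y ξ) - X (H + h γ))))) + Δ ^ 2 + √δ) ≤
      ∑ γ, τ γ * ∑ c, τ' (H + h γ) c *
        SS p ((m, F) :: ctx) (fun ξ => m'⁻¹ * log (cl B (den p (F' γ) (μ' c) ξ)))) :
    ∀ ms : List ℝ, Chain Δ ms → μ0 ≤ nxt ms → ∃ (A : Type) (_ : Fintype A)
      (τ : (S → ℝ) → A → ℝ) (μ : A → Ξ → ℝ) (Yc : (S → ℝ) → A → Ξ → ℝ),
      Lev Λ p y B δ L (nxt ms) (XX (sw p q n) (sh y n) ms) τ μ Yc ∧
      ∀ hist H, CtxOk (nxt ms) (lab hist) (ctxOf lab hist) → hist.length + ms.length ≤ r →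
        ∑ c, τ H c * SS p (ctxOf lab hist)
            (fun ξ => (nxt ms)⁻¹ * log (cl B (den p (lab hist) (μ c) ξ))) -
          C * Δ * (b2 - ∑ c, τ H c * Ex p (fun ξ => exp (2 * nxt ms * Yc H c ξ))) -
          ms.length * e ≤ PE (sw p q n) (sh y n) ms hist H (frz p y lab) := by
  intro ms
  induction ms with
  | nil =>
    intro _ _
    refine ⟨S, inferInstance, _, _, _, M2, fun hist H _ _ => ?_⟩
    have k1 : ∑ σ, gib H σ * Ex p (fun ξ => exp (2 * nxt [] * y ξ σ)) ≤ b2 :=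
      sle_c (M2.pr H) fun σ => sle_c (prp hp) fun ξ => hb2 ▸ ex2 zero_le_one le_rfl (hy ξ σ)
    have k2 : ∑ σ, gib H σ * SS p (ctxOf lab hist) (fun ξ => (nxt [])⁻¹ *
        log (cl B (den p (lab hist) (fun ξ => p ξ * exp (y ξ σ)) ξ))) =
        PE (sw p q n) (sh y n) [] hist H (frz p y lab) := by
      refine sum_congr rfl fun σ _ => congrArg _ (congrArg _ (funext fun ξ => ?_))
      have k3 := cE_mem hS (lab hist) hp (f := fun ξ => exp (y ξ σ)) (fun ξ =>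
        ⟨exp_le_exp.2 (abs_le.1 (hy ξ σ)).1, exp_le_exp.2 (abs_le.1 (hy ξ σ)).2⟩) ξ
      rw [show nxt [] = 1 from rfl, inv_one, one_mul]
      exact congrArg _ (cl_eq k3)
    rw [k2]
    simp only [List.length_nil, Nat.cast_zero, zero_mul, sub_zero]
    exact sub_le_self _ (mul_nonneg (by positivity) (sub_nonneg.2 k1))
  | cons m ms ih =>
    rintro ⟨c1, c2, c3⟩ (c4 : μ0 ≤ m)
    obtain ⟨A, _, τ, μ, Yc, l1, l2⟩ := ih c3 (c4.trans c1)
    have m0 : 0 < m := hμ.trans_le c4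
    obtain ⟨d1, d2, -⟩ := hX.chain Δ ms c3
    obtain ⟨n1, n2⟩ := M1 m ms m0 (c1.trans d1) fun m' h => m0.trans_le (c1.trans (d2 m' h).1)
    refine ⟨_, inferInstance, _, _, _, n1, fun hist H k1 k2 => ?_⟩
    rw [List.length_cons] at k2
    have f1 := hF hist (by omega)
    have st := hs A m (nxt ms) (ctxOf lab hist) (lab hist)
      (fun γ => lab ((m, γ) :: hist)) _ τ μ Yc H _ (sh y n) (smu q n) c4 c1 c2 d1 k1 f1
      (fun γ => hF _ (by rw [List.length_cons]; omega)) (fun γ => hN _ _) l1 (n1.pr H) n1.mu0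
      (n1.am H _ f1) (n2 H _ f1)
    have hτ := n1.pr H
    have s1 := sle hτ.1 (f := fun γ => (∑ c, τ (H + sh y n γ) c * SS p
        ((m, lab hist) :: ctxOf lab hist) fun ξ => (nxt ms)⁻¹ *
          log (cl B (den p (lab ((m, γ) :: hist)) (μ c) ξ))) +
        C * Δ * (∑ c, τ (H + sh y n γ) c *
          Ex p (fun ξ => exp (2 * nxt ms * Yc (H + sh y n γ) c ξ))) + 0 * 0 +
        -(C * Δ * b2 + ms.length * e))
      (g := fun γ => PE (sw p q n) (sh y n) ms ((m, γ) :: hist) (H + sh y n γ) (frz p y lab))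
      fun γ => by
        have := l2 ((m, γ) :: hist) (H + sh y n γ) ⟨m0, c1, hN _ _, k1⟩
          (by rw [List.length_cons]; omega)
        simp only [ctxOf] at this
        linarith
    rw [lin3 hτ.2] at s1
    have s2 := sle hτ.1
      (f := fun γ => Ex p fun ξ => exp (2 * m * YY (sw p q n) (sh y n) ms (H + sh y n γ) (y ξ)))
      (g := fun γ => Ex p (fun ξ => exp (2 * nxt ms *
        YY (sw p q n) (sh y n) ms (H + sh y n γ) (y ξ))) + 0 * 0 + 0 * 0 +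
        b2 * (exp (2 * Δ * B) - 1)) fun γ => by
        have := sle (prp hp).1 (g := fun ξ => exp (2 * nxt ms *
          YY (sw p q n) (sh y n) ms (H + sh y n γ) (y ξ)) + 0 * 0 + 0 * 0 +
          b2 * (exp (2 * Δ * B) - 1)) fun ξ =>
            (ex3 m0.le c1 c2 d1 (n1.bYc H γ ξ)).trans_eq (by rw [hb2]; ring)
        rw [lin3 hp.2] at this
        unfold Ex
        linarith
    rw [lin3 hτ.2] at s2
    have s3 := mul_le_mul_of_nonneg_left s2 (mul_nonneg hC0 hΔ)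
    rw [List.length_cons, PE, show nxt (m :: ms) = m from rfl]
    push_cast
    unfold YY at s3 ⊢
    simp only [mul_sub, sum_sub_distrib] at st s3 ⊢
    linarith

end Vth

open Vth in
theorem vStmt (hS : SApi) (hX : XApi) (hM : MeckeStmt) (hC : ConsStmt) (hSt : StepStmt) :
    VStmt := by
  intro B ε hB hε
  obtain ⟨Cc, hCc, hc⟩ := hC B hB
  refine ⟨ε / (4 * (B ^ 2 * exp B ^ 4 + 1)), by positivity, fun μ0 hμ hμ1 => ?_⟩
  obtain ⟨C, hC0, hs⟩ := hSt B μ0 hB hμ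
  set b2 := exp (2 * B) with hb2
  have b20 : 0 < b2 := exp_pos _
  set K1 := C * b2 + C + C * b2 * (2 * B * b2) + 1 with hK1
  have K10 : 0 < K1 := by positivity
  refine ⟨min 1 (ε / (4 * K1)), by positivity, fun Δ r L hΔ hΔ0 hr => ?_⟩
  have hΔ1 : Δ ≤ 1 := hΔ0.trans (min_le_left _ _)
  have hΔ2 : Δ * K1 ≤ ε / 4 := by
    have := hΔ0.trans (min_le_right _ _)
    rw [le_div_iff₀ (by positivity)] at this ⊢
    linarith
  set K2 := (exp B * Cc + b2 * Cc) / μ0 + r * C + 1 with hK2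
  have K20 : 0 < K2 := by positivity
  set η := min 1 (ε / (4 * K2)) with hη
  have η0 : 0 < η := by positivity
  have η1 : η ≤ 1 := min_le_left _ _
  have η2 : η * K2 ≤ ε / 4 := by
    have : η ≤ ε / (4 * K2) := min_le_right _ _
    rw [le_div_iff₀ (by positivity)] at this ⊢
    linarith
  set q := min (1 / 2) (η ^ 2 / (4 * exp B ^ 2)) with hq
  have q0 : 0 < q := by positivity
  have q1 : q ≤ 1 / 2 := min_le_left _ _
  have q2 : q * (4 * exp B ^ 2) ≤ η ^ 2 := (le_div_iff₀ (by positivity)).1 (min_le_right _ _)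
  obtain ⟨n, hn⟩ := exists_nat_gt (2 * exp B * L / (q * η ^ 2))
  have n0 : (0 : ℝ) < n := lt_of_le_of_lt (by positivity) hn
  refine ⟨q, n, q0, q1, by exact_mod_cast n0, ?_⟩
  intro S Ξ Λ _ _ _ p y lab ms H hp hy hch hnx hlen hN hF
  obtain ⟨M1, M2⟩ := hM S Ξ Λ p y B q L n hp hB hy q0 q1 (by exact_mod_cast n0)
  set δ := exp B * (L / (q * n) + 2 * exp B * q) with hδ
  have δ0 : 0 < δ := by positivity
  have δ1 : δ ≤ η ^ 2 := by
    rw [div_lt_iff₀ (by positivity)] at hn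
    have : exp B * (L / (q * n)) ≤ η ^ 2 / 2 := by
      rw [← mul_div_assoc, div_le_iff₀ (by positivity)]; linarith
    rw [hδ, mul_add]; linarith
  have δ2 : √δ ≤ η := sqrt_le_iff.2 ⟨η0.le, δ1⟩
  have δ3 : δ ≤ η := δ1.trans (by nlinarith)
  obtain ⟨e, he⟩ : ∃ e, e = C * (Δ ^ 2 + √δ) + C * Δ * (b2 * (exp (2 * Δ * B) - 1)) := ⟨_, rfl⟩
  obtain ⟨A, _, τ, μ, Yc, l1, l2⟩ := key hS hX hp hy hμ hC0 hΔ hb2 he hN hF M1 M2
    (fun A _ m m' ctx F F' X τ' μ' Yc H τ h μ a1 a2 a3 a4 => hs S Ξ Λ _ A p y δ Δ m m' _ L ctx F F'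
      X τ' μ' Yc H τ h μ hp δ0 (δ3.trans η1) hΔ hΔ1 a1 a2 a3 a4
      (div_nonneg (by linarith) (by positivity))) ms hch hnx.ge
  have m1 := (hX.chain Δ ms hch).1
  have l3 := l2 [] H trivial (by simpa using hlen)
  rw [hnx] at l1 l3 m1
  obtain ⟨-, fo, l4⟩ := hc Ξ Λ A p (lab []) (τ H) μ (fun c ξ => exp (μ0 * Yc H c ξ)) δ hp (l1.pr H)
    l1.mu0 (fun c ξ => ex_mem hμ.le m1 (l1.bYc H c ξ)) δ0 (δ3.trans η1)
    (l1.am H _ (hF [] (Nat.zero_le _)))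
  have l5 := root hS hB hp hμ m1 l1 H (lab []) fo l4
  have t0 : 0 ≤ C * Δ * ∑ c, τ H c * Ex p (fun ξ => exp (2 * μ0 * Yc H c ξ)) :=
    mul_nonneg (mul_nonneg hC0 hΔ) (sum_nonneg fun c _ => mul_nonneg ((l1.pr H).1 c)
      (sum_nonneg fun ξ _ => mul_nonneg (hp.1 ξ).le (exp_pos _).le))
  have t1 : μ0 * (B ^ 2 * exp B ^ 4) ≤ ε / 4 := by
    rw [le_div_iff₀ (by positivity)] at hμ1 ⊢
    linarith
  have t2 : (exp B * (Cc * √δ) + b2 * (Cc * δ)) / μ0 ≤ η * ((exp B * Cc + b2 * Cc) / μ0) := by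
    rw [← mul_div_assoc]
    refine div_le_div_of_nonneg_right ?_ hμ.le
    linarith [mul_le_mul_of_nonneg_left δ2 (by positivity : 0 ≤ exp B * Cc),
      mul_le_mul_of_nonneg_left δ3 (by positivity : 0 ≤ b2 * Cc)]
  have t3 : exp (2 * Δ * B) - 1 ≤ 2 * Δ * B * b2 := by
    have h0 : 0 ≤ 2 * Δ * B := by positivity
    have := em1 (t := 2 * Δ * B) (B := 2 * B) (by
      rw [abs_of_nonneg h0]; linarith [mul_le_mul_of_nonneg_right hΔ1 hB])
    rw [abs_of_nonneg h0] at this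
    exact (le_abs_self _).trans this
  have t4 : 0 ≤ b2 * (exp (2 * Δ * B) - 1) :=
    mul_nonneg b20.le (sub_nonneg.2 (one_le_exp (by positivity)))
  have t5 : (ms.length : ℝ) * e ≤ r * e :=
    mul_le_mul_of_nonneg_right (by exact_mod_cast hlen) (by rw [he]; positivity)
  have t6 := mul_le_mul_of_nonneg_right hr (mul_nonneg hC0 hΔ)
  have t7 := mul_le_mul_of_nonneg_left δ2 (by positivity : 0 ≤ r * C)
  have t8 := mul_le_mul hr (mul_le_mul_of_nonneg_left t3 b20.le) t4 zero_le_one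
  have t9 := mul_le_mul_of_nonneg_left t8 hC0
  simp only [ctxOf, SS] at l3
  unfold YY
  rw [hK1] at hΔ2
  rw [hK2] at η2
  rw [← hb2] at l5
  have t10 : r * e = r * (C * (Δ ^ 2 + √δ) + C * Δ * (b2 * (exp (2 * Δ * B) - 1))) := by rw [he]
  linarith

end

end Vale.Agent.P168
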